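import Vale.Agent.P013.Weights

/-!
The linear sieve below level two when a positive proportion of the primes of a band is missing.
-/

open Finset Real

namespace Vale.Agent.P013

lemma exists_pow_two_ge (A : ℝ) : ∃ j : ℕ, A * ((j:ℝ) + 1) ^ 2 ≤ 2 ^ j := by
  have h0 : Filter.Tendsto (fun j : ℕ => 4 * A * ((j:ℝ) ^ 2 * (1/2) ^ j)) Filter.atTop (nhds 0) := by
    simpa using (tendsto_pow_const_mul_const_pow_of_abs_lt_one 2
      (show |(1/2:ℝ)| < 1 by norm_num)).const_mul (4 * A)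
  obtain ⟨j, hj, hj1⟩ := ((h0.eventually_lt_const one_pos).and (Filter.eventually_ge_atTop 1)).exists
  refine ⟨j, ?_⟩
  rcases le_or_gt A 0 with hA | hA
  · exact (mul_nonpos_of_nonpos_of_nonneg hA (sq_nonneg _)).trans (by positivity)
  · have h1 : ((j:ℝ) + 1) ^ 2 ≤ 4 * (j:ℝ) ^ 2 := by
      have : (1:ℝ) ≤ j := by exact_mod_cast hj1
      nlinarith
    have h2 : 4 * A * (j:ℝ) ^ 2 ≤ 2 ^ j := by
      have := mul_lt_mul_of_pos_right hj (show (0:ℝ) < 2 ^ j by positivity)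
      rw [show 4 * A * ((j:ℝ) ^ 2 * (1/2) ^ j) * 2 ^ j = 4 * A * (j:ℝ) ^ 2 * ((1/2) * 2) ^ j by
        rw [mul_pow]; ring] at this
      norm_num at this
      linarith
    have := mul_le_mul_of_nonneg_left h1 hA.le
    linarith

/-- Tiny primes as a good base set. -/
lemma good_tiny {θ : ℝ} (hθ : 0 < θ) (hθ1 : θ ≤ 1) : ∃ L₀ : ℝ, 0 < L₀ ∧ ∀ (e : ℝ) (r : ℕ),
    (∀ (S : Finset ℕ) (Z : ℝ) (J : ℕ), (∀ p ∈ S, p.Prime ∧ Real.log p ≤ Z) → 0 ≤ Z →
      Z / 2 ^ J < Real.log 2 → ∀ (N : ℕ) (a : ℕ → ℤ), |(cnt N a S : ℝ) - N * dens S| ≤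
        e * (N * dens S) + ((J:ℝ) + 1) * Real.exp ((4 * r + 10) * Z)) →
    ∀ (L : ℝ) (S : Finset ℕ), L₀ ≤ L → (∀ p ∈ S, p.Prime ∧ Real.log p ≤ θ * L) →
      Good θ L ((4 * r + 11) * θ) e S := by
  refine ⟨8 / θ ^ 2 + 1, by positivity, fun e r hfund L S hL hS => ⟨by positivity, hS, fun M b => ?_⟩⟩
  have hL1 : 1 ≤ L := by
    have : 0 ≤ 8 / θ ^ 2 := by positivity
    linarith
  set Z := θ * L with hZ
  have hZ0 : 0 ≤ Z := by positivity
  have hJ : Z / 2 ^ (⌈Z⌉₊ + 1) < Real.log 2 := by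
    have h2 : ((⌈Z⌉₊ + 1 : ℕ):ℝ) ≤ 2 ^ ⌈Z⌉₊ := by
      exact_mod_cast Nat.succ_le_of_lt (Nat.lt_two_pow_self)
    have h3 : Z ≤ ⌈Z⌉₊ := Nat.le_ceil Z
    push_cast at h2
    rw [div_lt_iff₀ (by positivity), pow_succ]
    nlinarith [Real.log_two_gt_d9]
  refine (hfund S Z _ hS hZ0 hJ M b).trans (add_le_add le_rfl ?_)
  have h5 : ((⌈Z⌉₊ + 1 : ℕ):ℝ) + 1 ≤ L + 3 := by
    have := Nat.ceil_lt_add_one hZ0
    have : Z ≤ L := mul_le_of_le_one_left (by linarith) hθ1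
    push_cast; linarith
  have h6 : L + 3 ≤ Real.exp Z := by
    refine le_trans ?_ (Real.quadratic_le_exp_of_nonneg hZ0)
    have h7 : 8 ≤ θ ^ 2 * L := by
      have : 8 / θ ^ 2 ≤ L := by linarith
      rw [div_le_iff₀ (by positivity)] at this
      linarith
    have := mul_le_mul_of_nonneg_right h7 (show 0 ≤ L by linarith)
    rw [hZ]
    nlinarith
  calc (((⌈Z⌉₊ + 1 : ℕ):ℝ) + 1) * Real.exp ((4 * r + 10) * Z)
      ≤ Real.exp Z * Real.exp ((4 * r + 10) * Z) :=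
        mul_le_mul_of_nonneg_right (h5.trans h6) (Real.exp_pos _).le
    _ = Real.exp ((4 * r + 11) * θ * L) := by rw [← Real.exp_add, hZ]; congr 1; ring

/-- The main term of one Buchstab step at level `v`. -/
noncomputable def stepMain (θ v L : ℝ) (p : ℕ) : ℝ :=
  θ / (Real.log p / L) * upN ((v - Real.log p / L) / (Real.log p / L))

lemma arg_bounds {τ w : ℝ} (hτ0 : 0 ≤ τ) (hτ : τ ≤ 1/2) (hw0 : 0 < w) (hw1 : w ≤ 1) :
    1/2 ≤ (2 - τ - w) / w ∧ (2 - τ - w) / w ≤ (2 - w) / w := by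
  constructor
  · rw [le_div_iff₀ hw0]; linarith
  · exact div_le_div_of_nonneg_right (by linarith) hw0.le

/-- The main terms for full bands: nearly `1` in total, and each exceeds the partial deficit. -/
lemma main_terms {θ ε : ℝ} (hθ : 0 < θ) (hθ1 : θ ≤ 1) (hε : 0 < ε) :
    ∃ L₀ : ℝ, 0 < L₀ ∧ ∀ L τ C S : ℝ, L₀ ≤ L → 0 ≤ τ → τ ≤ 1/2 → 0 ≤ C →
      (∀ a b : ℝ, 1/2 ≤ a → a ≤ b → upN a - upN b ≤ C * ((b - a) / a ^ 2)) →
      ∑ p ∈ logPrimes (θ * L) (1 * L), 1 / (p:ℝ) ≤ S →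
      -(ε + 4 * C * θ * τ * S) ≤
        1 - ∑ p ∈ logPrimes (θ * L) (1 * L), 1 / (p:ℝ) * stepMain θ (2 - τ) L p ∧
      ∀ q ∈ logPrimes (θ * L) (1 * L), θ / (Real.log q / L) *
          (upN ((2 - τ - Real.log q / L) / (Real.log q / L)) - 1) - 2 * ε ≤
        stepMain θ (2 - τ) L q - (1 - ∑ p ∈ (logPrimes (θ * L) (1 * L)).filter (· < q),
          1 / (p:ℝ) * stepMain θ (2 - τ) L p) := by
  obtain ⟨L₁, hL₁, hgrid⟩ := grid_sum hθ hθ1 hε (max (upN 1) 1) (le_max_of_le_right zero_le_one)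
  refine ⟨max L₁ (1 / (θ * ε)), lt_max_of_lt_left hL₁, fun L τ C S hL hτ0 hτ hC hlip hS => ?_⟩
  have hL1' : L₁ ≤ L := (le_max_left _ _).trans hL
  have hL0 : 0 < L := hL₁.trans_le hL1'
  set A := logPrimes (θ * L) (1 * L) with hA
  have hw : ∀ p ∈ A, 0 < Real.log p / L ∧ θ < Real.log p / L ∧ Real.log p / L ≤ 1 := fun p hp =>
    ⟨hθ.trans (mem_props hL0 hp).2.1, (mem_props hL0 hp).2.1, (mem_props hL0 hp).2.2.1⟩
  constructor
  · have h2 : ∑ p ∈ A, 1 / (p:ℝ) * (fun w => θ / w * upN (2 / w - 1)) (Real.log p / L) ≤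
        1 + ε := by
      have harg : ∀ w, θ ≤ w → w ≤ 1 → 1 ≤ 2 / w - 1 := by
        intro w h1 h2
        rw [le_sub_iff_add_le, le_div_iff₀ (by linarith)]
        linarith
      refine ((hgrid L 1 hL1' hθ1 le_rfl).1 (fun w => θ / w * upN (2 / w - 1))
        (fun w => -(θ / w * lowN (2 / w))) (fun w => θ * upN (2 / w - 1)) ?_ ?_ ?_).trans ?_
      · intro x y hx hxy hy
        refine ⟨le_trans ?_ (le_max_left _ _), mul_nonneg hθ.le (upN_nonneg (by
            linarith [harg x hx (hxy.trans hy)])),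
          mul_le_mul_of_nonneg_left (upN_antitone (by linarith [harg y (hx.trans hxy) hy])
            (sub_le_sub_right (div_le_div_of_nonneg_left two_pos.le (by linarith) hxy) 1)) hθ.le⟩
        calc θ * upN (2 / y - 1) ≤ 1 * upN 1 :=
              mul_le_mul hθ1 (upN_antitone one_pos (harg y (hx.trans hxy) hy))
                (upN_nonneg (by linarith [harg y (hx.trans hxy) hy])) zero_le_one
          _ = upN 1 := one_mul _
      · intro x y hx hxy hy
        have hx0 : 0 < x := hθ.trans_le hx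
        have hy0 : 0 < y := by linarith
        have h := low_step (a := 2 / y) (b := 2 / x)
          (by linarith [harg y (hx.trans hxy) hy]) (div_le_div_of_nonneg_left two_pos.le hx0 hxy)
        have := mul_le_mul_of_nonneg_left h (show 0 ≤ θ / 2 by positivity)
        calc θ * upN (2 / x - 1) * ((y - x) / (x * y))
            = θ / 2 * (upN (2 / x - 1) * (2 / x - 2 / y)) := by field_simp
          _ ≤ θ / 2 * (2 / x * lowN (2 / x) - 2 / y * lowN (2 / y)) := this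
          _ = _ := by field_simp; ring
      · intro x y w hx hxw hwy hy
        have hw0 : 0 < w := by linarith
        have h1 : upN (2 / w - 1) ≤ upN (2 / y - 1) :=
          upN_antitone (by linarith [harg y (by linarith) hy]) (sub_le_sub_right
            (div_le_div_of_nonneg_left two_pos.le hw0 hwy) 1)
        calc θ / w * upN (2 / w - 1) = θ * upN (2 / w - 1) / w := by ring
          _ ≤ θ * upN (2 / y - 1) / x :=
              div_le_div₀ (mul_nonneg hθ.le (upN_nonneg (by linarith [harg y (by linarith) hy])))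
                (mul_le_mul_of_nonneg_left h1 hθ.le) (by linarith) hxw.le
      · rw [div_self hθ.ne', one_mul, show (2:ℝ) / 1 = 2 by norm_num, lowN_two]
        have : lowN (2 / θ) ≤ 1 := lowN_le_one (by rw [le_div_iff₀ hθ]; linarith)
        linarith
    have h3 : ∀ p ∈ A, 1 / (p:ℝ) * stepMain θ (2 - τ) L p ≤
        1 / (p:ℝ) * (fun w => θ / w * upN (2 / w - 1)) (Real.log p / L) +
          4 * C * θ * τ * (1 / (p:ℝ)) := by
      intro p hp
      obtain ⟨hw0, hw1, hw2⟩ := hw p hp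
      set w := Real.log p / L with hwdef
      obtain ⟨ha, hab⟩ := arg_bounds hτ0 hτ hw0 hw2
      have h := hlip _ _ ha hab
      have hd : ((2 - w) / w - (2 - τ - w) / w) / ((2 - τ - w) / w) ^ 2 ≤ 4 * τ * w := by
        have hs : (1/2:ℝ) ≤ 2 - τ - w := by linarith
        have hq : (1:ℝ) ≤ 4 * (2 - τ - w) ^ 2 := by nlinarith
        have e : ((2 - w) / w - (2 - τ - w) / w) / ((2 - τ - w) / w) ^ 2 =
            τ * w / (2 - τ - w) ^ 2 := by field_simp; ring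
        rw [e, div_le_iff₀ (by positivity)]
        have := mul_le_mul_of_nonneg_left hq (mul_nonneg hτ0 hw0.le)
        linarith
      have h4 : upN ((2 - τ - w) / w) ≤ upN (2 / w - 1) + C * (4 * τ * w) := by
        rw [show 2 / w - 1 = (2 - w) / w by field_simp]
        linarith [mul_le_mul_of_nonneg_left hd hC]
      have h5 := mul_le_mul_of_nonneg_left (mul_le_mul_of_nonneg_left h4 (div_nonneg hθ.le hw0.le))
        (show (0:ℝ) ≤ 1 / p by positivity)
      simp only [stepMain, ← hwdef]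
      refine h5.trans (le_of_eq ?_)
      field_simp
    have h4 := sum_le_sum h3
    rw [sum_add_distrib, ← mul_sum] at h4
    have h5 := mul_le_mul_of_nonneg_left hS (show 0 ≤ 4 * C * θ * τ by positivity)
    linarith
  · intro q hq
    obtain ⟨hqp, hw1, hw2, -⟩ := mem_props hL0 hq
    set w := Real.log q / L with hwdef
    have hw0 : 0 < w := hθ.trans hw1
    have h1 := (hgrid L w hL1' hw1.le hw2).2 (fun x => θ / x) (fun x => -(θ / x)) (fun _ => θ)
      (fun a b _ _ _ => ⟨hθ1.trans (le_max_right _ _), hθ.le, le_rfl⟩)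
      (fun a b ha hab _ => by
        have : 0 < a := hθ.trans_le ha
        have : 0 < b := by linarith
        refine le_of_eq ?_
        field_simp
        ring)
      (fun a b x ha hax hxb _ => div_le_div_of_nonneg_left hθ.le (by linarith) hxb)
    rw [div_self hθ.ne'] at h1
    have hins := below_eq hL0 hq
    rw [← hwdef] at hins
    rw [← hins, sum_insert (s := (logPrimes (θ * L) (1 * L)).filter (· < q))
      (fun h => lt_irrefl q (mem_filter.1 h).2)] at h1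
    have hqe : 1 / (q:ℝ) * (θ / w) ≤ ε := by
      have h2 : θ / w ≤ 1 := (div_le_one hw0).2 hw1.le
      have hlog : θ * L < Real.log q := (mem_logPrimes.1 hq).2.1
      have h3 : Real.log q ≤ (q:ℝ) := by
        linarith [Real.log_le_sub_one_of_pos (show (0:ℝ) < q by exact_mod_cast hqp.pos)]
      have h4 : 1 / (θ * ε) ≤ L := (le_max_right _ _).trans hL
      rw [div_le_iff₀ (by positivity)] at h4
      have h5 : 1 / (q:ℝ) ≤ ε := by
        rw [div_le_iff₀ (by exact_mod_cast hqp.pos)]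
        nlinarith
      calc 1 / (q:ℝ) * (θ / w) ≤ ε * 1 := mul_le_mul h5 h2 (by positivity) hε.le
        _ = ε := mul_one ε
    have h6 : ∑ p ∈ A.filter (· < q), 1 / (p:ℝ) * (θ / (Real.log p / L)) ≤
        ∑ p ∈ A.filter (· < q), 1 / (p:ℝ) * stepMain θ (2 - τ) L p := by
      refine sum_le_sum fun p hp => mul_le_mul_of_nonneg_left ?_ (by positivity)
      obtain ⟨hp0, -, hp2⟩ := hw p (mem_filter.1 hp).1
      refine le_mul_of_one_le_right (div_nonneg hθ.le hp0.le) (one_le_upN ?_)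
      linarith [(arg_bounds hτ0 hτ hp0 hp2).1]
    simp only [stepMain, ← hwdef, ← hA] at h1 h6 ⊢
    linarith

/-- One hit over a subset of the band. -/
lemma hit_subset {θ L v η e ε₁ U K G₀ : ℝ} {S₀ Pb : Finset ℕ} {p : ℕ} {N : ℕ} {a : ℕ → ℤ}
    (hL : 0 < L) (hgood : Good θ L η e S₀) (hPb : Pb ⊆ logPrimes (θ * L) (1 * L)) (hp : p ∈ Pb)
    (hpε : 1 / (p:ℝ) ≤ ε₁) (hθ : 0 < θ) (he : 0 ≤ e) (he1 : e ≤ 1) (hε₁ : ε₁ ≤ 1) (hK : 0 ≤ K)
    (hG₀ : 1 ≤ G₀ * dens (logPrimes (θ * L) (1 * L)))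
    (hφ : 0 ≤ stepMain θ v L p ∧ stepMain θ v L p ≤ U)
    (hup : ∀ (M : ℕ) (b : ℕ → ℤ), (cnt M b (S₀ ∪ logPrimes (θ * L) (Real.log p / L * L)) : ℝ) ≤
      M * dens S₀ * (stepMain θ v L p + ε₁ + e * amp θ (Real.log p / L)) +
        K * (Real.exp ((v + η) * L) / p)) :
    (hits N a (S₀ ∪ Pb.filter (· < p)) p : ℝ) ≤
      N * dens S₀ * (1 / (p:ℝ) * stepMain θ v L p /
          dens (((logPrimes (θ * L) (1 * L)).filter (· < p)).filter (· ∉ Pb))) +
        N * dens S₀ * (G₀ * (ε₁ * (2 * U + 3) + 3 * (e / θ ^ 2))) * (1 / (p:ℝ)) +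
        3 * G₀ * (U + 1 + 1 / θ ^ 2) + 3 * G₀ * K * Real.exp ((v + η) * L) * (1 / (p:ℝ)) := by
  set A := logPrimes (θ * L) (1 * L) with hA
  set w := Real.log p / L with hwdef
  have hpA := hPb hp
  obtain ⟨hpp, hw1, hw2, -⟩ := mem_props hL hpA
  have hSp : ∀ q ∈ S₀, q.Prime := fun q hq => (hgood.2.1 q hq).1
  obtain ⟨hV0, hV1⟩ := dens_pos hSp
  set V := dens S₀ with hV
  have hpS : p ∉ S₀ := fun h => by
    linarith [(mem_logPrimes.1 hpA).2.1, (hgood.2.1 p h).2]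
  obtain ⟨M, b, hM, hhit⟩ := hits_progression N a (S₀ ∪ Pb.filter (· < p)) hpp (fun q hq => by
    rcases mem_union.1 hq with hq | hq
    · exact ⟨hSp q hq, fun h => hpS (h ▸ hq)⟩
    · exact ⟨(mem_logPrimes.1 (hPb (mem_filter.1 hq).1)).1, (mem_filter.1 hq).2.ne⟩)
  set Mx := (A.filter (· < p)).filter (· ∉ Pb) with hMx
  have hMxp : ∀ q ∈ Mx, q.Prime := fun q hq =>
    (mem_logPrimes.1 (mem_filter.1 (mem_filter.1 hq).1).1).1
  have hpMx : p ∉ Mx := fun h => lt_irrefl p (mem_filter.1 (mem_filter.1 h).1).2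
  obtain ⟨b', hb'⟩ := exists_extend M b (S₀ ∪ Pb.filter (· < p)) (insert p Mx) (fun q hq => by
    rcases mem_insert.1 hq with rfl | hq
    · exact ⟨hpp, fun h => (mem_union.1 h).elim hpS fun h => lt_irrefl _ (mem_filter.1 h).2⟩
    · refine ⟨hMxp q hq, fun h => ?_⟩
      rcases mem_union.1 h with h | h
      · linarith [(mem_logPrimes.1 (mem_filter.1 (mem_filter.1 hq).1).1).2.1, (hgood.2.1 q h).2]
      · exact (mem_filter.1 hq).2 (mem_filter.1 h).1)
  have hset : S₀ ∪ Pb.filter (· < p) ∪ insert p Mx = S₀ ∪ logPrimes (θ * L) (w * L) := by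
    rw [hwdef, ← below_eq hL hpA, union_assoc]
    congr 1
    ext q
    simp only [hMx, mem_union, mem_insert, mem_filter, ← hA]
    constructor
    · rintro (⟨h1, h2⟩ | h | ⟨h, -⟩)
      · exact Or.inr ⟨hPb h1, h2⟩
      · exact Or.inl h
      · exact Or.inr h
    · rintro (h | h)
      · exact Or.inr (Or.inl h)
      · by_cases hq : q ∈ Pb
        · exact Or.inl ⟨hq, h.2⟩
        · exact Or.inr (Or.inr ⟨h, hq⟩)
  rw [hset, dens_insert hpMx] at hb'
  have h1 := hb'.trans (hup M b')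
  rw [hhit]
  set x := stepMain θ v L p with hx
  set Ee := Real.exp ((v + η) * L) with hEe
  set D := dens Mx with hDdef
  have hD0 : 0 < D := (dens_pos hMxp).1
  have hDG : 1 / D ≤ G₀ := by
    have hsub : Mx ⊆ A := (filter_subset _ _).trans (filter_subset _ _)
    have hAp : ∀ q ∈ A, q.Prime := fun q hq => (mem_logPrimes.1 hq).1
    have hle : dens A ≤ D := by
      calc dens A = dens (Mx ∪ A \ Mx) := by rw [union_sdiff_of_subset hsub]
        _ = D * dens (A \ Mx) := dens_union disjoint_sdiff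
        _ ≤ D := mul_le_of_le_one_right hD0.le (dens_pos fun q hq => hAp q (mem_sdiff.1 hq).1).2
    rw [div_le_iff₀ hD0]
    have hG : 0 ≤ G₀ := by
      by_contra hc
      nlinarith [(dens_pos hAp).1]
    exact hG₀.trans (mul_le_mul_of_nonneg_left hle hG)
  have hp2 : (2:ℝ) ≤ p := by exact_mod_cast hpp.two_le
  set ip := 1 / (p:ℝ) with hip
  have hip0 : 0 ≤ ip := by positivity
  have hip1 : ip ≤ 1/2 := by rw [hip]; gcongr
  have hA1 : e * amp θ w ≤ e / θ ^ 2 := by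
    calc _ ≤ e * amp θ 1 := mul_le_mul_of_nonneg_left (amp_mono hθ hw1.le hw2) he
      _ = _ := by rw [amp, div_pow, one_pow, mul_one_div]
  set Y := x + ε₁ + e * amp θ w with hY
  have hea : 0 ≤ e * amp θ w := mul_nonneg he (sq_nonneg _)
  have hε0 : 0 ≤ ε₁ := hip0.trans hpε
  have hY0 : 0 ≤ Y := by rw [hY]; linarith
  have hN : (0:ℝ) ≤ N := Nat.cast_nonneg N
  have hMle : (M:ℝ) ≤ N * ip + 1 := by
    have := (abs_le.1 hM).2
    rw [hip, mul_one_div]; linarith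
  have h2 : (cnt M b (S₀ ∪ Pb.filter (· < p)) : ℝ) ≤
      (1 + 2 * ip) / D * ((N * ip + 1) * V * Y + K * Ee * ip) := by
    have hpos : 1 ≤ (1 + 2 * ip) * (1 - ip) := by nlinarith
    have h3 : (1 - ip) * D * cnt M b (S₀ ∪ Pb.filter (· < p)) ≤
        (N * ip + 1) * V * Y + K * Ee * ip := by
      refine h1.trans (add_le_add (mul_le_mul_of_nonneg_right
        (mul_le_mul_of_nonneg_right hMle hV0.le) hY0) (le_of_eq ?_))
      rw [hip]; ring
    rw [div_mul_eq_mul_div, le_div_iff₀ hD0]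
    have h4 := mul_le_mul_of_nonneg_left h3 (show 0 ≤ 1 + 2 * ip by linarith)
    have h5 := mul_le_mul_of_nonneg_right hpos (show 0 ≤ D * cnt M b (S₀ ∪ Pb.filter (· < p)) by
      positivity)
    linarith
  refine h2.trans ?_
  have hxY : (1 + 2 * ip) * Y ≤ x + (ε₁ * (2 * U + 3) + 3 * (e / θ ^ 2)) := by
    have := mul_le_mul hpε hφ.2 hφ.1 hε0
    have := mul_le_mul_of_nonneg_right hip1 (show 0 ≤ ε₁ + e * amp θ w by linarith)
    rw [hY]
    linarith
  have hU0 : 0 ≤ U := hφ.1.trans hφ.2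
  have he2 : 0 ≤ e / θ ^ 2 := by positivity
  have a1 : (1 + 2 * ip) / D * (N * ip * V * Y) ≤
      N * V * (ip * x / D) + N * V * (G₀ * (ε₁ * (2 * U + 3) + 3 * (e / θ ^ 2))) * ip := by
    calc (1 + 2 * ip) / D * (N * ip * V * Y) = N * V * ip * (((1 + 2 * ip) * Y) / D) := by ring
      _ ≤ N * V * ip * ((x + (ε₁ * (2 * U + 3) + 3 * (e / θ ^ 2))) / D) :=
          mul_le_mul_of_nonneg_left (div_le_div_of_nonneg_right hxY hD0.le) (by positivity)
      _ = N * V * (ip * x / D) +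
          N * V * ip * (1 / D * (ε₁ * (2 * U + 3) + 3 * (e / θ ^ 2))) := by ring
      _ ≤ N * V * (ip * x / D) +
          N * V * ip * (G₀ * (ε₁ * (2 * U + 3) + 3 * (e / θ ^ 2))) :=
          add_le_add le_rfl (mul_le_mul_of_nonneg_left
            (mul_le_mul_of_nonneg_right hDG (by positivity)) (by positivity))
      _ = _ := by ring
  have a2 : (1 + 2 * ip) / D ≤ 3 * G₀ := by
    calc (1 + 2 * ip) / D ≤ 3 / D := div_le_div_of_nonneg_right (by linarith) hD0.le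
      _ = 3 * (1 / D) := by ring
      _ ≤ _ := mul_le_mul_of_nonneg_left hDG (by norm_num)
  have hYB : V * Y ≤ U + 1 + 1 / θ ^ 2 := by
    refine le_trans (mul_le_of_le_one_left hY0 hV1) ?_
    have : e / θ ^ 2 ≤ 1 / θ ^ 2 := div_le_div_of_nonneg_right he1 (by positivity)
    rw [hY]; linarith [hφ.2]
  have hG3 : 0 ≤ 3 * G₀ := le_trans (by positivity) a2
  have a3 : (1 + 2 * ip) / D * (V * Y) ≤ 3 * G₀ * (U + 1 + 1 / θ ^ 2) :=
    mul_le_mul a2 hYB (by positivity) hG3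
  have a4 : (1 + 2 * ip) / D * (K * Ee * ip) ≤ 3 * G₀ * K * Ee * ip := by
    calc _ ≤ 3 * G₀ * (K * Ee * ip) := mul_le_mul_of_nonneg_right a2 (by positivity)
      _ = _ := by ring
  have e5 : (1 + 2 * ip) / D * (((N:ℝ) * ip + 1) * V * Y + K * Ee * ip) =
      (1 + 2 * ip) / D * (N * ip * V * Y) + (1 + 2 * ip) / D * (V * Y) +
        (1 + 2 * ip) / D * (K * Ee * ip) := by ring
  rw [e5]
  linarith

/-- The weighted main term keeps a proportional margin when primes above `θ L` are missing. -/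
lemma deficit_main {t θ L τ C S G₀ G₁ εg κ γ ρ : ℝ} {Pb : Finset ℕ} (hL : 0 < L) (ht : 0 < t)
    (htθ : t < θ) (hτ0 : 0 ≤ τ) (hτ : τ ≤ 1/2) (hεg : 0 ≤ εg) (hG₁ : 0 < G₁) (hκ0 : 0 ≤ κ)
    (hκ : κ ≤ upN (2 / θ) - 1) (hρ : εg + 4 * C * t * τ * S ≤ ρ)
    (hPb : Pb ⊆ logPrimes (t * L) (1 * L))
    (hAS : ∑ p ∈ logPrimes (t * L) (1 * L), 1 / (p:ℝ) ≤ S)
    (hGA : 1 ≤ G₀ * dens (logPrimes (t * L) (1 * L)))
    (hG₁R : ∀ R : Finset ℕ, R ⊆ logPrimes (θ * L) (1 * L) → 1 ≤ G₁ * dens R)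
    (hR : -(εg + 4 * C * t * τ * S) ≤
      1 - ∑ p ∈ logPrimes (t * L) (1 * L), 1 / (p:ℝ) * stepMain t (2 - τ) L p)
    (hRq : ∀ q ∈ logPrimes (t * L) (1 * L), t / (Real.log q / L) *
          (upN ((2 - τ - Real.log q / L) / (Real.log q / L)) - 1) - 2 * εg ≤
        stepMain t (2 - τ) L q - (1 - ∑ p ∈ (logPrimes (t * L) (1 * L)).filter (· < q),
          1 / (p:ℝ) * stepMain t (2 - τ) L p))
    (hmiss : γ ≤ t * κ / G₁ *
      ∑ p ∈ (logPrimes (θ * L) (1 * L)).filter (· ∉ Pb), 1 / (p:ℝ))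
    (hρ' : ρ ≤ γ) :
    (γ - ρ) - 2 * εg * S * G₀ ≤ 1 - ∑ p ∈ Pb, 1 / (p:ℝ) * stepMain t (2 - τ) L p /
      dens (((logPrimes (t * L) (1 * L)).filter (· < p)).filter (· ∉ Pb)) := by
  set A := logPrimes (t * L) (1 * L) with hA
  have hAp : ∀ p ∈ A, p.Prime := fun p hp => (mem_logPrimes.1 hp).1
  set φ := stepMain t (2 - τ) L with hφ
  set M := A.filter (· ∉ Pb) with hM
  have hPbeq : A.filter (· ∉ M) = Pb := by
    ext q
    simp only [hM, mem_filter, not_and, not_not]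
    exact ⟨fun h => h.2 h.1, fun h => ⟨hPb h, fun _ => h⟩⟩
  have hMeq : A.filter (· ∈ M) = M := by
    ext q
    simp only [hM, mem_filter]
    tauto
  have hMlt : ∀ q, (A.filter (· < q)).filter (· ∈ M) = (A.filter (· < q)).filter (· ∉ Pb) := by
    intro q
    ext r
    simp only [hM, mem_filter]
    tauto
  set H := (logPrimes (θ * L) (1 * L)).filter (· ∉ Pb) with hH
  have hHA : ∀ q ∈ logPrimes (θ * L) (1 * L), q ∈ A := by
    intro q hq
    rw [mem_logPrimes] at hq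
    rw [hA, mem_logPrimes]
    exact ⟨hq.1, lt_of_le_of_lt (mul_le_mul_of_nonneg_right htθ.le hL.le) hq.2.1, hq.2.2⟩
  have hgain := main_gain (φ := φ) (A := A) (M := M) (H := H) (G₁ := G₁) (a := t * κ / G₁)
    (b := 2 * εg) (ρ := εg + 4 * C * t * τ * S) hAp
    (fun q hq => by
      rw [hMeq, hM, mem_filter]
      exact ⟨hHA q (mem_filter.1 hq).1, (mem_filter.1 hq).2⟩)
    (div_nonneg (mul_nonneg ht.le hκ0) hG₁.le) (by positivity) ?_ ?_ ?_ hR
  rotate_left
  · intro q hq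
    rw [hMlt, hMeq]
    have hsub : (A.filter (· < q)).filter (· ∉ Pb) ⊆ M := by
      intro x hx
      simp only [hM, mem_filter] at hx ⊢
      exact ⟨hx.1.1, hx.2⟩
    set R := M \ (A.filter (· < q)).filter (· ∉ Pb) with hR'
    have hRsub : R ⊆ logPrimes (θ * L) (1 * L) := by
      intro x hx
      simp only [hR', hM, mem_sdiff, mem_filter, not_and, not_not] at hx
      obtain ⟨⟨hxA, hxP⟩, hxq⟩ := hx
      have hqx : q ≤ x := not_lt.1 fun h => hxP (hxq ⟨hxA, h⟩)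
      rw [hA, mem_logPrimes] at hxA
      have hq' := mem_logPrimes.1 (mem_filter.1 hq).1
      rw [mem_logPrimes]
      exact ⟨hxA.1, hq'.2.1.trans_le (Real.log_le_log (by exact_mod_cast hq'.1.pos)
        (by exact_mod_cast hqx)), hxA.2.2⟩
    have h2 : 1 ≤ G₁ * dens R := hG₁R R hRsub
    set s := (A.filter (· < q)).filter (· ∉ Pb) with hs
    have hs0 : 0 < dens s := (dens_pos fun x hx => hAp x (mem_filter.1 (mem_filter.1 hx).1).1).1
    calc dens s = dens s * 1 := (mul_one _).symm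
      _ ≤ dens s * (G₁ * dens R) := mul_le_mul_of_nonneg_left h2 hs0.le
      _ = G₁ * dens (s ∪ R) := by rw [dens_union disjoint_sdiff]; ring
      _ = G₁ * dens M := by rw [union_sdiff_of_subset hsub]
  · intro q hq
    refine le_trans ?_ (hRq q hq)
    obtain ⟨-, hw1, hw2, -⟩ := mem_props hL hq
    have hw0 : 0 < Real.log q / L := ht.trans hw1
    have h1 := one_le_upN (show 0 < (2 - τ - Real.log q / L) / (Real.log q / L) by
      linarith [(arg_bounds hτ0 hτ hw0 hw2).1])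
    have : 0 ≤ t / (Real.log q / L) * (upN ((2 - τ - Real.log q / L) / (Real.log q / L)) - 1) :=
      mul_nonneg (div_nonneg ht.le hw0.le) (by linarith)
    linarith
  · intro q hq
    refine le_trans ?_ (hRq q (hHA q (mem_filter.1 hq).1))
    obtain ⟨-, hw1, hw2, -⟩ := mem_props hL (mem_filter.1 hq).1
    set w := Real.log q / L with hwdef
    have hw0 : 0 < w := (ht.trans htθ).trans hw1
    rw [div_mul_cancel₀ _ hG₁.ne']
    have hθ : 0 < θ := ht.trans htθ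
    have h1 : 1 + κ ≤ upN ((2 - τ - w) / w) := by
      refine le_trans (by linarith : 1 + κ ≤ upN (2 / θ)) ?_
      refine upN_antitone (by linarith [(arg_bounds hτ0 hτ hw0 hw2).1]) ?_
      rw [div_le_div_iff₀ hw0 hθ]
      nlinarith
    have h2 : t * κ ≤ t / w * (upN ((2 - τ - w) / w) - 1) :=
      mul_le_mul (by rw [le_div_iff₀ hw0]; exact mul_le_of_le_one_right ht.le hw2) (by linarith)
        hκ0 (by positivity)
    linarith
  rw [hPbeq, hMeq] at hgain
  have hWM := dens_pos fun q hq => hAp q (mem_filter.1 (show q ∈ A.filter (· ∉ Pb) from hq)).1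
  rw [← hM] at hWM
  have h3 : γ - ρ ≤ (t * κ / G₁ * ∑ q ∈ H, 1 / (q:ℝ) - (εg + 4 * C * t * τ * S)) / dens M := by
    rw [le_div_iff₀ hWM.1]
    refine le_trans (mul_le_of_le_one_right (by linarith) hWM.2) ?_
    linarith
  have hD : 0 < dens A := (dens_pos hAp).1
  have h4 : 2 * εg * (∑ q ∈ A, 1 / (q:ℝ)) / dens A ≤ 2 * εg * S * G₀ := by
    rw [div_le_iff₀ hD]
    have hS0 : 0 ≤ S := le_trans (sum_nonneg fun q _ => by positivity) hAS
    calc 2 * εg * (∑ q ∈ A, 1 / (q:ℝ)) ≤ 2 * εg * S := mul_le_mul_of_nonneg_left hAS (by positivity)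
      _ ≤ 2 * εg * S * (G₀ * dens A) := le_mul_of_one_le_right (by positivity) hGA
      _ = _ := by ring
  simp only [hMlt] at hgain
  linarith

set_option maxHeartbeats 1000000 in
/-- Survivors below level two when a band has missing primes. -/
theorem deficit_sieve {θ ε : ℝ} (hθ : 0 < θ) (hθ1 : θ ≤ 1) (hε : 0 < ε) :
    ∃ t τ c K L₀ : ℝ, 0 < t ∧ t < θ ∧ 0 < τ ∧ τ ≤ 1 ∧ 4 * t ≤ τ ∧ 0 < c ∧ 0 ≤ K ∧ 0 < L₀ ∧
      ∀ (L : ℝ) (S₀ Pb : Finset ℕ), L₀ ≤ L → (∀ p ∈ S₀, p.Prime ∧ Real.log p ≤ t * L) →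
        Pb ⊆ logPrimes (t * L) (1 * L) →
        ε ≤ ∑ p ∈ (logPrimes (θ * L) (1 * L)).filter (· ∉ Pb), 1 / (p:ℝ) →
        (∀ (M : ℕ) (b : ℕ → ℤ), (cnt M b S₀ : ℝ) ≤
          2 * (M * dens S₀) + Real.exp ((τ / 4) * L)) ∧
        ∀ (N : ℕ) (a : ℕ → ℤ), c * (N * dens S₀) - K * Real.exp ((2 - 3 * τ / 4) * L) ≤
          cnt N a (S₀ ∪ Pb) := by
  obtain ⟨C₀, hC₀, hlip₀⟩ := upN_lipschitz
  set C := max C₀ 1 with hCdef
  have hC1 : 1 ≤ C := le_max_right _ _
  have hlip : ∀ a b : ℝ, 1/2 ≤ a → a ≤ b → upN a - upN b ≤ C * ((b - a) / a ^ 2) := fun a b ha hab =>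
    (hlip₀ a b ha hab).trans (mul_le_mul_of_nonneg_right (le_max_left _ _)
      (div_nonneg (by linarith) (sq_nonneg a)))
  obtain ⟨G, hG, hfund⟩ := fundamental
  set κ := upN (2 / θ) - 1 with hκ
  have hκ0 : 0 < κ := by linarith [one_lt_upN (show 0 < 2 / θ by positivity)]
  obtain ⟨LS, hLS, hS1⟩ := recip_logPrimes_le hθ
  set G₁ := Real.exp (2 * (Real.log (1 / θ) + 1)) with hG₁
  have hG₁0 : 0 < G₁ := Real.exp_pos _
  set c₁ := min (κ * ε / G₁) 1 with hc₁
  have hc₁0 : 0 < c₁ := lt_min (by positivity) one_pos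
  have hc₁1 : c₁ ≤ 1 := min_le_right _ _
  obtain ⟨r₀, hr₀⟩ := exists_pow_lt_of_lt_one
    (show 0 < c₁ / (4096 * G) by positivity) (show (1/4:ℝ) < 1 by norm_num)
  obtain ⟨j₀, hj⟩ := exists_pow_two_ge (max (64 * C * (4 * (r₀:ℝ) + 28) / c₁) (2 / θ))
  set S : ℝ := (j₀:ℝ) + 1 with hS
  have hS1' : 1 ≤ S := le_add_of_nonneg_left (Nat.cast_nonneg _)
  set t : ℝ := (1/2) ^ j₀ with htdef
  have ht0 : 0 < t := by positivity
  have ht1 : t ≤ 1 := pow_le_one₀ (by norm_num) (by norm_num)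
  have ht2 : t * 2 ^ j₀ = 1 := by rw [htdef, ← mul_pow]; norm_num
  have hjt : max (64 * C * (4 * (r₀:ℝ) + 28) / c₁) (2 / θ) * S ^ 2 * t ≤ 1 := by
    calc _ ≤ 2 ^ j₀ * t := mul_le_mul_of_nonneg_right hj ht0.le
      _ = 1 := by rw [mul_comm, ht2]
  have htθ : t < θ := by
    have h1 : 2 / θ * t ≤ max (64 * C * (4 * (r₀:ℝ) + 28) / c₁) (2 / θ) * S ^ 2 * t :=
      mul_le_mul_of_nonneg_right ((le_max_right _ _).trans
        (le_mul_of_one_le_right (le_max_of_le_right (by positivity)) (one_le_pow₀ hS1'))) ht0.le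
    have h2 := h1.trans hjt
    rw [div_mul_eq_mul_div, div_le_one hθ] at h2
    linarith
  set r := 4 * j₀ + r₀ with hr
  set τ := c₁ / (16 * C * S) with hτ
  have hτ0 : 0 < τ := by positivity
  have hτ2 : τ ≤ 1/2 := by
    rw [hτ, div_le_iff₀ (by positivity)]
    nlinarith
  set η := (4 * (r:ℝ) + 11) * t with hη
  have hηt : 4 * (η + t) ≤ τ := by
    have h1 : 64 * C * (4 * (r₀:ℝ) + 28) / c₁ * S ^ 2 * t ≤ 1 :=
      le_trans (mul_le_mul_of_nonneg_right (mul_le_mul_of_nonneg_right (le_max_left _ _)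
        (sq_nonneg S)) ht0.le) hjt
    have h2 : (4 * (r:ℝ) + 12) ≤ (4 * (r₀:ℝ) + 28) * S := by
      rw [hr, hS]; push_cast
      nlinarith [Nat.cast_nonneg (α := ℝ) j₀, Nat.cast_nonneg (α := ℝ) r₀]
    rw [hτ, le_div_iff₀ (by positivity)]
    rw [div_mul_eq_mul_div, div_mul_eq_mul_div, div_le_one hc₁0] at h1
    calc 4 * (η + t) * (16 * C * S) = 64 * C * t * S * (4 * (r:ℝ) + 12) := by rw [hη]; ring
      _ ≤ 64 * C * t * S * ((4 * (r₀:ℝ) + 28) * S) :=
          mul_le_mul_of_nonneg_left h2 (by positivity)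
      _ = 64 * C * (4 * (r₀:ℝ) + 28) * S ^ 2 * t := by ring
      _ ≤ c₁ := h1
  set e := c₁ * t ^ 7 / 512 with he
  have he0 : 0 < e := by positivity
  have he1 : e ≤ 1 := by
    rw [he, div_le_one (by norm_num)]
    have : c₁ * t ^ 7 ≤ 1 := mul_le_one₀ hc₁1 (by positivity) (pow_le_one₀ ht0.le ht1)
    linarith
  have hre : (1/4:ℝ) ^ r < min e 1 / (8 * G) := by
    rw [min_eq_left he1, hr, pow_add]
    have h1 : (1/4:ℝ) ^ (4 * j₀) = t ^ 8 := by
      rw [htdef, ← pow_mul, show (1/4:ℝ) = (1/2) ^ 2 by norm_num, ← pow_mul]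
      congr 1; ring
    rw [h1, lt_div_iff₀ (by positivity)]
    rw [lt_div_iff₀ (by positivity)] at hr₀
    have h2 : t ^ 8 ≤ t ^ 7 := pow_le_pow_of_le_one ht0.le ht1 (by norm_num)
    have h3 := mul_lt_mul_of_pos_left hr₀ (show 0 < t ^ 7 by positivity)
    have h4 := mul_le_mul_of_nonneg_right h2 (show 0 ≤ (1/4:ℝ) ^ r₀ * (8 * G) by positivity)
    rw [he]
    linarith
  set G₀ := Real.exp (2 * S) with hG₀
  have hG₀1 : 1 ≤ G₀ := Real.one_le_exp (by positivity)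
  have hG₀b : G₀ * t ^ 3 ≤ 8 := by
    have h1 : G₀ ≤ 8 ^ (j₀ + 1) := by
      rw [hG₀, hS, show 2 * ((j₀:ℝ) + 1) = ((j₀ + 1 : ℕ):ℝ) * 2 by push_cast; ring, Real.exp_nat_mul]
      refine pow_le_pow_left₀ (Real.exp_pos _).le ?_ _
      rw [show (2:ℝ) = 1 + 1 by norm_num, Real.exp_add]
      nlinarith [Real.exp_one_lt_d9, Real.exp_pos 1]
    calc G₀ * t ^ 3 ≤ 8 ^ (j₀ + 1) * t ^ 3 := mul_le_mul_of_nonneg_right h1 (by positivity)
      _ = 8 := by
        rw [htdef, ← pow_mul, mul_comm j₀ 3, pow_mul, pow_succ]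
        rw [show (8:ℝ) ^ j₀ * 8 * ((1/2:ℝ) ^ 3) ^ j₀ = 8 * (8 * (1/2:ℝ) ^ 3) ^ j₀ by
          rw [mul_pow]; ring]
        norm_num
  have hSt : S * t ≤ 1 := by
    rw [← ht2, mul_comm t]
    refine mul_le_mul_of_nonneg_right ?_ ht0.le
    rw [hS]
    exact_mod_cast Nat.succ_le_of_lt (Nat.lt_two_pow_self (n := j₀))
  set U := upN (1/2) with hU
  have hU0 : 0 ≤ U := upN_nonneg (by norm_num)
  set εg := t * c₁ / (32 * S * G₀) with hεg
  have hεg0 : 0 < εg := by positivity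
  set ε₁ := t * c₁ / (16 * G₀ * S * (2 * U + 3)) with hε₁
  have hε₁0 : 0 < ε₁ := by positivity
  have hε₁1 : ε₁ ≤ 1 := by
    rw [hε₁, div_le_one (by positivity)]
    nlinarith [mul_le_mul hG₀1 hS1' zero_le_one (by positivity),
      mul_le_one₀ ht1 hc₁0.le hc₁1]
  obtain ⟨n, hn⟩ := exists_nat_gt (2 / t)
  have hnt : 2 < n * t := (div_lt_iff₀ ht0).1 hn
  obtain ⟨K, L₁, hK, hL₁, hup⟩ := (sieve_all ht0 ht1 n).1 ε₁ hε₁0
  obtain ⟨L₂, hL₂, hmain⟩ := main_terms ht0 ht1 hεg0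
  obtain ⟨L₃, hL₃, hgood⟩ := good_tiny ht0 ht1
  obtain ⟨L₄, hL₄, hSA⟩ := recip_logPrimes_le ht0
  set B := U + 1 + 1 / t ^ 2 with hB
  refine ⟨t, τ, t * c₁ / 8, 1 + 3 * G₀ * B + 3 * G₀ * K * S,
    max (max (max L₁ L₂) (max L₃ L₄)) (max LS (1 / (t * ε₁))), ht0, htθ, hτ0, by linarith,
    by linarith [show 0 ≤ η by positivity], by positivity, by positivity,
    lt_max_of_lt_right (lt_max_of_lt_left hLS), fun L S₀ Pb hL hS₀ hPb hmiss => ?_⟩
  have hL1' : L₁ ≤ L := (le_max_left _ _).trans <| (le_max_left _ _).trans <| (le_max_left _ _).trans hL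
  have hL2' : L₂ ≤ L := (le_max_right _ _).trans <| (le_max_left _ _).trans <| (le_max_left _ _).trans hL
  have hL3' : L₃ ≤ L := (le_max_left _ _).trans <| (le_max_right _ _).trans <| (le_max_left _ _).trans hL
  have hL4' : L₄ ≤ L := (le_max_right _ _).trans <| (le_max_right _ _).trans <| (le_max_left _ _).trans hL
  have hLS' : LS ≤ L := (le_max_left _ _).trans <| (le_max_right _ _).trans hL
  have hL5' : 1 / (t * ε₁) ≤ L := (le_max_right _ _).trans <| (le_max_right _ _).trans hL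
  have hL0 : 0 < L := hLS.trans_le hLS'
  have hg : Good t L η e S₀ := hgood e r (hfund e r he0 hre) L S₀ hL3' hS₀
  obtain ⟨hV0, hV1⟩ := dens_pos fun q hq => (hS₀ q hq).1
  set V := dens S₀ with hV
  have hexpη : Real.exp (η * L) ≤ Real.exp ((τ / 4) * L) :=
    Real.exp_le_exp.2 (mul_le_mul_of_nonneg_right (by linarith) hL0.le)
  refine ⟨fun M b => ?_, fun N a => ?_⟩
  · have h1 := (abs_le.1 (hg.2.2 M b)).2
    have h2 := mul_le_mul_of_nonneg_right he1 (mul_nonneg (Nat.cast_nonneg (α := ℝ) M) hV0.le)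
    rw [← hV] at h1
    linarith
  set A := logPrimes (t * L) (1 * L) with hA
  have hAp : ∀ p ∈ A, p.Prime := fun p hp => (mem_logPrimes.1 hp).1
  have hAS : ∑ p ∈ A, 1 / (p:ℝ) ≤ S := by
    refine (hSA L 1 hL4' ht1 le_rfl).trans ?_
    rw [hS, htdef, one_div, ← inv_pow, Real.log_pow]
    norm_num
    exact mul_le_of_le_one_right (Nat.cast_nonneg _) (by linarith [Real.log_two_lt_d9])
  have hGA : 1 ≤ G₀ * dens A := by
    have h1 : Real.exp (-(2 * S)) ≤ dens A :=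
      le_trans (Real.exp_le_exp.2 (by linarith)) (exp_neg_sum_le_dens hAp)
    calc (1:ℝ) = G₀ * Real.exp (-(2 * S)) := by rw [hG₀, ← Real.exp_add, add_neg_cancel, Real.exp_zero]
      _ ≤ _ := mul_le_mul_of_nonneg_left h1 (Real.exp_pos _).le
  obtain ⟨hR, hRq⟩ := hmain L τ C S hL2' hτ0.le hτ2 (by linarith) hlip hAS
  rw [← hA] at hR hRq
  set φ := stepMain t (2 - τ) L with hφ
  have hG₁R : ∀ R : Finset ℕ, R ⊆ logPrimes (θ * L) (1 * L) → 1 ≤ G₁ * dens R := by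
    intro R hRsub
    have hRp : ∀ x ∈ R, x.Prime := fun x hx => (mem_logPrimes.1 (hRsub hx)).1
    have h1 : Real.exp (-(2 * (Real.log (1 / θ) + 1))) ≤ dens R := by
      refine le_trans (Real.exp_le_exp.2 ?_) (exp_neg_sum_le_dens hRp)
      have := (sum_le_sum_of_subset_of_nonneg hRsub (f := fun p : ℕ => 1 / (p:ℝ))
        fun _ _ _ => by positivity).trans (hS1 L 1 hLS' hθ1 le_rfl)
      linarith
    calc (1:ℝ) = G₁ * Real.exp (-(2 * (Real.log (1 / θ) + 1))) := by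
          rw [hG₁, ← Real.exp_add, add_neg_cancel, Real.exp_zero]
      _ ≤ _ := mul_le_mul_of_nonneg_left h1 hG₁0.le
  have hεgS : 2 * εg * S * G₀ = t * c₁ / 16 := by rw [hεg]; field_simp; ring
  have hρ1 : εg + 4 * C * t * τ * S ≤ t * c₁ / 2 := by
    have h2 : 4 * C * t * τ * S = t * c₁ / 4 := by rw [hτ]; field_simp; ring
    have h3 : εg ≤ εg * (S * G₀) :=
      le_mul_of_one_le_right hεg0.le (one_le_mul_of_one_le_of_one_le hS1' hG₀1)
    have : (0:ℝ) ≤ t * c₁ := by positivity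
    linarith
  have hγ : t * c₁ ≤ t * κ / G₁ *
      ∑ p ∈ (logPrimes (θ * L) (1 * L)).filter (· ∉ Pb), 1 / (p:ℝ) := by
    calc t * c₁ ≤ t * (κ * ε / G₁) := mul_le_mul_of_nonneg_left (min_le_left _ _) ht0.le
      _ = t * κ / G₁ * ε := by ring
      _ ≤ _ := mul_le_mul_of_nonneg_left hmiss (by positivity)
  have hgain2 := deficit_main (γ := t * c₁) (ρ := t * c₁ / 2) hL0 ht0 htθ hτ0.le hτ2 hεg0.le hG₁0
    hκ0.le le_rfl hρ1 hPb hAS hGA hG₁R hR hRq hγ (by linarith [show (0:ℝ) ≤ t * c₁ by positivity])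
  rw [hεgS] at hgain2
  -- Buchstab
  have each : ∀ p ∈ Pb, (hits N a (S₀ ∪ Pb.filter (· < p)) p : ℝ) ≤
      N * V * (1 / (p:ℝ) * φ p / dens ((A.filter (· < p)).filter (· ∉ Pb))) +
        N * V * (G₀ * (ε₁ * (2 * U + 3) + 3 * (e / t ^ 2))) * (1 / (p:ℝ)) +
        3 * G₀ * B + 3 * G₀ * K * Real.exp ((2 - τ + η) * L) * (1 / (p:ℝ)) := by
    intro p hp
    obtain ⟨hpp, hw1, hw2, hexp⟩ := mem_props hL0 (hPb hp)
    have hw0 : 0 < Real.log p / L := ht0.trans hw1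
    have harg := (arg_bounds hτ0.le hτ2 hw0 hw2).1
    refine hit_subset hL0 hg hPb hp ?_ ht0 he0.le he1 hε₁1 hK hGA ?_ ?_
    · have hlog : t * L < Real.log p := (mem_logPrimes.1 (hPb hp)).2.1
      have h3 : Real.log p ≤ (p:ℝ) := by
        linarith [Real.log_le_sub_one_of_pos (show (0:ℝ) < p by exact_mod_cast hpp.pos)]
      rw [div_le_iff₀ (by positivity)] at hL5'
      rw [div_le_iff₀ (by exact_mod_cast hpp.pos)]
      nlinarith
    · refine ⟨mul_nonneg (div_nonneg ht0.le hw0.le) (upN_nonneg (by linarith)), ?_⟩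
      calc t / (Real.log p / L) * upN ((2 - τ - Real.log p / L) / (Real.log p / L)) ≤ 1 * U :=
            mul_le_mul ((div_le_one hw0).2 hw1.le) (upN_antitone (by norm_num) harg)
              (upN_nonneg (by linarith)) zero_le_one
        _ = U := one_mul U
    · intro M' b
      have h := hup L (Real.log p / L) (2 - τ - Real.log p / L) η e S₀ hL1' hw1.le hw2
        (by linarith) (by linarith) he0.le he1 hg M' b
      rw [hexp] at h
      exact h
  have hb : (cnt N a (S₀ ∪ Pb) : ℝ) + ∑ p ∈ Pb, (hits N a (S₀ ∪ Pb.filter (· < p)) p : ℝ) =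
      cnt N a S₀ := by
    exact_mod_cast buchstab_base N a S₀ Pb
  have hs := sum_le_sum each
  simp only [sum_add_distrib, ← mul_sum, sum_const, nsmul_eq_mul] at hs
  set E := Real.exp ((2 - 3 * τ / 4) * L) with hE
  have hEη : Real.exp ((2 - τ + η) * L) ≤ E :=
    Real.exp_le_exp.2 (mul_le_mul_of_nonneg_right (by linarith) hL0.le)
  have hNV : 0 ≤ (N:ℝ) * V := mul_nonneg (Nat.cast_nonneg N) hV0.le
  have hPS : ∑ p ∈ Pb, 1 / (p:ℝ) ≤ S :=
    (sum_le_sum_of_subset_of_nonneg hPb fun _ _ _ => by positivity).trans hAS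
  have k1 : (Pb.card : ℝ) * (3 * G₀ * B) ≤ 3 * G₀ * B * E := by
    rw [mul_comm]
    refine mul_le_mul_of_nonneg_left ?_ (by positivity)
    calc (Pb.card : ℝ) ≤ Real.exp (1 * L) :=
          (Nat.cast_le.2 (card_le_card hPb)).trans (card_logPrimes_le _ _)
      _ ≤ E := Real.exp_le_exp.2 (mul_le_mul_of_nonneg_right (by linarith) hL0.le)
  have k2 : 3 * G₀ * K * Real.exp ((2 - τ + η) * L) * ∑ p ∈ Pb, 1 / (p:ℝ) ≤ 3 * G₀ * K * S * E := by
    calc _ ≤ 3 * G₀ * K * E * S :=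
          mul_le_mul (mul_le_mul_of_nonneg_left hEη (by positivity)) hPS
            (sum_nonneg fun _ _ => by positivity) (by positivity)
      _ = _ := by ring
  have k3 : (N:ℝ) * V * (G₀ * (ε₁ * (2 * U + 3) + 3 * (e / t ^ 2))) * ∑ p ∈ Pb, 1 / (p:ℝ) ≤
      N * V * (t * c₁ / 8) := by
    rw [mul_assoc]
    refine mul_le_mul_of_nonneg_left ?_ hNV
    have h1 : G₀ * S * (ε₁ * (2 * U + 3)) = t * c₁ / 16 := by rw [hε₁]; field_simp
    have h2 : G₀ * S * (3 * (e / t ^ 2)) ≤ t * c₁ / 16 := by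
      have e1 : G₀ * S * (3 * (e / t ^ 2)) = G₀ * t ^ 3 * (S * t) * (3 * (t * c₁) / 512) := by
        rw [he]; field_simp
      rw [e1]
      have := mul_le_mul_of_nonneg_right
        (mul_le_mul hG₀b hSt (by positivity) (by norm_num)) (show (0:ℝ) ≤ 3 * (t * c₁) / 512 by positivity)
      have : (0:ℝ) ≤ t * c₁ := by positivity
      linarith
    calc _ ≤ G₀ * (ε₁ * (2 * U + 3) + 3 * (e / t ^ 2)) * S :=
          mul_le_mul_of_nonneg_left hPS (by positivity)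
      _ = G₀ * S * (ε₁ * (2 * U + 3)) + G₀ * S * (3 * (e / t ^ 2)) := by ring
      _ ≤ _ := by linarith
  have k4 := mul_le_mul_of_nonneg_left hgain2 hNV
  have k5 : e ≤ t * c₁ / 8 := by
    rw [he]
    have : t ^ 7 ≤ t := by
      calc t ^ 7 ≤ t ^ 1 := pow_le_pow_of_le_one ht0.le ht1 (by norm_num)
        _ = t := pow_one t
    have := mul_le_mul_of_nonneg_left this hc₁0.le
    linarith
  have k6 := mul_le_mul_of_nonneg_left k5 hNV
  have hb0 := (abs_le.1 (hg.2.2 N a)).1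
  rw [← hV] at hb0
  have k7 : Real.exp (η * L) ≤ E :=
    hexpη.trans (Real.exp_le_exp.2 (mul_le_mul_of_nonneg_right (by linarith) hL0.le))
  have : 0 ≤ (N:ℝ) * V * (t * c₁) := by positivity
  linarith

end Vale.Agent.P013
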