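import Mathlib

/-!
The pair of delay functions of the linear sieve, built by the method of steps, with the
properties that the sieve induction uses.
-/

open Set MeasureTheory intervalIntegral Filter Topology

namespace Vale.Agent.P013

/-- Iterates of the pair of integral equations. -/
noncomputable def iter : ℕ → (ℝ → ℝ) × (ℝ → ℝ)
  | 0 => (fun _ => 1, fun _ => 0)
  | n + 1 => (fun s => 1 + ∫ t in (2:ℝ)..max 2 (s - 1), (iter n).2 t / max t 1,
      fun s => ∫ t in (1:ℝ)..max 1 (s - 1), (iter n).1 t / max t 1)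

lemma iter_continuous (n : ℕ) : Continuous (iter n).1 ∧ Continuous (iter n).2 := by
  induction n with
  | zero => exact ⟨continuous_const, continuous_const⟩
  | succ n ih =>
    have hd : ∀ t : ℝ, max t 1 ≠ 0 := fun t => (lt_of_lt_of_le one_pos (le_max_right t 1)).ne'
    have c1 : Continuous fun t : ℝ => (iter n).2 t / max t 1 :=
      ih.2.div (by fun_prop) hd
    have c2 : Continuous fun t : ℝ => (iter n).1 t / max t 1 :=
      ih.1.div (by fun_prop) hd
    constructor
    · exact continuous_const.add ((continuous_primitive (fun a b => c1.intervalIntegrable a b) 2).comp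
        (by fun_prop))
    · exact (continuous_primitive (fun a b => c2.intervalIntegrable a b) 1).comp (by fun_prop)

lemma iter_stable (m : ℕ) : ∀ n, m ≤ n → ∀ s : ℝ, s ≤ m + 1 →
    (iter n).1 s = (iter m).1 s ∧ (iter n).2 s = (iter m).2 s := by
  induction m with
  | zero =>
    intro n _ s hs
    simp only [Nat.cast_zero, zero_add] at hs
    cases n with
    | zero => simp
    | succ n =>
      simp [iter, max_eq_left (show s - 1 ≤ 2 by linarith), max_eq_left (show s - 1 ≤ 1 by linarith)]
  | succ m ih =>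
    intro n hn s hs
    obtain ⟨n, rfl⟩ : ∃ n', n = n' + 1 := ⟨n - 1, by omega⟩
    push_cast at hs
    have hm : (0:ℝ) ≤ m := Nat.cast_nonneg m
    constructor
    · simp only [iter]
      rcases le_or_gt (s - 1) 2 with h | h
      · simp [max_eq_left h]
      · congr 1
        refine integral_congr fun t ht => ?_
        rw [max_eq_right h.le, uIcc_of_le h.le] at ht
        simp only [(ih n (by omega) t (by linarith [ht.2])).2]
    · simp only [iter]
      rcases le_or_gt (s - 1) 1 with h | h
      · simp [max_eq_left h]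
      · refine integral_congr fun t ht => ?_
        rw [max_eq_right h.le, uIcc_of_le h.le] at ht
        simp only [(ih n (by omega) t (by linarith [ht.2])).1]

/-- `s` times the upper function. -/
noncomputable def bigG (s : ℝ) : ℝ := (iter ⌈s⌉₊).1 s

/-- `s` times the lower function. -/
noncomputable def smallG (s : ℝ) : ℝ := (iter ⌈s⌉₊).2 s

lemma eq_iter {s : ℝ} {n : ℕ} (h : s ≤ n) :
    bigG s = (iter n).1 s ∧ smallG s = (iter n).2 s := by
  have hc : ⌈s⌉₊ ≤ n := Nat.ceil_le.2 h
  have := iter_stable ⌈s⌉₊ n hc s (by linarith [Nat.le_ceil s])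
  exact ⟨this.1.symm, this.2.symm⟩

lemma bigG_continuous : Continuous bigG := by
  rw [continuous_iff_continuousAt]
  intro s
  obtain ⟨n, hn⟩ := exists_nat_gt s
  exact (iter_continuous n).1.continuousAt.congr
    ((eventually_lt_nhds hn).mono fun t ht => (eq_iter ht.le).1.symm)

lemma smallG_continuous : Continuous smallG := by
  rw [continuous_iff_continuousAt]
  intro s
  obtain ⟨n, hn⟩ := exists_nat_gt s
  exact (iter_continuous n).2.continuousAt.congr
    ((eventually_lt_nhds hn).mono fun t ht => (eq_iter ht.le).2.symm)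

lemma bigG_eq (s : ℝ) : bigG s = 1 + ∫ t in (2:ℝ)..max 2 (s - 1), smallG t / max t 1 := by
  obtain ⟨n, hn⟩ := exists_nat_gt (max s 3)
  have hs : s ≤ n := (le_max_left _ _).trans hn.le
  have h3 : (3:ℝ) ≤ n := (le_max_right _ _).trans hn.le
  rw [(eq_iter (n := n + 1) (by push_cast; linarith)).1]
  simp only [iter]
  congr 1
  refine integral_congr fun t ht => ?_
  rw [uIcc_of_le (le_max_left _ _)] at ht
  have htn : t ≤ n := ht.2.trans (max_le (by linarith) (by linarith))
  simp only [(eq_iter htn).2]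

lemma smallG_eq (s : ℝ) : smallG s = ∫ t in (1:ℝ)..max 1 (s - 1), bigG t / max t 1 := by
  obtain ⟨n, hn⟩ := exists_nat_gt (max s 3)
  have hs : s ≤ n := (le_max_left _ _).trans hn.le
  have h3 : (3:ℝ) ≤ n := (le_max_right _ _).trans hn.le
  rw [(eq_iter (n := n + 1) (by push_cast; linarith)).2]
  simp only [iter]
  refine integral_congr fun t ht => ?_
  rw [uIcc_of_le (le_max_left _ _)] at ht
  have htn : t ≤ n := ht.2.trans (max_le (by linarith) (by linarith))
  simp only [(eq_iter htn).1]

lemma bigG_of_le {s : ℝ} (h : s ≤ 3) : bigG s = 1 := by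
  rw [bigG_eq, max_eq_left (by linarith)]; simp

lemma smallG_of_le {s : ℝ} (h : s ≤ 2) : smallG s = 0 := by
  rw [smallG_eq, max_eq_left (by linarith)]; simp

lemma smallG_mid {s : ℝ} (h2 : 2 ≤ s) (h3 : s ≤ 4) : smallG s = Real.log (s - 1) := by
  rw [smallG_eq, max_eq_right (by linarith)]
  have : ∫ t in (1:ℝ)..(s - 1), bigG t / max t 1 = ∫ t in (1:ℝ)..(s - 1), t⁻¹ := by
    refine integral_congr fun t ht => ?_
    rw [uIcc_of_le (by linarith)] at ht
    simp [bigG_of_le (show t ≤ 3 by linarith [ht.2]), max_eq_left ht.1]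
  rw [this, integral_inv_of_pos one_pos (by linarith), div_one]

/-- The upper delay function. -/
noncomputable def up (s : ℝ) : ℝ := bigG s / s

/-- The lower delay function. -/
noncomputable def low (s : ℝ) : ℝ := smallG s / s

lemma hasDerivAt_smallG {s : ℝ} (hs : 2 < s) : HasDerivAt smallG (up (s - 1)) s := by
  have c : Continuous fun t : ℝ => bigG t / max t 1 :=
    bigG_continuous.div (by fun_prop) fun t => (lt_of_lt_of_le one_pos (le_max_right t 1)).ne'
  have h := (c.integral_hasStrictDerivAt 1 (s - 1)).hasDerivAt.comp s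
    ((hasDerivAt_id s).sub_const 1)
  simp only [mul_one, max_eq_left (show (1:ℝ) ≤ s - 1 by linarith)] at h
  refine h.congr_of_eventuallyEq ?_
  filter_upwards [eventually_gt_nhds hs] with t ht
  simp [smallG_eq t, max_eq_right (show (1:ℝ) ≤ t - 1 by linarith)]

lemma hasDerivAt_bigG {s : ℝ} (hs : 3 < s) : HasDerivAt bigG (low (s - 1)) s := by
  have c : Continuous fun t : ℝ => smallG t / max t 1 :=
    smallG_continuous.div (by fun_prop) fun t => (lt_of_lt_of_le one_pos (le_max_right t 1)).ne'
  have h := ((c.integral_hasStrictDerivAt 2 (s - 1)).hasDerivAt.comp s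
    ((hasDerivAt_id s).sub_const 1)).const_add 1
  simp only [mul_one, max_eq_left (show (1:ℝ) ≤ s - 1 by linarith)] at h
  refine h.congr_of_eventuallyEq ?_
  filter_upwards [eventually_gt_nhds hs] with t ht
  simp [bigG_eq t, max_eq_right (show (2:ℝ) ≤ t - 1 by linarith)]

/-- The conserved quantity of the difference. -/
noncomputable def inv' (s : ℝ) : ℝ :=
  (s - 1) * (bigG s - smallG s) - ∫ t in (s - 1)..s, (bigG t - smallG t)

lemma inv'_eq_zero {s : ℝ} (hs : 3 ≤ s) : inv' s = 0 := by
  let h : ℝ → ℝ := fun t => bigG t - smallG t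
  have hc : Continuous h := bigG_continuous.sub smallG_continuous
  have e : inv' = fun t => (t - 1) * h t - ((∫ x in (0:ℝ)..t, h x) - ∫ x in (0:ℝ)..(t - 1), h x) := by
    funext t
    simp only [inv', h]
    rw [integral_interval_sub_left (hc.intervalIntegrable _ _) (hc.intervalIntegrable _ _)]
  have cp := continuous_primitive (fun a b => hc.intervalIntegrable (μ := volume) a b) 0
  have cinv : Continuous inv' := by
    rw [e]
    exact ((by fun_prop : Continuous fun t : ℝ => t - 1).mul hc).sub
      (cp.sub (cp.comp (by fun_prop)))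
  have hd : ∀ t ∈ Ioo 3 s, HasDerivAt inv' 0 t := by
    intro t ht
    have h1 : HasDerivAt h (low (t - 1) - up (t - 1)) t :=
      (hasDerivAt_bigG ht.1).sub (hasDerivAt_smallG (by linarith [ht.1]))
    have h2 := (((hasDerivAt_id t).sub_const 1).mul h1).sub
      (((hc.integral_hasStrictDerivAt 0 t).hasDerivAt).sub
        ((hc.integral_hasStrictDerivAt 0 (t - 1)).hasDerivAt.comp t ((hasDerivAt_id t).sub_const 1)))
    rw [e]
    have hne : t - 1 ≠ 0 := by linarith [ht.1]
    refine (h2.congr_deriv ?_).congr_of_eventuallyEq (Eventually.of_forall fun x => ?_)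
    · simp only [h, up, low, id, mul_one, one_mul, mul_sub, mul_div_cancel₀ _ hne]
      ring
    · simp [Function.comp_def]
  have h3 : inv' 3 = 0 := by
    have e3 : ∫ t in (2:ℝ)..3, (bigG t - smallG t) = ∫ t in (2:ℝ)..3, (1 - Real.log (t - 1)) := by
      refine integral_congr fun t ht => ?_
      rw [uIcc_of_le (by norm_num)] at ht
      simp [bigG_of_le ht.2, smallG_mid ht.1 (by linarith [ht.2])]
    have e4 : ∫ t in (2:ℝ)..3, Real.log (t - 1) = 2 * Real.log 2 - 1 := by
      rw [integral_comp_sub_right (fun t => Real.log t) 1, integral_log]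
      norm_num
      ring
    have hi : IntervalIntegrable (fun t : ℝ => Real.log (t - 1)) volume 2 3 := by
      refine ContinuousOn.intervalIntegrable ?_
      rw [uIcc_of_le (by norm_num)]
      refine ContinuousOn.log (by fun_prop) fun t ht => ?_
      linarith [ht.1]
    simp only [inv']
    rw [show (3:ℝ) - 1 = 2 by norm_num, e3, integral_sub intervalIntegrable_const hi, e4,
      bigG_of_le le_rfl, smallG_mid (by norm_num) (by norm_num)]
    norm_num
    ring
  rcases hs.eq_or_lt with rfl | hlt
  · exact h3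
  obtain ⟨c, hc', hval⟩ := exists_hasDerivAt_eq_slope inv' (fun _ => (0:ℝ)) hlt cinv.continuousOn hd
  have : inv' s - inv' 3 = 0 := by
    have hne : s - 3 ≠ 0 := by linarith
    field_simp at hval
    linarith
  linarith

lemma diff_pos (s : ℝ) : smallG s < bigG s := by
  have small : ∀ t ≤ 3, smallG t < bigG t := by
    intro t ht
    rcases le_or_gt t 2 with h | h
    · rw [bigG_of_le ht, smallG_of_le h]; exact one_pos
    · rw [bigG_of_le ht, smallG_mid h.le (by linarith)]
      have := Real.log_le_sub_one_of_pos (show 0 < (t - 1) / 2 by linarith)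
      rw [Real.log_div (by linarith) two_ne_zero] at this
      have := Real.log_two_lt_d9
      linarith
  by_contra hs
  let B := {t : ℝ | 3 ≤ t ∧ bigG t ≤ smallG t}
  have hne : B.Nonempty := ⟨s, (not_le.1 fun h => hs (small s h)).le, not_lt.1 hs⟩
  have hcl : IsClosed B :=
    (isClosed_le continuous_const continuous_id).inter (isClosed_le bigG_continuous smallG_continuous)
  have hbd : BddBelow B := ⟨3, fun t ht => ht.1⟩
  obtain ⟨h3, hle⟩ : sInf B ∈ B := hcl.csInf_mem hne hbd
  set t0 := sInf B
  have hlt : ∀ t < t0, smallG t < bigG t := by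
    intro t ht
    rcases le_or_gt t 3 with h | h
    · exact small t h
    · exact not_le.1 fun h' => not_le.2 ht (csInf_le hbd ⟨h.le, h'⟩)
  have hpos : 0 < ∫ t in (t0 - 1)..t0, (bigG t - smallG t) :=
    intervalIntegral_pos_of_pos_on ((bigG_continuous.sub smallG_continuous).intervalIntegrable _ _)
      (fun t ht => sub_pos.2 (hlt t ht.2)) (by linarith)
  have h0 := inv'_eq_zero h3
  simp only [inv'] at h0
  nlinarith

lemma low_lt_up {s : ℝ} (hs : 0 < s) : low s < up s :=
  (div_lt_div_iff_of_pos_right hs).2 (diff_pos s)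

lemma up_continuousOn : ContinuousOn up (Ioi 0) :=
  bigG_continuous.continuousOn.div continuousOn_id fun _ h => (mem_Ioi.1 h).ne'

lemma low_continuousOn : ContinuousOn low (Ioi 0) :=
  smallG_continuous.continuousOn.div continuousOn_id fun _ h => (mem_Ioi.1 h).ne'

lemma hasDerivAt_low {s : ℝ} (hs : 2 < s) :
    HasDerivAt low ((up (s - 1) - low s) / s) s := by
  refine ((hasDerivAt_smallG hs).div (hasDerivAt_id s) (by simp; linarith)).congr_deriv ?_
  have : s ≠ 0 := by linarith
  simp only [low, id]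
  field_simp

lemma hasDerivAt_up {s : ℝ} (hs : 3 < s) :
    HasDerivAt up ((low (s - 1) - up s) / s) s := by
  refine ((hasDerivAt_bigG hs).div (hasDerivAt_id s) (by simp; linarith)).congr_deriv ?_
  have : s ≠ 0 := by linarith
  simp only [up, id]
  field_simp

lemma low_strictMono_of {b : ℝ} (h : ∀ t ∈ Ioo 2 b, low t < up (t - 1)) :
    StrictMonoOn low (Icc 2 b) := by
  refine strictMonoOn_of_deriv_pos (convex_Icc _ _)
    (low_continuousOn.mono fun t ht => mem_Ioi.2 (by linarith [ht.1])) fun t ht => ?_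
  rw [interior_Icc] at ht
  rw [(hasDerivAt_low ht.1).deriv]
  exact div_pos (sub_pos.2 (h t ht)) (by linarith [ht.1])

lemma up_antitone_of {b : ℝ} (h : ∀ t ∈ Ioo 3 b, low (t - 1) < up t) :
    AntitoneOn up (Ioc 0 b) := by
  have left : AntitoneOn up (Ioc 0 (min 3 b)) := by
    intro x hx y hy hxy
    simp only [up, bigG_of_le (hx.2.trans (min_le_left _ _)), bigG_of_le (hy.2.trans (min_le_left _ _))]
    exact one_div_le_one_div_of_le hx.1 hxy
  rcases le_or_gt b 3 with hb | hb
  · rwa [min_eq_right hb] at left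
  rw [min_eq_left hb.le] at left
  have right : AntitoneOn up (Icc 3 b) := by
    refine (strictAntiOn_of_deriv_neg (convex_Icc _ _)
      (up_continuousOn.mono fun t ht => mem_Ioi.2 (by linarith [ht.1])) fun t ht => ?_).antitoneOn
    rw [interior_Icc] at ht
    rw [(hasDerivAt_up ht.1).deriv]
    exact div_neg_of_neg_of_pos (sub_neg.2 (h t ht)) (by linarith [ht.1])
  have := left.union_right right ⟨⟨by norm_num, le_rfl⟩, fun t ht => ht.2⟩
    ⟨⟨le_rfl, hb.le⟩, fun t ht => ht.1⟩
  rwa [Ioc_union_Icc_eq_Ioc (by norm_num : (0:ℝ) < 3) hb.le] at this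

lemma mono_cond {s : ℝ} (hs : 2 ≤ s) :
    low s < up (s - 1) ∧ (3 ≤ s → low (s - 1) < up s) := by
  have base : ∀ t, 2 ≤ t → t ≤ 3 → low t < up (t - 1) := by
    intro t h2 h3
    simp only [low, up, bigG_of_le (show t - 1 ≤ 3 by linarith), smallG_mid h2 (by linarith)]
    rw [div_lt_div_iff₀ (by linarith) (by linarith)]
    have := Real.log_le_sub_one_of_pos (show (0:ℝ) < t - 1 by linarith)
    nlinarith
  by_contra hcon
  let B := {t : ℝ | 3 ≤ t ∧ (up (t - 1) ≤ low t ∨ up t ≤ low (t - 1))}
  have hne : B.Nonempty := by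
    rcases le_or_gt 3 s with h | h
    · refine ⟨s, h, ?_⟩
      simp only [not_and_or, not_lt, Classical.not_imp] at hcon
      tauto
    · exact absurd ⟨base s hs h.le, fun h' => absurd h' (not_le.2 h)⟩ hcon
  have hcl : IsClosed B := by
    have e : B = (Ici 3 ∩ {t | up (t - 1) - low t ≤ 0}) ∪ (Ici 3 ∩ {t | up t - low (t - 1) ≤ 0}) := by
      ext t; simp only [B, mem_setOf_eq, mem_union, mem_inter_iff, mem_Ici, sub_nonpos]; tauto
    have m1 : MapsTo (fun t : ℝ => t - 1) (Ici 3) (Ioi 0) := fun t ht => by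
      simp only [mem_Ici] at ht; simp only [mem_Ioi]; linarith
    have m0 : Ici (3:ℝ) ⊆ Ioi 0 := fun t ht => by
      simp only [mem_Ici] at ht; simp only [mem_Ioi]; linarith
    have c1 := (up_continuousOn.comp (by fun_prop) m1).sub (low_continuousOn.mono m0)
    have c2 := (up_continuousOn.mono m0).sub (low_continuousOn.comp (by fun_prop) m1)
    rw [e]
    exact (c1.preimage_isClosed_of_isClosed isClosed_Ici isClosed_Iic).union
      (c2.preimage_isClosed_of_isClosed isClosed_Ici isClosed_Iic)
  have hbd : BddBelow B := ⟨3, fun t ht => ht.1⟩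
  obtain ⟨h3, hbad⟩ : sInf B ∈ B := hcl.csInf_mem hne hbd
  set t0 := sInf B
  have good : ∀ t, 3 ≤ t → t < t0 → low t < up (t - 1) ∧ low (t - 1) < up t := by
    intro t ht htt
    have : t ∉ B := fun h => not_le.2 htt (csInf_le hbd h)
    simp only [B, mem_setOf_eq, not_and, not_or, not_le] at this
    exact this ht
  have hm := low_strictMono_of (b := t0) fun t ht => by
    rcases le_or_gt t 3 with h | h
    · exact base t ht.1.le h
    · exact (good t h.le ht.2).1
  have ha := up_antitone_of (b := t0) fun t ht => (good t ht.1.le ht.2).2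
  have a1 : up t0 ≤ up (t0 - 1) :=
    ha ⟨by linarith, by linarith⟩ ⟨by linarith, le_rfl⟩ (by linarith)
  have a2 : low (t0 - 1) ≤ low t0 :=
    hm.monotoneOn ⟨by linarith, by linarith⟩ ⟨by linarith, le_rfl⟩ (by linarith)
  have a3 := low_lt_up (show 0 < t0 by linarith)
  rcases hbad with h | h <;> linarith

lemma low_strictMonoOn : StrictMonoOn low (Ici 2) := by
  intro x hx y hy hxy
  exact low_strictMono_of (b := y) (fun t ht => (mono_cond ht.1.le).1) ⟨hx, hxy.le⟩ ⟨hy, le_rfl⟩ hxy

lemma up_antitoneOn : AntitoneOn up (Ioi 0) := by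
  intro x hx y hy hxy
  exact up_antitone_of (b := y) (fun t ht => (mono_cond (by linarith [ht.1])).2 ht.1.le)
    ⟨hx, hxy⟩ ⟨hy, le_rfl⟩ hxy

/-- The common limit, used for normalisation. -/
noncomputable def limL : ℝ := sSup (low '' Ici 2)

lemma low_le_up {s t : ℝ} (hs : 2 ≤ s) (ht : 0 < t) : low s ≤ up t := by
  have h0 : (0:ℝ) < max s t := lt_max_of_lt_right ht
  calc low s ≤ low (max s t) :=
        low_strictMonoOn.monotoneOn hs (hs.trans (le_max_left s t)) (le_max_left s t)
    _ ≤ up (max s t) := (low_lt_up h0).le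
    _ ≤ up t := up_antitoneOn ht h0 (le_max_right s t)

lemma low_le_limL {s : ℝ} (hs : 2 ≤ s) : low s ≤ limL :=
  le_csSup ⟨up 1, by rintro _ ⟨t, ht, rfl⟩; exact low_le_up ht one_pos⟩ ⟨s, hs, rfl⟩

lemma limL_le_up {t : ℝ} (ht : 0 < t) : limL ≤ up t :=
  csSup_le ((nonempty_Ici).image low) (by rintro _ ⟨s, hs, rfl⟩; exact low_le_up hs ht)

lemma limL_pos : 0 < limL := by
  refine lt_of_lt_of_le ?_ (low_le_limL (show (2:ℝ) ≤ 3 by norm_num))
  simp only [low, smallG_mid (show (2:ℝ) ≤ 3 by norm_num) (by norm_num)]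
  exact div_pos (Real.log_pos (by norm_num)) (by norm_num)

/-- Normalised upper function. -/
noncomputable def upN (s : ℝ) : ℝ := up s / limL

/-- Normalised lower function. -/
noncomputable def lowN (s : ℝ) : ℝ := low s / limL

lemma lowN_le_one {s : ℝ} (hs : 2 ≤ s) : lowN s ≤ 1 :=
  (div_le_one limL_pos).2 (low_le_limL hs)

lemma one_le_upN {s : ℝ} (hs : 0 < s) : 1 ≤ upN s := (one_le_div limL_pos).2 (limL_le_up hs)

lemma lowN_lt_one {s : ℝ} (hs : 2 ≤ s) : lowN s < 1 :=
  (div_lt_one limL_pos).2 (lt_of_lt_of_le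
    (low_strictMonoOn hs (show 2 ≤ s + 1 by linarith) (by linarith)) (low_le_limL (by linarith)))

lemma lowN_two : lowN 2 = 0 := by simp [lowN, low, smallG_of_le (le_refl (2:ℝ))]

lemma lowN_nonneg {s : ℝ} (hs : 2 ≤ s) : 0 ≤ lowN s := by
  have := low_strictMonoOn.monotoneOn (self_mem_Ici (a := (2:ℝ))) hs hs
  refine div_nonneg ?_ limL_pos.le
  simpa [low, smallG_of_le (le_refl (2:ℝ))] using this

lemma upN_antitone {s t : ℝ} (hs : 0 < s) (hst : s ≤ t) : upN t ≤ upN s :=
  div_le_div_of_nonneg_right (up_antitoneOn hs (mem_Ioi.2 (hs.trans_le hst)) hst) limL_pos.le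

lemma lowN_mono {s t : ℝ} (hs : 2 ≤ s) (hst : s ≤ t) : lowN s ≤ lowN t :=
  div_le_div_of_nonneg_right
    (low_strictMonoOn.monotoneOn hs (hs.trans hst) hst) limL_pos.le

lemma upN_nonneg {s : ℝ} (hs : 0 < s) : 0 ≤ upN s := zero_le_one.trans (one_le_upN hs)

lemma mul_upN_of_le {s : ℝ} (hs : 0 < s) (h : s ≤ 3) : s * upN s = 1 / limL := by
  simp only [upN, up, bigG_of_le h]
  field_simp

lemma mul_upN_mono {s t : ℝ} (hs : 0 < s) (hst : s ≤ t) : s * upN s ≤ t * upN t := by
  have hmono : bigG s ≤ bigG t := by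
    rcases le_or_gt t 3 with h | h
    · rw [bigG_of_le h, bigG_of_le (hst.trans h)]
    have key : MonotoneOn bigG (Ici 3) := by
      refine monotoneOn_of_deriv_nonneg (convex_Ici _) bigG_continuous.continuousOn ?_ ?_
      · intro x hx
        rw [interior_Ici] at hx
        exact (hasDerivAt_bigG hx).differentiableAt.differentiableWithinAt
      · intro x hx
        rw [interior_Ici] at hx
        rw [(hasDerivAt_bigG hx).deriv]
        have h2 : (2:ℝ) ≤ x - 1 := by linarith [mem_Ioi.1 hx]
        have := lowN_nonneg h2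
        rwa [lowN, le_div_iff₀ limL_pos, zero_mul] at this
    rcases le_or_gt s 3 with h' | h'
    · rw [bigG_of_le h', ← bigG_of_le (le_refl (3:ℝ))]
      exact key self_mem_Ici h.le h.le
    · exact key h'.le h.le hst
  simp only [upN, up]
  rw [← mul_div_assoc, mul_div_cancel₀ _ hs.ne', ← mul_div_assoc,
    mul_div_cancel₀ _ (hs.trans_le hst).ne']
  exact div_le_div_of_nonneg_right hmono limL_pos.le

lemma low_step {a b : ℝ} (ha : 2 ≤ a) (hab : a ≤ b) :
    upN (b - 1) * (b - a) ≤ b * lowN b - a * lowN a := by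
  have e : ∀ s : ℝ, 2 ≤ s → s * lowN s = smallG s / limL := by
    intro s hs
    have : s ≠ 0 := by linarith
    simp only [lowN, low]; field_simp
  rw [e a ha, e b (ha.trans hab), ← sub_div, upN, div_mul_eq_mul_div]
  refine div_le_div_of_nonneg_right ?_ limL_pos.le
  refine (convex_Icc a b).mul_sub_le_image_sub_of_le_deriv smallG_continuous.continuousOn
    ?_ ?_ a (left_mem_Icc.2 hab) b (right_mem_Icc.2 hab) hab
  · intro x hx
    rw [interior_Icc] at hx
    exact (hasDerivAt_smallG (by linarith [hx.1])).differentiableAt.differentiableWithinAt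
  · intro x hx
    rw [interior_Icc] at hx
    rw [(hasDerivAt_smallG (by linarith [hx.1])).deriv]
    exact up_antitoneOn (mem_Ioi.2 (by linarith [hx.1])) (mem_Ioi.2 (by linarith [hx.1]))
      (by linarith [hx.2])

lemma up_step {a b : ℝ} (ha : 3 ≤ a) (hab : a ≤ b) :
    b * upN b - a * upN a ≤ lowN (b - 1) * (b - a) := by
  have e : ∀ s : ℝ, 2 ≤ s → s * upN s = bigG s / limL := by
    intro s hs
    have : s ≠ 0 := by linarith
    simp only [upN, up]; field_simp
  rw [e a (by linarith), e b (by linarith), ← sub_div, lowN, div_mul_eq_mul_div]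
  refine div_le_div_of_nonneg_right ?_ limL_pos.le
  refine (convex_Icc a b).image_sub_le_mul_sub_of_deriv_le bigG_continuous.continuousOn
    ?_ ?_ a (left_mem_Icc.2 hab) b (right_mem_Icc.2 hab) hab
  · intro x hx
    rw [interior_Icc] at hx
    exact (hasDerivAt_bigG (by linarith [hx.1])).differentiableAt.differentiableWithinAt
  · intro x hx
    rw [interior_Icc] at hx
    rw [(hasDerivAt_bigG (by linarith [hx.1])).deriv]
    exact low_strictMonoOn.monotoneOn (mem_Ici.2 (by linarith [hx.1]))
      (mem_Ici.2 (by linarith [hx.1])) (by linarith [hx.2])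

end Vale.Agent.P013
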