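import Vale.Agent.P013.Sieve

/-!
The fundamental lemma for tiny primes: a Brun-Hooley sieve over blocks of primes with
geometrically decreasing logarithms.
-/

open Finset Real

namespace Vale.Agent.P013

/-- Elementary symmetric sum of order `m`. -/
noncomputable def esy (B : Finset ℕ) (x : ℕ → ℝ) (m : ℕ) : ℝ :=
  ∑ T ∈ B.powersetCard m, ∏ p ∈ T, x p

/-- Truncated expansion of `∏ (1 - x)`. -/
noncomputable def trunc (B : Finset ℕ) (x : ℕ → ℝ) (R : ℕ) : ℝ :=
  ∑ i ∈ range (R + 1), (-1) ^ i * esy B x i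

lemma esy_zero (B : Finset ℕ) (x : ℕ → ℝ) : esy B x 0 = 1 := by simp [esy]

lemma esy_nonneg {B : Finset ℕ} {x : ℕ → ℝ} (hx : ∀ p ∈ B, 0 ≤ x p) (m : ℕ) : 0 ≤ esy B x m :=
  sum_nonneg fun T hT => prod_nonneg fun p hp => hx p ((mem_powersetCard.1 hT).1 hp)

lemma esy_insert {B : Finset ℕ} {p : ℕ} (hp : p ∉ B) (x : ℕ → ℝ) (m : ℕ) :
    esy (insert p B) x (m + 1) = esy B x (m + 1) + x p * esy B x m := by
  simp only [esy]
  rw [powersetCard_succ_insert hp, sum_union, sum_image, mul_sum]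
  · congr 1
    refine sum_congr rfl fun T hT => ?_
    rw [prod_insert fun h => hp ((mem_powersetCard.1 hT).1 h)]
  · intro S hS T hT h
    have hS' : p ∉ S := fun hh => hp ((mem_powersetCard.1 hS).1 hh)
    have hT' : p ∉ T := fun hh => hp ((mem_powersetCard.1 hT).1 hh)
    rw [← erase_insert hS', ← erase_insert hT', h]
  · rw [Finset.disjoint_left]
    intro S hS hS'
    obtain ⟨T, -, rfl⟩ := mem_image.1 hS'
    exact hp ((mem_powersetCard.1 hS).1 (mem_insert_self p T))

lemma trunc_insert {B : Finset ℕ} {p : ℕ} (hp : p ∉ B) (x : ℕ → ℝ) (R : ℕ) :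
    trunc (insert p B) x (R + 1) = trunc B x (R + 1) - x p * trunc B x R := by
  simp only [trunc]
  rw [sum_range_succ' _ (R + 1), sum_range_succ' _ (R + 1), mul_sum, esy_zero, esy_zero]
  have e : ∀ i, ((-1:ℝ)) ^ (i + 1) * esy (insert p B) x (i + 1) =
      (-1) ^ (i + 1) * esy B x (i + 1) - x p * ((-1) ^ i * esy B x i) := by
    intro i; rw [esy_insert hp, pow_succ]; ring
  rw [sum_congr rfl fun i _ => e i, sum_sub_distrib]
  ring

lemma trunc_sign {B : Finset ℕ} {x : ℕ → ℝ} (hx : ∀ p ∈ B, 0 ≤ x p ∧ x p ≤ 1) :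
    ∀ R, 0 ≤ (-1:ℝ) ^ R * (trunc B x R - ∏ p ∈ B, (1 - x p)) := by
  induction B using Finset.induction_on with
  | empty =>
    intro R
    have : trunc ∅ x R = 1 := by
      rw [trunc, sum_range_succ', esy_zero]
      rw [sum_eq_zero fun k _ => ?_]
      · simp
      · simp [esy, powersetCard_eq_empty.2 (show (∅ : Finset ℕ).card < k + 1 by simp)]
    simp [this]
  | insert p B hp ih =>
    have ih' := ih fun q hq => hx q (mem_insert_of_mem hq)
    obtain ⟨h0, h1⟩ := hx p (mem_insert_self p B)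
    intro R
    rw [prod_insert hp]
    cases R with
    | zero =>
      have := ih' 0
      simp only [trunc, zero_add, range_one, sum_singleton, pow_zero, one_mul, esy_zero] at this ⊢
      have hV : 0 ≤ ∏ q ∈ B, (1 - x q) :=
        prod_nonneg fun q hq => sub_nonneg.2 (hx q (mem_insert_of_mem hq)).2
      nlinarith
    | succ R =>
      have a := ih' (R + 1)
      have b := mul_nonneg h0 (ih' R)
      rw [trunc_insert hp]
      rw [pow_succ] at a ⊢
      linarith

lemma trunc_sub_le {B : Finset ℕ} {x : ℕ → ℝ} (hx : ∀ p ∈ B, 0 ≤ x p ∧ x p ≤ 1) {R : ℕ}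
    (hR : Even R) : ∏ p ∈ B, (1 - x p) ≤ trunc B x R ∧
      trunc B x R - esy B x (R + 1) ≤ ∏ p ∈ B, (1 - x p) := by
  have a := trunc_sign hx R
  have b := trunc_sign hx (R + 1)
  rw [hR.neg_one_pow, one_mul] at a
  rw [hR.add_one.neg_one_pow, trunc, sum_range_succ, hR.add_one.neg_one_pow] at b
  simp only [trunc] at a ⊢
  constructor <;> linarith

lemma esy_le {B : Finset ℕ} {x : ℕ → ℝ} (hx : ∀ p ∈ B, 0 ≤ x p) :
    ∀ m, esy B x m * m.factorial ≤ (∑ p ∈ B, x p) ^ m := by
  induction B using Finset.induction_on with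
  | empty =>
    intro m
    cases m with
    | zero => simp [esy]
    | succ k => simp [esy, powersetCard_eq_empty.2 (show (∅ : Finset ℕ).card < k + 1 by simp)]
  | insert p B hp ih =>
    have hx' : ∀ q ∈ B, 0 ≤ x q := fun q hq => hx q (mem_insert_of_mem hq)
    have h0 := hx p (mem_insert_self p B)
    intro m
    cases m with
    | zero => simp [esy_zero]
    | succ m =>
      rw [esy_insert hp, sum_insert hp]
      set s := ∑ q ∈ B, x q
      have hs : 0 ≤ s := sum_nonneg hx'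
      have key : ∀ n : ℕ, s ^ (n + 1) + (n + 1 : ℕ) * x p * s ^ n ≤ (x p + s) ^ (n + 1) := by
        intro n
        induction n with
        | zero => simp; linarith
        | succ n ihn =>
          have h1 := mul_le_mul_of_nonneg_right ihn (add_nonneg h0 hs)
          have h2 : 0 ≤ (n + 1 : ℕ) * x p * x p * s ^ n := by positivity
          push_cast at h1 h2 ⊢
          rw [pow_succ (x p + s) (n + 1)]
          refine le_trans ?_ h1
          have : s ^ (n + 1 + 1) = s ^ n * s * s := by rw [pow_succ, pow_succ]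
          rw [this, pow_succ s n]
          nlinarith
      have e : ((m + 1).factorial : ℝ) = (m + 1 : ℕ) * (m.factorial : ℝ) := by
        rw [Nat.factorial_succ]; push_cast; ring
      calc (esy B x (m + 1) + x p * esy B x m) * ((m + 1).factorial : ℝ)
          = esy B x (m + 1) * ((m + 1).factorial : ℝ) +
              (m + 1 : ℕ) * x p * (esy B x m * (m.factorial : ℝ)) := by rw [e]; ring
        _ ≤ s ^ (m + 1) + (m + 1 : ℕ) * x p * s ^ m :=
            add_le_add (ih hx' (m + 1)) (mul_le_mul_of_nonneg_left (ih hx' m) (by positivity))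
        _ ≤ _ := key m

lemma esy_small {B : Finset ℕ} {x : ℕ → ℝ} (hx : ∀ p ∈ B, 0 ≤ x p) (m : ℕ) :
    esy B x m ≤ (1/2:ℝ) ^ m * Real.exp (2 * ∑ p ∈ B, x p) := by
  set s := ∑ p ∈ B, x p
  have hs : 0 ≤ s := sum_nonneg hx
  have h1 : esy B x m ≤ s ^ m / (m.factorial : ℝ) :=
    (le_div_iff₀ (by positivity)).2 (esy_le hx m)
  calc esy B x m ≤ s ^ m / (m.factorial : ℝ) := h1
    _ = (1/2:ℝ) ^ m * ((2 * s) ^ m / (m.factorial : ℝ)) := by
        rw [← mul_div_assoc, ← mul_pow]; congr 2; ring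
    _ ≤ _ := mul_le_mul_of_nonneg_left (Real.pow_div_factorial_le_exp (2 * s) (by linarith) m) (by positivity)

lemma prod_lower {ι : Type*} [DecidableEq ι] (J : Finset ι) (x u e : ι → ℝ)
    (hx : ∀ i ∈ J, 0 ≤ x i ∧ x i ≤ u i ∧ u i - e i ≤ x i) :
    ∏ i ∈ J, u i - ∑ i ∈ J, e i * ∏ j ∈ J.erase i, u j ≤ ∏ i ∈ J, x i := by
  induction J using Finset.induction_on with
  | empty => simp
  | insert i J hi ih =>
    have hJ : ∀ j ∈ J, 0 ≤ x j ∧ x j ≤ u j ∧ u j - e j ≤ x j := fun j hj => hx j (mem_insert_of_mem hj)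
    obtain ⟨h0, h1, h2⟩ := hx i (mem_insert_self i J)
    have hP : ∏ j ∈ J, x j ≤ ∏ j ∈ J, u j := prod_le_prod (fun j hj => (hJ j hj).1) fun j hj => (hJ j hj).2.1
    have hP0 : 0 ≤ ∏ j ∈ J, x j := prod_nonneg fun j hj => (hJ j hj).1
    have e1 : ∀ j ∈ J, e j * ∏ l ∈ (insert i J).erase j, u l = u i * (e j * ∏ l ∈ J.erase j, u l) := by
      intro j hj
      rw [erase_insert_of_ne (fun h : i = j => hi (h ▸ hj)), prod_insert fun h => hi (mem_of_mem_erase h)]
      ring
    rw [prod_insert hi, prod_insert hi, sum_insert hi, erase_insert hi, sum_congr rfl e1, ← mul_sum]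
    have h3 := mul_le_mul_of_nonneg_left (ih hJ) (h0.trans h1)
    nlinarith

/-- Indicator that `j` is hit by `p`. -/
def ind (a : ℕ → ℤ) (j p : ℕ) : ℝ := if (p:ℤ) ∣ (j:ℤ) - a p then 1 else 0

lemma count_class (N : ℕ) (a : ℕ → ℤ) (T : Finset ℕ) (hT : ∀ p ∈ T, p.Prime) :
    |∑ j ∈ range N, ∏ p ∈ T, ind a j p - (N:ℝ) * ∏ p ∈ T, 1 / (p:ℝ)| ≤ 1 := by
  have hcop : Set.Pairwise (T : Set ℕ) (Function.onFun Nat.Coprime id) := fun p hp q hq hne =>
    (Nat.coprime_primes (hT p hp) (hT q hq)).2 hne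
  obtain ⟨c, hc⟩ := Nat.chineseRemainderOfFinset (fun p => (a p % (p:ℤ)).toNat) id T
    (fun p hp => (hT p hp).ne_zero) hcop
  set m := ∏ p ∈ T, p with hm
  have hm0 : 0 < m := prod_pos fun p hp => (hT p hp).pos
  have hcz : ∀ p ∈ T, (p:ℤ) ∣ (c:ℤ) - a p := by
    intro p hp
    have h := Nat.ModEq.dvd (hc p hp)
    simp only [id] at h
    rw [Int.toNat_of_nonneg (Int.emod_nonneg _ (by exact_mod_cast (hT p hp).ne_zero))] at h
    have := dvd_sub (Int.dvd_emod_sub_self (x := a p) (m := (p:ℤ))) h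
    refine this.trans (dvd_of_eq ?_)
    ring
  have key : ∀ j : ℕ, (∀ p ∈ T, (p:ℤ) ∣ (j:ℤ) - a p) ↔ j ≡ c [MOD m] := by
    intro j
    rw [Nat.modEq_iff_dvd]
    constructor
    · intro h
      rw [hm, Nat.cast_prod]
      refine Finset.prod_dvd_of_coprime ?_ fun p hp => ?_
      · intro p hp q hq hne
        exact Int.isCoprime_iff_nat_coprime.2 (by simpa using! hcop hp hq hne)
      · refine (dvd_sub (hcz p hp) (h p hp)).trans (dvd_of_eq ?_)
        ring
    · intro h p hp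
      have h1 : (p:ℤ) ∣ (m:ℤ) := Int.natCast_dvd_natCast.2 (dvd_prod_of_mem id hp)
      refine (dvd_sub (hcz p hp) (h1.trans h)).trans (dvd_of_eq ?_)
      ring
  have hs : ∑ j ∈ range N, ∏ p ∈ T, ind a j p = (N.count (· ≡ c [MOD m]) : ℝ) := by
    rw [Nat.count_eq_card_filter_range, ← sum_boole]
    refine sum_congr rfl fun j _ => ?_
    simp only [ind, prod_boole, key]
  have hprod : ∏ p ∈ T, 1 / (p:ℝ) = 1 / (m:ℝ) := by
    rw [hm, Nat.cast_prod, prod_div_distrib, prod_const_one]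
  rw [hs, hprod, Nat.count_modEq_card N hm0]
  have h1 : ((N / m : ℕ) : ℝ) * m + ((N % m : ℕ) : ℝ) = N := by exact_mod_cast Nat.div_add_mod' N m
  have h2 : ((N % m : ℕ) : ℝ) + 1 ≤ m := by exact_mod_cast Nat.mod_lt N hm0
  have h3 : (0:ℝ) ≤ ((N % m : ℕ) : ℝ) := Nat.cast_nonneg _
  have hmr : (0:ℝ) < m := by exact_mod_cast hm0
  have e : (N:ℝ) * (1 / m) = ((N / m : ℕ) : ℝ) + ((N % m : ℕ) : ℝ) / m := by
    field_simp; linarith
  have h4 : ((N % m : ℕ) : ℝ) / m < 1 := by rw [div_lt_one hmr]; linarith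
  have h5 : 0 ≤ ((N % m : ℕ) : ℝ) / m := by positivity
  rw [e]
  push_cast
  rw [abs_le]
  split_ifs <;> constructor <;> linarith

/-- Summing a product of block expansions over an interval. -/
lemma expand (N : ℕ) (a : ℕ → ℤ) (J : ℕ) (B : ℕ → Finset ℕ) (hB : ∀ i, ∀ p ∈ B i, p.Prime)
    (hd : ∀ i j, i ≠ j → Disjoint (B i) (B j)) (F : ℕ → Finset (Finset ℕ))
    (hF : ∀ i, ∀ T ∈ F i, T ⊆ B i) (w : ℕ → Finset ℕ → ℝ) (hw : ∀ i T, |w i T| ≤ 1) :
    |∑ j ∈ range N, ∏ i ∈ range J, (∑ T ∈ F i, w i T * ∏ p ∈ T, ind a j p) -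
      (N:ℝ) * ∏ i ∈ range J, (∑ T ∈ F i, w i T * ∏ p ∈ T, 1 / (p:ℝ))| ≤
      ∏ i ∈ range J, ((F i).card : ℝ) := by
  simp only [prod_sum]
  rw [sum_comm, mul_sum, ← sum_sub_distrib]
  refine (abs_sum_le_sum_abs _ _).trans ?_
  have hcard : ∏ i ∈ range J, ((F i).card : ℝ) =
      ∑ _f ∈ (range J).pi F, (1:ℝ) := by
    rw [sum_const, Finset.card_pi, nsmul_eq_mul, mul_one, Nat.cast_prod]
  rw [hcard]
  refine sum_le_sum fun f hf => ?_
  rw [mem_pi] at hf
  set U := (range J).attach.biUnion fun i => f i.1 i.2 with hU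
  have hdis : (↑(range J).attach : Set {x // x ∈ range J}).PairwiseDisjoint fun i => f i.1 i.2 :=
    fun i _ j _ hne => (hd i.1 j.1 fun h => hne (Subtype.ext h)).mono
      (hF _ _ (hf i.1 i.2)) (hF _ _ (hf j.1 j.2))
  have hsplit : ∀ g : ℕ → ℝ, ∏ i ∈ (range J).attach, (w i.1 (f i.1 i.2) * ∏ p ∈ f i.1 i.2, g p) =
      (∏ i ∈ (range J).attach, w i.1 (f i.1 i.2)) * ∏ p ∈ U, g p := by
    intro g
    rw [prod_mul_distrib, hU, prod_biUnion hdis]
  simp only [hsplit]
  rw [← mul_sum, show ∀ A B C : ℝ, A * B - C * (A * (∏ p ∈ U, 1 / (p:ℝ))) =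
    A * (B - C * ∏ p ∈ U, 1 / (p:ℝ)) from fun A B C => by ring, abs_mul, abs_prod]
  refine mul_le_one₀ (prod_le_one (fun i _ => abs_nonneg _) fun i _ => hw _ _) (abs_nonneg _) ?_
  refine count_class N a U fun p hp => ?_
  obtain ⟨i, -, hpi⟩ := mem_biUnion.1 hp
  exact hB _ p (hF _ _ (hf i.1 i.2) hpi)

lemma powersets_card_le (B : Finset ℕ) (R : ℕ) :
    ((B.powerset.filter fun T => T.card ≤ R).card : ℝ) ≤ ((B.card : ℝ) + 1) ^ R := by
  induction B using Finset.induction_on generalizing R with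
  | empty =>
    refine le_trans ?_ (one_le_pow₀ (by simp))
    exact_mod_cast (card_filter_le _ _).trans (by simp)
  | insert p B hp ih =>
    have hsub : (insert p B).powerset.filter (fun T => T.card ≤ R) ⊆
        (B.powerset.filter fun T => T.card ≤ R) ∪
          ((B.powerset.filter fun T => T.card + 1 ≤ R).image (insert p)) := by
      intro T hT
      simp only [mem_filter, mem_powerset, mem_union, mem_image] at hT ⊢
      rcases em (p ∈ T) with h | h
      · refine Or.inr ⟨T.erase p, ⟨subset_insert_iff.1 hT.1, ?_⟩, insert_erase h⟩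
        rw [card_erase_add_one h]; exact hT.2
      · exact Or.inl ⟨(subset_insert_iff_of_notMem h).1 hT.1, hT.2⟩
    have h1 := (Nat.cast_le (α := ℝ)).2 ((card_le_card hsub).trans (card_union_le _ _))
    push_cast at h1
    have h2 : ((((B.powerset.filter fun T => T.card + 1 ≤ R).image (insert p)).card : ℕ) : ℝ) ≤
        ((B.powerset.filter fun T => T.card + 1 ≤ R).card : ℝ) := Nat.cast_le.2 card_image_le
    rw [card_insert_of_notMem hp]
    push_cast
    cases R with
    | zero =>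
      have : B.powerset.filter (fun T => T.card + 1 ≤ 0) = ∅ := by simp
      rw [this] at h2 h1
      have := ih 0
      simp only [image_empty, card_empty, Nat.cast_zero, add_zero, pow_zero] at h1 this ⊢
      linarith
    | succ R =>
      have h3 := ih (R + 1)
      have h4 := ih R
      simp only [Nat.add_le_add_iff_right] at h1 h2
      have h5 : ((B.card : ℝ) + 1) ^ R ≤ ((B.card : ℝ) + 1 + 1) ^ R :=
        pow_le_pow_left₀ (by positivity) (by linarith) R
      have h6 := mul_le_mul_of_nonneg_right h5 (show (0:ℝ) ≤ (B.card : ℝ) + 1 + 1 by positivity)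
      rw [pow_succ] at h3 ⊢
      linarith

/-- The primes of the block `i` below `Z`. -/
noncomputable def block (S : Finset ℕ) (Z : ℝ) (i : ℕ) : Finset ℕ :=
  S.filter fun p : ℕ => Z / 2 ^ (i + 1) < Real.log p ∧ Real.log p ≤ Z / 2 ^ i

lemma geo_half (J : ℕ) (r : ℕ) :
    ∑ i ∈ range J, (2 * (r + i) + 3 : ℝ) / 2 ^ i ≤ 4 * r + 10 := by
  have : ∑ i ∈ range J, (2 * (r + i) + 3 : ℝ) / 2 ^ i =
      (4 * r + 10) - (4 * r + 4 * J + 10) / 2 ^ J := by
    induction J with
    | zero => simp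
    | succ J ih =>
      rw [sum_range_succ, ih, pow_succ]
      push_cast
      field_simp
      ring
  rw [this]
  have : (0:ℝ) ≤ (4 * r + 4 * J + 10) / 2 ^ J := by positivity
  linarith

lemma block_data : ∃ K : ℝ, 0 < K ∧ ∀ (S : Finset ℕ) (Z : ℝ), (∀ p ∈ S, p.Prime) → 0 ≤ Z →
    ∀ i : ℕ, ∑ p ∈ block S Z i, 1 / (p:ℝ) ≤ K ∧
      ((block S Z i).card : ℝ) + 1 ≤ Real.exp (Z / 2 ^ i) := by
  obtain ⟨A, hA, hM⟩ := mertens_sharp one_pos
  refine ⟨max (Real.log 2 + 1) (Real.exp (2 * A)), lt_max_of_lt_right (Real.exp_pos _),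
    fun S Z hS hZ i => ?_⟩
  set b := Z / 2 ^ i with hb
  have hb0 : 0 ≤ b := by positivity
  have hhalf : Z / 2 ^ (i + 1) = b / 2 := by rw [hb, pow_succ]; ring
  have hmem : ∀ p ∈ block S Z i, p.Prime ∧ b / 2 < Real.log p ∧ Real.log p ≤ b := by
    intro p hp
    simp only [block, mem_filter] at hp
    exact ⟨hS p hp.1, hhalf ▸ hp.2.1, hp.2.2⟩
  have hsub : block S Z i ⊆ Finset.Icc 2 ⌊Real.exp b⌋₊ := by
    intro p hp
    obtain ⟨h1, -, h3⟩ := hmem p hp
    refine mem_Icc.2 ⟨h1.two_le, Nat.le_floor ?_⟩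
    exact (Real.log_le_iff_le_exp (by exact_mod_cast h1.pos)).1 h3
  have hcard : ((block S Z i).card : ℝ) + 1 ≤ Real.exp b := by
    have h := card_le_card hsub
    rw [Nat.card_Icc] at h
    have h1 : 1 ≤ ⌊Real.exp b⌋₊ := Nat.le_floor (by simpa using Real.one_le_exp hb0)
    have h2 : (((block S Z i).card + 1 : ℕ) : ℝ) ≤ (⌊Real.exp b⌋₊ : ℝ) := by
      exact_mod_cast (show (block S Z i).card + 1 ≤ ⌊Real.exp b⌋₊ by omega)
    push_cast at h2
    exact h2.trans (Nat.floor_le (Real.exp_pos b).le)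
  refine ⟨?_, hcard⟩
  rcases le_or_gt A (b / 2) with h | h
  · refine le_trans ?_ (le_max_left _ _)
    have hs : block S Z i ⊆ logPrimes (b / 2) b := fun p hp => mem_logPrimes.2 (hmem p hp)
    have h2 := (abs_le.1 (hM (b / 2) b h (by linarith))).2
    have hb1 : b ≠ 0 := by linarith
    rw [show b / (b / 2) = 2 by field_simp] at h2
    have := sum_le_sum_of_subset_of_nonneg hs (f := fun p : ℕ => 1 / (p:ℝ)) fun _ _ _ => by positivity
    linarith
  · refine le_trans ?_ (le_max_right _ _)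
    calc ∑ p ∈ block S Z i, 1 / (p:ℝ) ≤ ∑ _p ∈ block S Z i, (1:ℝ) :=
          sum_le_sum fun p hp => by
            have : (1:ℝ) ≤ p := by exact_mod_cast (hmem p hp).1.one_le
            exact (div_le_one (by linarith)).2 this
      _ = ((block S Z i).card : ℝ) := by simp
      _ ≤ Real.exp b := by linarith
      _ ≤ _ := Real.exp_le_exp.2 (by linarith)

/-- The density of survivors of a set of primes. -/
noncomputable def dens (S : Finset ℕ) : ℝ := ∏ p ∈ S, (1 - 1 / (p:ℝ))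

lemma dens_pos {S : Finset ℕ} (hS : ∀ p ∈ S, p.Prime) : 0 < dens S ∧ dens S ≤ 1 := by
  have h : ∀ p ∈ S, 0 < 1 - 1 / (p:ℝ) ∧ 1 - 1 / (p:ℝ) ≤ 1 := by
    intro p hp
    have h2 : (2:ℝ) ≤ p := by exact_mod_cast (hS p hp).two_le
    have h3 : 1 / (p:ℝ) ≤ 1 / 2 := by gcongr
    have h4 : 0 ≤ 1 / (p:ℝ) := by positivity
    constructor <;> linarith
  exact ⟨prod_pos fun p hp => (h p hp).1, prod_le_one (fun p hp => (h p hp).1.le) fun p hp => (h p hp).2⟩

/-- Fundamental lemma, with explicit dependence of the level on the accuracy. -/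
theorem fundamental : ∃ G : ℝ, 0 < G ∧ ∀ (e₀ : ℝ) (r : ℕ), 0 < e₀ →
    (1/4:ℝ) ^ r < min e₀ 1 / (8 * G) → ∀ (S : Finset ℕ) (Z : ℝ) (J : ℕ),
    (∀ p ∈ S, p.Prime ∧ Real.log p ≤ Z) → 0 ≤ Z → Z / 2 ^ J < Real.log 2 →
    ∀ (N : ℕ) (a : ℕ → ℤ), |(cnt N a S : ℝ) - N * dens S| ≤
      e₀ * (N * dens S) + ((J:ℝ) + 1) * Real.exp ((4 * r + 10) * Z) := by
  obtain ⟨K, hK, hblock⟩ := block_data
  refine ⟨Real.exp (2 * K) * Real.exp (2 * K), by positivity,
    fun e₀ r he hr S Z J hS hZ hJ N a => ?_⟩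
  set G := Real.exp (2 * K) * Real.exp (2 * K) with hG
  have hSp : ∀ p ∈ S, p.Prime := fun p hp => (hS p hp).1
  set B := block S Z with hBdef
  have hBS : ∀ i, B i ⊆ S := fun i => filter_subset _ _
  have hBp : ∀ i, ∀ p ∈ B i, p.Prime := fun i p hp => hSp p (hBS i hp)
  have hBd : ∀ i j, i ≠ j → Disjoint (B i) (B j) := by
    intro i j hij
    wlog h : i < j generalizing i j
    · exact (this j i hij.symm (by omega)).symm
    rw [Finset.disjoint_left]
    intro p hp hq
    simp only [hBdef, block, mem_filter] at hp hq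
    have : Z / 2 ^ j ≤ Z / 2 ^ (i + 1) :=
      div_le_div_of_nonneg_left hZ (by positivity) (pow_le_pow_right₀ (by norm_num) h)
    linarith [hp.2.1, hq.2.2]
  have hcover : S = (range J).biUnion B := by
    ext p
    simp only [mem_biUnion, mem_range]
    refine ⟨fun hp => ?_, fun ⟨i, _, hi⟩ => hBS i hi⟩
    have hlp : Real.log 2 ≤ Real.log p :=
      Real.log_le_log two_pos (by exact_mod_cast (hSp p hp).two_le)
    have hex : ∃ i, Z / 2 ^ (i + 1) < Real.log p := by
      refine ⟨J, lt_of_le_of_lt ?_ (hJ.trans_le hlp)⟩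
      exact div_le_div_of_nonneg_left hZ (by positivity) (pow_le_pow_right₀ (by norm_num) (Nat.le_succ J))
    classical
    refine ⟨Nat.find hex, ?_, ?_⟩
    · rcases Nat.eq_zero_or_pos J with rfl | hJ0
      · simp only [pow_zero, div_one] at hJ
        linarith [(hS p hp).2]
      · have : Nat.find hex ≤ J - 1 := Nat.find_min' hex (by
          rw [Nat.sub_add_cancel hJ0]; linarith)
        omega
    · simp only [hBdef, block, mem_filter]
      refine ⟨hp, Nat.find_spec hex, ?_⟩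
      rcases Nat.eq_zero_or_pos (Nat.find hex) with h0 | h0
      · rw [h0]; simpa using (hS p hp).2
      · have := Nat.find_min hex (m := Nat.find hex - 1) (by omega)
        rw [not_lt, Nat.sub_add_cancel h0] at this
        exact this
  set R : ℕ → ℕ := fun i => 2 * (r + i) + 2 with hR
  have hRe : ∀ i, Even (R i) := fun i => ⟨r + i + 1, by simp only [hR]; ring⟩
  set u : (ℕ → ℝ) → ℕ → ℝ := fun x i => trunc (B i) x (R i) with hu
  set e : (ℕ → ℝ) → ℕ → ℝ := fun x i => esy (B i) x (R i + 1) with hedef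
  have hprodB : ∀ x : ℕ → ℝ, ∏ p ∈ S, (1 - x p) = ∏ i ∈ range J, ∏ p ∈ B i, (1 - x p) := by
    intro x
    rw [hcover, prod_biUnion fun i _ j _ h => hBd i j h]
  have hcnt : (cnt N a S : ℝ) = ∑ j ∈ range N, ∏ p ∈ S, (1 - ind a j p) := by
    rw [cnt, survivors, ← sum_boole]
    refine sum_congr rfl fun j _ => ?_
    have : ∀ p, 1 - ind a j p = if ¬ (p:ℤ) ∣ (j:ℤ) - a p then 1 else 0 := fun p => by
      simp only [ind]; split_ifs <;> norm_num
    simp only [this, prod_boole]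
  have hind : ∀ j p, 0 ≤ ind a j p ∧ ind a j p ≤ 1 := fun j p => by
    simp only [ind]; split_ifs <;> norm_num
  -- families
  set FU : ℕ → Finset (Finset ℕ) := fun i => (B i).powerset.filter fun T => T.card ≤ R i with hFU
  set F' : ℕ → Finset (Finset ℕ) := fun i => (B i).powerset.filter fun T => T.card ≤ R i + 1 with hF'
  have hUe : ∀ (x : ℕ → ℝ) i, u x i = ∑ T ∈ FU i, (-1:ℝ) ^ T.card * ∏ p ∈ T, x p := by
    intro x i
    simp only [hu, trunc, hFU, esy, mul_sum]
    have hmap : ∀ T ∈ (B i).powerset.filter (fun T => T.card ≤ R i), T.card ∈ range (R i + 1) :=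
      fun T hT => mem_range.2 (Nat.lt_succ_of_le (mem_filter.1 hT).2)
    rw [← sum_fiberwise_of_maps_to hmap]
    refine sum_congr rfl fun m hm => ?_
    refine sum_congr ?_ fun T hT => ?_
    · ext T
      simp only [mem_powersetCard, mem_filter, mem_powerset]
      constructor
      · rintro ⟨h1, h2⟩; exact ⟨⟨h1, by have := mem_range.1 hm; omega⟩, h2⟩
      · rintro ⟨⟨h1, -⟩, h2⟩; exact ⟨h1, h2⟩
    · simp only [mem_filter] at hT
      rw [hT.2]
  set err := ∏ i ∈ range J, ((F' i).card : ℝ) with herr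
  have hFF : ∀ i, ((FU i).card : ℝ) ≤ (F' i).card := fun i => by
    refine Nat.cast_le.2 (card_le_card fun T hT => ?_)
    simp only [hFU, hF', mem_filter] at hT ⊢
    exact ⟨hT.1, by omega⟩
  have herrb : err ≤ Real.exp ((4 * r + 10) * Z) := by
    have h1 : ∀ i ∈ range J, ((F' i).card : ℝ) ≤ Real.exp ((2 * (r + i) + 3 : ℝ) / 2 ^ i * Z) := by
      intro i _
      refine (powersets_card_le (B i) (R i + 1)).trans ?_
      refine (pow_le_pow_left₀ (add_nonneg (Nat.cast_nonneg _) zero_le_one) (hblock S Z hSp hZ i).2 _).trans ?_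
      rw [← Real.exp_nat_mul]
      refine Real.exp_le_exp.2 (le_of_eq ?_)
      simp only [hR]; push_cast; ring
    refine (prod_le_prod (fun i _ => Nat.cast_nonneg _) h1).trans ?_
    rw [← Real.exp_sum, ← sum_mul]
    exact Real.exp_le_exp.2 (mul_le_mul_of_nonneg_right (geo_half J r) hZ)
  have hexpU : |∑ j ∈ range N, ∏ i ∈ range J, u (ind a j) i -
      (N:ℝ) * ∏ i ∈ range J, u (fun p => 1 / (p:ℝ)) i| ≤ err := by
    simp only [hUe]
    refine (expand N a J B hBp hBd FU (fun i T hT => mem_powerset.1 (mem_filter.1 hT).1)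
      (fun _ T => (-1:ℝ) ^ T.card) (fun i T => by simp)).trans ?_
    exact prod_le_prod (fun i _ => Nat.cast_nonneg _) fun i _ => hFF i
  have hexpE : ∀ k ∈ range J, |∑ j ∈ range N, e (ind a j) k * ∏ i ∈ (range J).erase k, u (ind a j) i -
      (N:ℝ) * (e (fun p => 1 / (p:ℝ)) k * ∏ i ∈ (range J).erase k, u (fun p => 1 / (p:ℝ)) i)| ≤ err := by
    intro k hk
    let Fk : ℕ → Finset (Finset ℕ) := fun i =>
      if i = k then (B i).powersetCard (R i + 1) else FU i
    let wk : ℕ → Finset ℕ → ℝ := fun i T => if i = k then 1 else (-1:ℝ) ^ T.card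
    have hval : ∀ (x : ℕ → ℝ), e x k * ∏ i ∈ (range J).erase k, u x i =
        ∏ i ∈ range J, ∑ T ∈ Fk i, wk i T * ∏ p ∈ T, x p := by
      intro x
      rw [← mul_prod_erase (range J) _ hk]
      congr 1
      · simp [Fk, wk, hedef, esy]
      · refine prod_congr rfl fun i hi => ?_
        have hne := ne_of_mem_erase hi
        simp [Fk, wk, hne, hUe]
    simp only [hval]
    refine (expand N a J B hBp hBd Fk ?_ wk ?_).trans ?_
    · intro i T hT
      simp only [Fk] at hT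
      split_ifs at hT
      · exact (mem_powersetCard.1 hT).1
      · exact mem_powerset.1 (mem_filter.1 hT).1
    · intro i T
      simp only [wk]; split_ifs <;> simp
    · refine prod_le_prod (fun i _ => Nat.cast_nonneg _) fun i _ => ?_
      simp only [Fk]
      split_ifs
      · refine Nat.cast_le.2 (card_le_card fun T hT => ?_)
        simp only [mem_powersetCard, hF', mem_filter, mem_powerset] at hT ⊢
        exact ⟨hT.1, hT.2.le⟩
      · exact hFF i
  have hup : (cnt N a S : ℝ) ≤ ∑ j ∈ range N, ∏ i ∈ range J, u (ind a j) i := by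
    rw [hcnt]
    refine sum_le_sum fun j _ => ?_
    rw [hprodB]
    exact prod_le_prod (fun i _ => prod_nonneg fun p _ => sub_nonneg.2 (hind j p).2) fun i _ =>
      (trunc_sub_le (fun p _ => hind j p) (hRe i)).1
  have hlow : ∑ j ∈ range N, ∏ i ∈ range J, u (ind a j) i -
      ∑ k ∈ range J, ∑ j ∈ range N, e (ind a j) k * ∏ i ∈ (range J).erase k, u (ind a j) i ≤
      (cnt N a S : ℝ) := by
    rw [hcnt, sum_comm, ← sum_sub_distrib]
    refine sum_le_sum fun j _ => ?_
    rw [hprodB]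
    exact prod_lower _ _ _ _ fun i _ => ⟨prod_nonneg fun p _ => sub_nonneg.2 (hind j p).2,
      (trunc_sub_le (fun p _ => hind j p) (hRe i)).1, (trunc_sub_le (fun p _ => hind j p) (hRe i)).2⟩
  -- main terms
  set x0 : ℕ → ℝ := fun p => 1 / (p:ℝ) with hx0
  have hx0b : ∀ i, ∀ p ∈ B i, 0 ≤ x0 p ∧ x0 p ≤ 1 := fun i p hp => by
    have : (1:ℝ) ≤ p := by exact_mod_cast (hBp i p hp).one_le
    exact ⟨by simp only [hx0]; positivity, (div_le_one (by linarith)).2 this⟩
  set V : ℕ → ℝ := fun i => ∏ p ∈ B i, (1 - x0 p) with hV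
  have hVlow : ∀ i, 1 ≤ V i * Real.exp (2 * K) := by
    intro i
    have h1 : Real.exp (-(2 * ∑ p ∈ B i, x0 p)) ≤ V i := by
      rw [← neg_mul, mul_sum, Real.exp_sum]
      refine prod_le_prod (fun p _ => (Real.exp_pos _).le) fun p hp => ?_
      have h2 : (2:ℝ) ≤ p := by exact_mod_cast (hBp i p hp).two_le
      have h3 : x0 p ≤ 1/2 := by simp only [hx0]; gcongr
      have h4 : (0:ℝ) ≤ x0 p := (hx0b i p hp).1
      have h5 := Real.add_one_le_exp (2 * x0 p)
      rw [neg_mul, Real.exp_neg, inv_le_iff_one_le_mul₀' (Real.exp_pos _)]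
      have h6 := mul_le_mul_of_nonneg_right h5 (show (0:ℝ) ≤ 1 - x0 p by linarith)
      nlinarith
    have h7 : Real.exp (-(2 * K)) ≤ V i := le_trans (Real.exp_le_exp.2 (by
      linarith [(hblock S Z hSp hZ i).1])) h1
    rw [Real.exp_neg] at h7
    calc (1:ℝ) = (Real.exp (2 * K))⁻¹ * Real.exp (2 * K) := (inv_mul_cancel₀ (Real.exp_pos _).ne').symm
      _ ≤ _ := mul_le_mul_of_nonneg_right h7 (Real.exp_pos _).le
  have hV0 : ∀ i, 0 ≤ V i := fun i => prod_nonneg fun p hp => sub_nonneg.2 (hx0b i p hp).2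
  set E : ℕ → ℝ := fun i => G * (1/4) ^ r * (1/4) ^ i with hE
  have heb : ∀ i, e x0 i ≤ E i * V i := by
    intro i
    have h1 := esy_small (x := x0) (fun p hp => (hx0b i p hp).1) (R i + 1)
    have h2 : (1/2:ℝ) ^ (R i + 1) ≤ (1/4) ^ r * (1/4) ^ i := by
      rw [← pow_add, show (1/4:ℝ) = (1/2) ^ 2 by norm_num, ← pow_mul]
      exact pow_le_pow_of_le_one (by norm_num) (by norm_num) (by simp only [hR]; omega)
    have h3 : Real.exp (2 * ∑ p ∈ B i, x0 p) ≤ Real.exp (2 * K) :=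
      Real.exp_le_exp.2 (by linarith [(hblock S Z hSp hZ i).1])
    calc e x0 i ≤ (1/2:ℝ) ^ (R i + 1) * Real.exp (2 * ∑ p ∈ B i, x0 p) := h1
      _ ≤ (1/4) ^ r * (1/4) ^ i * Real.exp (2 * K) := mul_le_mul h2 h3 (Real.exp_pos _).le (by positivity)
      _ ≤ (1/4) ^ r * (1/4) ^ i * Real.exp (2 * K) * (V i * Real.exp (2 * K)) :=
          le_mul_of_one_le_right (by positivity) (hVlow i)
      _ = E i * V i := by simp only [hE, hG]; ring
  have hu1 : ∀ i, V i ≤ u x0 i ∧ u x0 i ≤ V i * (1 + E i) := by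
    intro i
    obtain ⟨h1, h2⟩ := trunc_sub_le (hx0b i) (hRe i)
    refine ⟨h1, ?_⟩
    have : u x0 i - e x0 i ≤ V i := h2
    linarith [heb i]
  have hdens : dens S = ∏ i ∈ range J, V i := hprodB x0
  set T := ∑ i ∈ range J, E i with hTdef
  have hG0 : 0 < G := by positivity
  have hT : T ≤ min e₀ 1 / 4 := by
    have h4 : ∑ i ∈ range J, (1/4:ℝ) ^ i ≤ 2 := by
      rw [geom_sum_eq (by norm_num), div_le_iff_of_neg (by norm_num)]
      have : (0:ℝ) ≤ (1/4) ^ J := by positivity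
      linarith
    rw [hTdef]
    simp only [hE, ← mul_sum]
    rw [lt_div_iff₀ (by positivity)] at hr
    calc G * (1/4) ^ r * ∑ i ∈ range J, (1/4:ℝ) ^ i ≤ G * (1/4) ^ r * 2 :=
          mul_le_mul_of_nonneg_left h4 (by positivity)
      _ ≤ _ := by linarith
  have hT0 : 0 ≤ T := sum_nonneg fun i _ => by simp only [hE]; positivity
  have hexpT : Real.exp T ≤ 1 + 2 * T := by
    have h1 := Real.abs_exp_sub_one_sub_id_le (show |T| ≤ 1 by
      rw [abs_of_nonneg hT0]; linarith [min_le_right e₀ 1])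
    have := (abs_le.1 h1).2
    nlinarith [min_le_right e₀ 1]
  have hmainU : ∏ i ∈ range J, u x0 i ≤ dens S * Real.exp T := by
    rw [hdens, hTdef, Real.exp_sum, ← prod_mul_distrib]
    refine prod_le_prod (fun i _ => (hV0 i).trans (hu1 i).1) fun i _ => (hu1 i).2.trans ?_
    exact mul_le_mul_of_nonneg_left (by linarith [Real.add_one_le_exp (E i)]) (hV0 i)
  have hmainE : ∑ k ∈ range J, e x0 k * ∏ i ∈ (range J).erase k, u x0 i ≤ T * (dens S * Real.exp T) := by
    refine le_trans ?_ (mul_le_mul_of_nonneg_left hmainU hT0)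
    rw [hTdef, sum_mul]
    refine sum_le_sum fun k hk => ?_
    rw [← mul_prod_erase (range J) _ hk, ← mul_assoc]
    refine mul_le_mul_of_nonneg_right ((heb k).trans ?_) (prod_nonneg fun i _ => (hV0 i).trans (hu1 i).1)
    exact mul_le_mul_of_nonneg_left (hu1 k).1 (by simp only [hE]; positivity)
  have hmainL : dens S ≤ ∏ i ∈ range J, u x0 i := by
    rw [hdens]; exact prod_le_prod (fun i _ => hV0 i) fun i _ => (hu1 i).1
  have hN : (0:ℝ) ≤ N := Nat.cast_nonneg N
  have hd0 := (dens_pos hSp).1.le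
  have hsumE : ∑ k ∈ range J, ∑ j ∈ range N, e (ind a j) k * ∏ i ∈ (range J).erase k, u (ind a j) i ≤
      (N:ℝ) * (T * (dens S * Real.exp T)) + J * err := by
    calc _ ≤ ∑ k ∈ range J, ((N:ℝ) * (e x0 k * ∏ i ∈ (range J).erase k, u x0 i) + err) :=
          sum_le_sum fun k hk => by linarith [(abs_le.1 (hexpE k hk)).2]
      _ = (N:ℝ) * (∑ k ∈ range J, e x0 k * ∏ i ∈ (range J).erase k, u x0 i) + J * err := by
          rw [sum_add_distrib, ← mul_sum, sum_const, card_range, nsmul_eq_mul]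
      _ ≤ _ := by linarith [mul_le_mul_of_nonneg_left hmainE hN]
  have hND : 0 ≤ (N:ℝ) * dens S := mul_nonneg hN hd0
  have k1 : (N:ℝ) * (dens S * Real.exp T) ≤ N * dens S + e₀ * (N * dens S) := by
    have := mul_le_mul_of_nonneg_left hexpT hND
    have := mul_le_mul_of_nonneg_left (show 2 * T ≤ e₀ by linarith [min_le_left e₀ 1]) hND
    linarith
  have k2 : (N:ℝ) * (T * (dens S * Real.exp T)) ≤ e₀ * (N * dens S) := by
    have h1 : T * Real.exp T ≤ e₀ := by
      have := mul_le_mul_of_nonneg_left hexpT hT0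
      nlinarith [min_le_left e₀ 1, min_le_right e₀ 1]
    nlinarith [mul_le_mul_of_nonneg_left h1 hND]
  have kE : (J:ℝ) * err ≤ J * Real.exp ((4 * r + 10) * Z) :=
    mul_le_mul_of_nonneg_left herrb (Nat.cast_nonneg J)
  have kE0 : 0 ≤ (J:ℝ) * Real.exp ((4 * r + 10) * Z) := by positivity
  have a1 := abs_le.1 hexpU
  have k3 := mul_le_mul_of_nonneg_left hmainL hN
  have k4 := mul_le_mul_of_nonneg_left hmainU hN
  rw [abs_le]
  constructor <;> linarith

end Vale.Agent.P013
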