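import Vale.Agent.P013.Delay

/-!
Decay of the gap between the upper and lower functions, and a Lipschitz bound for the upper one.
-/

open Real Set

namespace Vale.Agent.P013

lemma gap_antitone : AntitoneOn (fun s => bigG s - smallG s) (Ici 3) := by
  refine antitoneOn_of_deriv_nonpos (convex_Ici _)
    (bigG_continuous.sub smallG_continuous).continuousOn ?_ ?_
  · intro x hx
    rw [interior_Ici] at hx
    exact ((hasDerivAt_bigG hx).sub (hasDerivAt_smallG (by linarith [mem_Ioi.1 hx]))).differentiableAt.differentiableWithinAt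
  · intro x hx
    rw [interior_Ici] at hx
    rw [((hasDerivAt_bigG hx).fun_sub (hasDerivAt_smallG (by linarith [mem_Ioi.1 hx]))).deriv]
    linarith [low_lt_up (show 0 < x - 1 by linarith [mem_Ioi.1 hx])]

lemma upN_sub_lowN {s : ℝ} (hs : 0 < s) :
    upN s - lowN s = (bigG s - smallG s) / limL / s := by
  have := limL_pos
  simp only [upN, lowN, up, low]
  field_simp

/-- The gap tends to zero. -/
lemma gap_small {η : ℝ} (hη : 0 < η) : ∃ s₀ : ℝ, 4 ≤ s₀ ∧ ∀ s, s₀ ≤ s →
    bigG s - smallG s ≤ η := by
  by_contra h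
  push Not at h
  have hge : ∀ t, 3 ≤ t → η ≤ bigG t - smallG t := by
    intro t ht
    obtain ⟨s, hs, hlt⟩ := h (max t 4) (le_max_right _ _)
    have hts : t ≤ s := (le_max_left _ _).trans hs
    linarith [gap_antitone ht (ht.trans hts) hts]
  set F : ℝ → ℝ := fun s => bigG s - smallG s + η * Real.log (s - 1) with hF
  have hd : ∀ x : ℝ, 3 < x → HasDerivAt F (low (x - 1) - up (x - 1) + η * (1 / (x - 1))) x :=
    fun x hx => ((hasDerivAt_bigG hx).fun_sub (hasDerivAt_smallG (by linarith))).fun_add
      ((((hasDerivAt_id x).sub_const 1).log (by simp; linarith)).const_mul η)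
  have hanti : AntitoneOn F (Ici 4) := by
    refine antitoneOn_of_deriv_nonpos (convex_Ici _) ?_ ?_ ?_
    · exact fun x hx => (hd x (by linarith [mem_Ici.1 hx])).continuousAt.continuousWithinAt
    · intro x hx
      rw [interior_Ici] at hx
      exact (hd x (by linarith [mem_Ioi.1 hx])).differentiableAt.differentiableWithinAt
    · intro x hx
      rw [interior_Ici] at hx
      have hx1 : (3:ℝ) < x - 1 := by linarith [mem_Ioi.1 hx]
      rw [(hd x (by linarith)).deriv]
      have := div_le_div_of_nonneg_right (hge (x - 1) hx1.le) (show 0 ≤ x - 1 by linarith)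
      simp only [up, low]
      rw [sub_div] at this
      rw [mul_one_div]
      linarith
  set X := Real.exp ((|F 4| + 1) / η) + 4 with hX
  have hX4 : 4 ≤ X := by linarith [Real.exp_pos ((|F 4| + 1) / η)]
  have h1 := hanti self_mem_Ici hX4 hX4
  have h2 : (|F 4| + 1) / η ≤ Real.log (X - 1) := by
    rw [Real.le_log_iff_exp_le (by linarith)]; linarith
  have h3 := mul_le_mul_of_nonneg_left h2 hη.le
  rw [mul_div_cancel₀ _ hη.ne'] at h3
  have h4 := diff_pos X
  simp only [hF] at h1 h3 ⊢
  linarith [le_abs_self (bigG 4 - smallG 4 + η * Real.log (4 - 1))]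

lemma one_sub_lowN_small {η : ℝ} (hη : 0 < η) : ∃ s₀ : ℝ, 4 ≤ s₀ ∧ ∀ s, s₀ ≤ s →
    1 - lowN s ≤ η / s := by
  obtain ⟨s₀, hs₀, h⟩ := gap_small (mul_pos hη limL_pos)
  refine ⟨s₀, hs₀, fun s hs => ?_⟩
  have hs0 : 0 < s := by linarith
  have h1 := one_le_upN hs0
  have h2 := upN_sub_lowN hs0
  have h3 : (bigG s - smallG s) / limL / s ≤ η / s :=
    div_le_div_of_nonneg_right ((div_le_iff₀ limL_pos).2 (h s hs)) hs0.le
  linarith

lemma up_step_lower {a b : ℝ} (ha : 3 ≤ a) (hab : a ≤ b) :
    lowN (a - 1) * (b - a) ≤ b * upN b - a * upN a := by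
  have e : ∀ s : ℝ, 2 ≤ s → s * upN s = bigG s / limL := by
    intro s hs
    have : s ≠ 0 := by linarith
    simp only [upN, up]; field_simp
  rw [e a (by linarith), e b (by linarith), ← sub_div, lowN, div_mul_eq_mul_div]
  refine div_le_div_of_nonneg_right ?_ limL_pos.le
  refine (convex_Icc a b).mul_sub_le_image_sub_of_le_deriv bigG_continuous.continuousOn
    ?_ ?_ a (left_mem_Icc.2 hab) b (right_mem_Icc.2 hab) hab
  · intro x hx
    rw [interior_Icc] at hx
    exact (hasDerivAt_bigG (by linarith [hx.1])).differentiableAt.differentiableWithinAt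
  · intro x hx
    rw [interior_Icc] at hx
    rw [(hasDerivAt_bigG (by linarith [hx.1])).deriv]
    exact low_strictMonoOn.monotoneOn (mem_Ici.2 (by linarith))
      (mem_Ici.2 (by linarith [hx.1])) (by linarith [hx.1])

/-- The upper function varies like `1 / s ^ 2`. -/
lemma upN_lipschitz : ∃ C : ℝ, 0 ≤ C ∧ ∀ a b : ℝ, 1/2 ≤ a → a ≤ b →
    upN a - upN b ≤ C * ((b - a) / a ^ 2) := by
  set D := (bigG 3 - smallG 3) / limL with hD
  have hD0 : 0 ≤ D := div_nonneg (sub_pos.2 (diff_pos 3)).le limL_pos.le
  have hu : 0 ≤ upN (1/2) := upN_nonneg (by norm_num)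
  refine ⟨2 * D + 4 * upN (1/2), by positivity, fun a b ha hab => ?_⟩
  have ha0 : 0 < a := by linarith
  have hb0 : 0 < b := by linarith
  have hr : 0 ≤ (b - a) / a ^ 2 := div_nonneg (by linarith) (by positivity)
  rcases le_or_gt 4 a with h4 | h4
  · have hs := up_step_lower (show 3 ≤ a by linarith) hab
    have hab' : upN a ≤ upN (a - 1) := upN_antitone (by linarith) (by linarith)
    have hgap : upN (a - 1) - lowN (a - 1) ≤ D / (a - 1) := by
      rw [upN_sub_lowN (by linarith)]
      refine div_le_div_of_nonneg_right (div_le_div_of_nonneg_right ?_ limL_pos.le) (by linarith)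
      exact gap_antitone self_mem_Ici (show (3:ℝ) ≤ a - 1 by linarith) (by linarith)
    have h1 : b * (upN a - upN b) ≤ D / (a - 1) * (b - a) := by
      have := mul_le_mul_of_nonneg_right (show upN a - lowN (a - 1) ≤ D / (a - 1) by linarith)
        (show 0 ≤ b - a by linarith)
      linarith
    have h2 : upN a - upN b ≤ 2 * D * ((b - a) / a ^ 2) := by
      rw [← le_div_iff₀' hb0] at h1
      refine h1.trans ?_
      rw [div_mul_eq_mul_div, div_div, mul_div_assoc', div_le_div_iff₀ (by nlinarith) (by positivity)]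
      have : a ^ 2 ≤ 2 * ((a - 1) * b) := by nlinarith
      have := mul_le_mul_of_nonneg_left this (mul_nonneg hD0 (show 0 ≤ b - a by linarith))
      linarith
    have : 0 ≤ 4 * upN (1/2) * ((b - a) / a ^ 2) := by positivity
    linarith
  · have h1 := mul_upN_mono ha0 hab
    have h2 : upN a ≤ upN (1/2) := upN_antitone (by norm_num) ha
    have h3 : upN a - upN b ≤ upN a * ((b - a) / b) := by
      rw [mul_div_assoc', le_div_iff₀ hb0]; linarith
    have h5 : (b - a) / b ≤ 4 * ((b - a) / a ^ 2) := by
      rw [mul_div_assoc', div_le_div_iff₀ hb0 (by positivity)]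
      have : a ^ 2 ≤ 4 * b := by nlinarith
      have := mul_le_mul_of_nonneg_left this (show 0 ≤ b - a by linarith)
      linarith
    have h6 : upN a * ((b - a) / b) ≤ upN (1/2) * (4 * ((b - a) / a ^ 2)) :=
      mul_le_mul h2 h5 (div_nonneg (by linarith) hb0.le) hu
    have : 0 ≤ 2 * D * ((b - a) / a ^ 2) := by positivity
    linarith

end Vale.Agent.P013
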