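import Vale.Agent.P013.Delay
import Vale.Agent.P013.Fund

/-!
The linear sieve induction over a base set of tiny primes.
-/

open Finset Real

namespace Vale.Agent.P013

/-- A set of primes below `exp (θ L)` over which intervals are equidistributed. -/
def Good (θ L η e : ℝ) (S : Finset ℕ) : Prop :=
  0 ≤ η ∧ (∀ p ∈ S, p.Prime ∧ Real.log p ≤ θ * L) ∧ ∀ (M : ℕ) (b : ℕ → ℤ),
    |(cnt M b S : ℝ) - M * dens S| ≤ e * (M * dens S) + Real.exp (η * L)

lemma Good.mono {θ L η e e' : ℝ} {S : Finset ℕ} (h : Good θ L η e S) (he : e ≤ e') :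
    Good θ L η e' S :=
  ⟨h.1, h.2.1, fun M b => (h.2.2 M b).trans (add_le_add (mul_le_mul_of_nonneg_right he
    (mul_nonneg (Nat.cast_nonneg M) (dens_pos fun p hp => (h.2.1 p hp).1).1.le)) le_rfl)⟩

lemma buchstab_base (N : ℕ) (a : ℕ → ℤ) (S P : Finset ℕ) :
    cnt N a (S ∪ P) + ∑ p ∈ P, hits N a (S ∪ P.filter (· < p)) p = cnt N a S := by
  induction P using Finset.induction_on_max with
  | empty => simp
  | insert p Q hQ ih =>
    have hp : p ∉ Q := fun h => lt_irrefl p (hQ p h)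
    have e1 : (insert p Q).filter (· < p) = Q := by
      ext q
      simp only [mem_filter, mem_insert]
      constructor
      · rintro ⟨rfl | h, h'⟩
        · omega
        · exact h
      · exact fun h => ⟨Or.inr h, hQ q h⟩
    have e2 : ∀ q ∈ Q, (insert p Q).filter (· < q) = Q.filter (· < q) := by
      intro q hq
      rw [filter_insert, if_neg (Nat.lt_asymm (hQ q hq))]
    rw [sum_insert hp, e1, sum_congr rfl fun q hq => by rw [e2 q hq], union_insert]
    have := cnt_insert N a (S ∪ Q) p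
    omega

/-- Growth of the relative error `e` of the base set through the iteration. -/
noncomputable def amp (θ u : ℝ) : ℝ := (u / θ) ^ 2

lemma one_le_amp {θ u : ℝ} (hθ : 0 < θ) (hu : θ ≤ u) : 1 ≤ amp θ u :=
  one_le_pow₀ ((one_le_div hθ).2 hu)

lemma amp_mono {θ u w : ℝ} (hθ : 0 < θ) (hw : θ ≤ w) (hwu : w ≤ u) : amp θ w ≤ amp θ u :=
  pow_le_pow_left₀ (div_nonneg (hθ.le.trans hw) hθ.le) (div_le_div_of_nonneg_right hwu hθ.le) 2

lemma amp_sum {θ ε : ℝ} (hθ : 0 < θ) (hθ1 : θ ≤ 1) (hε : 0 < ε) : ∃ L₀ : ℝ, 0 < L₀ ∧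
    ∀ L u : ℝ, L₀ ≤ L → θ ≤ u → u ≤ 1 →
      1 + ∑ p ∈ logPrimes (θ * L) (u * L), 1 / (p:ℝ) * amp θ (Real.log p / L) ≤ amp θ u + ε := by
  obtain ⟨L₀, hL₀, hgrid⟩ := grid_sum hθ hθ1 hε (1 / θ ^ 2) (by positivity)
  refine ⟨L₀, hL₀, fun L u hL hu hu1 => ?_⟩
  have h := (hgrid L u hL hu hu1).1 (fun w => amp θ w) (fun w => amp θ w / 2)
    (fun w => w ^ 3 / θ ^ 2) ?_ ?_ ?_
  · have h1 := one_le_amp hθ hu
    have h2 : amp θ θ = 1 := by rw [amp, div_self hθ.ne', one_pow]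
    rw [h2] at h
    linarith
  · intro a b ha hab hb
    have ha0 : 0 ≤ a := hθ.le.trans ha
    exact ⟨div_le_div_of_nonneg_right (pow_le_one₀ (ha0.trans hab) (hb.trans hu1)) (by positivity),
      by positivity, div_le_div_of_nonneg_right (pow_le_pow_left₀ ha0 hab 3) (by positivity)⟩
  · intro a b ha hab hb
    have ha0 : 0 < a := hθ.trans_le ha
    have hb0 : 0 < b := ha0.trans_le hab
    have e1 : a ^ 3 / θ ^ 2 * ((b - a) / (a * b)) = (a * a / b * (b - a)) / θ ^ 2 := by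
      field_simp
    have e2 : amp θ b / 2 - amp θ a / 2 = ((a + b) / 2 * (b - a)) / θ ^ 2 := by
      simp only [amp]; field_simp; ring
    rw [e1, e2]
    refine div_le_div_of_nonneg_right (mul_le_mul_of_nonneg_right ?_ (by linarith)) (by positivity)
    rw [div_le_iff₀ hb0]
    nlinarith
  · intro a b w ha haw hwb hb
    have ha0 : 0 < a := hθ.trans_le ha
    simp only [amp]
    rw [div_pow, div_div, div_le_div_iff₀ (by positivity) (by positivity)]
    have h1 : w ^ 2 * a ≤ b ^ 2 * b := by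
      exact mul_le_mul (pow_le_pow_left₀ (by linarith) hwb 2) (by linarith) ha0.le (by positivity)
    have := mul_le_mul_of_nonneg_right h1 (show 0 ≤ θ ^ 2 by positivity)
    linarith

/-- Upper sieve bound at depth `n`. -/
def Upper (θ : ℝ) (n : ℕ) : Prop :=
  ∀ ε : ℝ, 0 < ε → ∃ K L₀ : ℝ, 0 ≤ K ∧ 0 < L₀ ∧ ∀ (L u v η e : ℝ) (S : Finset ℕ),
    L₀ ≤ L → θ ≤ u → u ≤ 1 → 0 < v → v < n * θ → 0 ≤ e → e ≤ 1 → Good θ L η e S →
    ∀ (N : ℕ) (a : ℕ → ℤ), (cnt N a (S ∪ logPrimes (θ * L) (u * L)) : ℝ) ≤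
        N * dens S * (θ / u * upN (v / u) + ε + e * amp θ u) + K * Real.exp ((v + η) * L)

/-- Lower sieve bound at depth `n`. -/
def Lower (θ : ℝ) (n : ℕ) : Prop :=
  ∀ ε : ℝ, 0 < ε → ∃ K L₀ : ℝ, 0 ≤ K ∧ 0 < L₀ ∧ ∀ (L u v η e : ℝ) (S : Finset ℕ),
    L₀ ≤ L → θ ≤ u → u ≤ 1 → 2 * u ≤ v → v < n * θ → 0 ≤ e → e ≤ 1 → Good θ L η e S →
    ∀ (N : ℕ) (a : ℕ → ℤ),
      (N:ℝ) * dens S * (θ / u * lowN (v / u) - ε - e * amp θ u) - K * Real.exp ((v + η) * L) ≤
        cnt N a (S ∪ logPrimes (θ * L) (u * L))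

lemma mem_props {θ L u : ℝ} (hL : 0 < L) {p : ℕ} (hp : p ∈ logPrimes (θ * L) (u * L)) :
    p.Prime ∧ θ < Real.log p / L ∧ Real.log p / L ≤ u ∧
      ∀ v η : ℝ, Real.exp ((v - Real.log p / L + η) * L) = Real.exp ((v + η) * L) / p := by
  rw [mem_logPrimes] at hp
  refine ⟨hp.1, (lt_div_iff₀ hL).2 hp.2.1, (div_le_iff₀ hL).2 hp.2.2, fun v η => ?_⟩
  rw [show v - Real.log p / L + η = v + η - Real.log p / L by ring, sub_mul,
    div_mul_cancel₀ _ hL.ne', Real.exp_sub, Real.exp_log (by exact_mod_cast hp.1.pos)]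

lemma below_eq {θ L u : ℝ} (hL : 0 < L) {p : ℕ} (hp : p ∈ logPrimes (θ * L) (u * L)) :
    insert p ((logPrimes (θ * L) (u * L)).filter (· < p)) =
      logPrimes (θ * L) (Real.log p / L * L) := by
  rw [div_mul_cancel₀ _ hL.ne']
  ext q
  simp only [mem_insert, mem_filter, mem_logPrimes]
  rw [mem_logPrimes] at hp
  have hp0 : (0:ℝ) < p := by exact_mod_cast hp.1.pos
  constructor
  · rintro (rfl | ⟨⟨h1, h2, h3⟩, h4⟩)
    · exact ⟨hp.1, hp.2.1, le_rfl⟩
    · exact ⟨h1, h2, Real.log_le_log (by exact_mod_cast h1.pos) (by exact_mod_cast h4.le)⟩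
  · rintro ⟨h1, h2, h3⟩
    have : q ≤ p := by exact_mod_cast (Real.log_le_log_iff (by exact_mod_cast h1.pos) hp0).1 h3
    rcases this.eq_or_lt with h | h
    · exact Or.inl h
    · exact Or.inr ⟨⟨h1, h2, h3.trans hp.2.2⟩, h⟩

/-- The arithmetic of one hit. -/
lemma hit_arith {N M p V X c ε₁ C K Y h cm : ℝ} (hV0 : 0 ≤ V) (hV1 : V ≤ 1) (hX : 1 ≤ X)
    (hN : 0 ≤ N) (hp : 1 ≤ p) (hε : 0 ≤ ε₁) (hc : 0 ≤ c + ε₁) (hcC : c ≤ C)
    (hM : |M - N / p| ≤ 1) (hpe : 1 / p ≤ ε₁) (he : h ≤ cm + (2 * V * (M / p + 1) + X))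
    (hcm : cm ≤ M * V * (c + ε₁) + K * (Y / p)) :
    h ≤ N * V * (1 / p * c) + N * V * (3 * ε₁) * (1 / p) + (C + ε₁ + 6) * X + K * Y * (1 / p) := by
  have h0 : 0 ≤ 1 / p := by positivity
  have hp1 : 1 / p ≤ 1 := by rw [div_le_one (by linarith)]; exact hp
  have hMp : M / p ≤ ε₁ * (N / p) + 1 := by
    have e : M / p = (M - N / p) * (1 / p) + 1 / p * (N / p) := by ring
    have := mul_le_mul_of_nonneg_right hpe (show 0 ≤ N / p by positivity)
    have := mul_le_mul_of_nonneg_right (abs_le.1 hM).2 h0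
    linarith
  have hMc : M * (c + ε₁) ≤ N / p * (c + ε₁) + (C + ε₁) := by
    have := mul_le_mul_of_nonneg_right (abs_le.1 hM).2 hc
    linarith
  have m1 := mul_le_mul_of_nonneg_left hMc hV0
  have m2 := mul_le_mul_of_nonneg_left hMp (mul_nonneg two_pos.le hV0)
  have hC0 : 0 ≤ C + ε₁ := by linarith
  have m3 : V * (C + ε₁) ≤ (C + ε₁) * X := by
    rw [mul_comm]; exact mul_le_mul_of_nonneg_left (hV1.trans hX) hC0
  have m4 : 4 * V + X ≤ 6 * X := by linarith
  clear hMp hMc hC0 hV0 hV1 hX hN hp hε hc hcC hM hpe h0 hp1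
  generalize hq : p⁻¹ = q
  simp only [div_eq_mul_inv, one_mul, hq] at *
  linarith

/-- One Buchstab step for a lower bound. -/
lemma lower_from_upper {θ : ℝ} (hθ : 0 < θ) (hθ1 : θ ≤ 1) {n : ℕ} (hU : Upper θ n) {ε C : ℝ}
    (hε : 0 < ε) (hC : 0 ≤ C) : ∃ K L₀ : ℝ, 0 ≤ K ∧ 0 < L₀ ∧ ∀ (L u v η e : ℝ) (S₀ : Finset ℕ),
      L₀ ≤ L → θ ≤ u → u ≤ 1 → u ≤ v → 0 ≤ e → e ≤ 1 → Good θ L η e S₀ → (∀ w, θ < w → w ≤ u → 0 < v - w ∧ v - w < n * θ ∧
        θ / w * upN ((v - w) / w) ≤ C) → ∀ (N : ℕ) (a : ℕ → ℤ),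
      (N:ℝ) * dens S₀ * (1 - ∑ p ∈ logPrimes (θ * L) (u * L), 1 / (p:ℝ) *
          (θ / (Real.log p / L) * upN ((v - Real.log p / L) / (Real.log p / L))) - ε - e * amp θ u) -
        K * Real.exp ((v + η) * L) ≤ cnt N a (S₀ ∪ logPrimes (θ * L) (u * L)) := by
  obtain ⟨L₁, S, hL₁, hS, hsum⟩ := recip_sum_bound hθ
  set ε₁ := ε / (6 * (S + 1)) with hε₁
  have hε₁0 : 0 < ε₁ := by positivity
  obtain ⟨K, L₂, hK, hL₂, hup⟩ := hU ε₁ hε₁0
  obtain ⟨L₄, hL₄, hamp⟩ := amp_sum hθ hθ1 (half_pos hε)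
  refine ⟨C + 1 / θ ^ 2 + ε₁ + 8 + K * S, max (max (max L₁ L₂) (1 / (θ * ε₁))) L₄,
    by positivity, lt_max_of_lt_right hL₄, ?_⟩
  intro L u v η e S₀ hL' hu hu1 huv he0 he1 hgood hw N a
  have hL : max (max L₁ L₂) (1 / (θ * ε₁)) ≤ L := (le_max_left _ _).trans hL'
  have hamp' := mul_le_mul_of_nonneg_left (hamp L u ((le_max_right _ _).trans hL') hu hu1) he0
  have hg1 := hgood.mono he1
  have hSp : ∀ q ∈ S₀, q.Prime := fun q hq => (hgood.2.1 q hq).1
  obtain ⟨hd0, hd1⟩ := dens_pos hSp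
  set V := dens S₀ with hV
  have hL1' : L₁ ≤ L := (le_max_left _ _).trans ((le_max_left _ _).trans hL)
  have hL2' : L₂ ≤ L := (le_max_right _ _).trans ((le_max_left _ _).trans hL)
  have hL3' : 1 / (θ * ε₁) ≤ L := (le_max_right _ _).trans hL
  have hL0 : 0 < L := hL₁.trans_le hL1'
  set P := logPrimes (θ * L) (u * L) with hP
  have hsumP : ∑ p ∈ P, 1 / (p:ℝ) ≤ S := hsum L u hL1' hu hu1
  set φ : ℕ → ℝ := fun p =>
    θ / (Real.log p / L) * upN ((v - Real.log p / L) / (Real.log p / L)) with hφ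
  have hN : (0:ℝ) ≤ N := Nat.cast_nonneg N
  set X := Real.exp (η * L) with hX
  have hX1 : 1 ≤ X := Real.one_le_exp (mul_nonneg hgood.1 hL0.le)
  have hE : 0 ≤ Real.exp ((v + η) * L) := (Real.exp_pos _).le
  have each : ∀ p ∈ P, (hits N a (S₀ ∪ P.filter (· < p)) p : ℝ) ≤
      N * V * (1 / (p:ℝ) * (φ p + e * amp θ (Real.log p / L))) + N * V * (3 * ε₁) * (1 / (p:ℝ)) +
        (C + 1 / θ ^ 2 + ε₁ + 6) * X + K * Real.exp ((v + η) * L) * (1 / (p:ℝ)) := by
    intro p hp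
    obtain ⟨hpp, hw1, hw2, hexp⟩ := mem_props hL0 hp
    obtain ⟨hv1, hv2, hC'⟩ := hw _ hw1 hw2
    have hpS : ∀ q ∈ S₀, q.Prime ∧ q ≠ p := fun q hq => ⟨hSp q hq, fun h => by
      have := (hgood.2.1 q hq).2
      rw [h] at this
      linarith [(mem_logPrimes.1 hp).2.1]⟩
    obtain ⟨M, b, hM, he⟩ := hits_progression N a (S₀ ∪ P.filter (· < p)) hpp (fun q hq => by
      rcases mem_union.1 hq with hq | hq
      · exact hpS q hq
      · rw [mem_filter, mem_logPrimes] at hq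
        exact ⟨hq.1.1, hq.2.ne⟩)
    have hins := cnt_insert M b (S₀ ∪ P.filter (· < p)) p
    rw [← union_insert, below_eq hL0 hp] at hins
    have h1 := hup L _ _ η e S₀ hL2' hw1.le (hw2.trans hu1) hv1 hv2 he0 he1 hgood M b
    have h2 : (hits M b (S₀ ∪ P.filter (· < p)) p : ℝ) ≤ 2 * V * ((M:ℝ) / p + 1) + X := by
      obtain ⟨M', b', hM', he'⟩ := hits_progression M b S₀ hpp hpS
      have hle : hits M b (S₀ ∪ P.filter (· < p)) p ≤ hits M b S₀ p := card_le_card fun j hj => by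
        simp only [survivors, mem_filter] at hj ⊢
        exact ⟨⟨hj.1.1, fun q hq => hj.1.2 q (mem_union_left _ hq)⟩, hj.2⟩
      rw [he'] at hle
      refine (Nat.cast_le.2 hle).trans ?_
      have hb' := (abs_le.1 (hg1.2.2 M' b')).2
      have := mul_le_mul_of_nonneg_left (abs_le.1 hM').2 hd0.le
      rw [hX]
      linarith
    have hpe : 1 / (p:ℝ) ≤ ε₁ := by
      have hlog : θ * L < Real.log p := (mem_logPrimes.1 hp).2.1
      have h3 : Real.log p ≤ (p:ℝ) := by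
        linarith [Real.log_le_sub_one_of_pos (show (0:ℝ) < p by exact_mod_cast hpp.pos)]
      rw [div_le_iff₀ (by positivity)] at hL3'
      rw [div_le_iff₀ (by exact_mod_cast hpp.pos)]
      nlinarith
    have hφC : φ p ≤ C := hC'
    rw [hexp] at h1
    have he' : (hits N a (S₀ ∪ P.filter (· < p)) p : ℝ) ≤
        cnt M b (S₀ ∪ logPrimes (θ * L) (Real.log p / L * L)) +
          (2 * V * ((M:ℝ) / p + 1) + X) := by
      rw [he]
      have : (cnt M b (S₀ ∪ logPrimes (θ * L) (Real.log p / L * L)) : ℝ) +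
          hits M b (S₀ ∪ P.filter (· < p)) p = cnt M b (S₀ ∪ P.filter (· < p)) := by
        exact_mod_cast hins
      linarith
    have hamp0 : 0 ≤ e * amp θ (Real.log p / L) := mul_nonneg he0 (sq_nonneg _)
    have hamp1 : e * amp θ (Real.log p / L) ≤ 1 / θ ^ 2 := by
      calc _ ≤ 1 * amp θ 1 := mul_le_mul he1 (amp_mono hθ hw1.le (hw2.trans hu1)) (sq_nonneg _)
            zero_le_one
        _ = _ := by rw [one_mul, amp, div_pow, one_pow]
    have h0 : 0 ≤ φ p + e * amp θ (Real.log p / L) + ε₁ := by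
      have hw0 : (0:ℝ) < Real.log p / L := hθ.trans hw1
      have := upN_nonneg (div_pos hv1 hw0)
      simp only [hφ]
      positivity
    simp only [hφ] at h0 hφC ⊢
    exact hit_arith hd0.le hd1 hX1 hN (by exact_mod_cast hpp.one_le) hε₁0.le h0
      (add_le_add hφC hamp1) hM hpe he' (h1.trans_eq (by ring))
  have hb : (cnt N a (S₀ ∪ P) : ℝ) + ∑ p ∈ P, (hits N a (S₀ ∪ P.filter (· < p)) p : ℝ) =
      cnt N a S₀ := by
    exact_mod_cast buchstab_base N a S₀ P
  have hb0 := (abs_le.1 (hgood.2.2 N a)).1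
  have hs := Finset.sum_le_sum each
  have hdist : ∑ p ∈ P, (N:ℝ) * V * (1 / (p:ℝ) * (φ p + e * amp θ (Real.log p / L))) =
      N * V * (∑ p ∈ P, 1 / (p:ℝ) * φ p + e * ∑ p ∈ P, 1 / (p:ℝ) * amp θ (Real.log p / L)) := by
    rw [mul_add, mul_sum, ← mul_assoc, mul_sum, ← sum_add_distrib]
    exact sum_congr rfl fun p _ => by ring
  rw [sum_add_distrib, sum_add_distrib, sum_add_distrib, hdist] at hs
  simp only [← mul_sum, sum_const, nsmul_eq_mul] at hs
  have hcard : (P.card : ℝ) * X ≤ Real.exp ((v + η) * L) := by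
    rw [add_mul, Real.exp_add]
    exact mul_le_mul_of_nonneg_right ((card_logPrimes_le _ _).trans
      (Real.exp_le_exp.2 (mul_le_mul_of_nonneg_right huv hL0.le))) (by positivity)
  have k1 : (P.card : ℝ) * ((C + 1 / θ ^ 2 + ε₁ + 6) * X) ≤
      Real.exp ((v + η) * L) * (C + 1 / θ ^ 2 + ε₁ + 6) := by
    rw [show (P.card : ℝ) * ((C + 1 / θ ^ 2 + ε₁ + 6) * X) =
      (P.card : ℝ) * X * (C + 1 / θ ^ 2 + ε₁ + 6) by ring]
    exact mul_le_mul_of_nonneg_right hcard (by positivity)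
  have k4 : X ≤ Real.exp ((v + η) * L) :=
    Real.exp_le_exp.2 (mul_le_mul_of_nonneg_right (by linarith) hL0.le)
  have hNV : 0 ≤ (N:ℝ) * V := mul_nonneg hN hd0.le
  have k2 : (N:ℝ) * V * (3 * ε₁) * ∑ p ∈ P, 1 / (p:ℝ) ≤ N * V * (ε / 2) := by
    calc _ ≤ (N:ℝ) * V * (3 * ε₁) * S := mul_le_mul_of_nonneg_left hsumP (by positivity)
      _ ≤ (N:ℝ) * V * (3 * ε₁) * (S + 1) := mul_le_mul_of_nonneg_left (by linarith) (by positivity)
      _ = _ := by rw [hε₁]; field_simp; ring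
  have k3 : K * Real.exp ((v + η) * L) * ∑ p ∈ P, 1 / (p:ℝ) ≤ K * Real.exp ((v + η) * L) * S :=
    mul_le_mul_of_nonneg_left hsumP (by positivity)
  simp only [hφ] at hs
  have := mul_le_mul_of_nonneg_left hamp' hNV
  have := mul_le_mul_of_nonneg_left (mul_le_mul_of_nonneg_right he1 (half_pos hε).le) hNV
  linarith

theorem upper_step {θ : ℝ} (hθ : 0 < θ) (hθ1 : θ ≤ 1) {n : ℕ} (hLw : Lower θ n) :
    Upper θ (n + 1) := by
  intro ε hε
  obtain ⟨L₁, S, hL₁, hS, hsum⟩ := recip_sum_bound hθ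
  obtain ⟨L₂, hL₂, hgrid⟩ := grid_sum hθ hθ1 (half_pos hε) 1 zero_le_one
  set ε₁ := ε / (4 * (S + 1)) with hε₁
  have hε₁0 : 0 < ε₁ := by positivity
  obtain ⟨K, L₃, hK, hL₃, hlo⟩ := hLw ε₁ hε₁0
  obtain ⟨L₄, hL₄, hamp⟩ := amp_sum hθ hθ1 (show 0 < ε / 4 by linarith)
  refine ⟨2 + 1 / θ ^ 2 + ε₁ + K * S, max (max (max L₁ L₂) L₃) L₄, by positivity,
    lt_max_of_lt_right hL₄, ?_⟩
  intro L u v η e S₀ hL' hu hu1 hv hvn he0 he1 hgood N a
  have hL : max (max L₁ L₂) L₃ ≤ L := (le_max_left _ _).trans hL'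
  have hL4' : L₄ ≤ L := (le_max_right _ _).trans hL' 
  have hSp : ∀ q ∈ S₀, q.Prime := fun q hq => (hgood.2.1 q hq).1
  obtain ⟨hd0, hd1⟩ := dens_pos hSp
  set V := dens S₀ with hV
  have hb0 := (abs_le.1 (hgood.2.2 N a)).2
  rw [← hV] at hb0
  have hL1' : L₁ ≤ L := (le_max_left _ _).trans ((le_max_left _ _).trans hL)
  have hL2' : L₂ ≤ L := (le_max_right _ _).trans ((le_max_left _ _).trans hL)
  have hL3' : L₃ ≤ L := (le_max_right _ _).trans hL
  have hL0 : 0 < L := hL₁.trans_le hL1'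
  have hu0 : 0 < u := hθ.trans_le hu
  have hN : (0:ℝ) ≤ N := Nat.cast_nonneg N
  have hNV : 0 ≤ (N:ℝ) * V := mul_nonneg hN hd0.le
  set X := Real.exp (η * L) with hX
  have hX1 : 1 ≤ X := Real.one_le_exp (mul_nonneg hgood.1 hL0.le)
  have hE : 0 ≤ Real.exp ((v + η) * L) := (Real.exp_pos _).le
  have k4 : X ≤ Real.exp ((v + η) * L) :=
    Real.exp_le_exp.2 (mul_le_mul_of_nonneg_right (by linarith) hL0.le)
  have k5 : 0 ≤ (1 + 1 / θ ^ 2 + ε₁ + K * S) * Real.exp ((v + η) * L) := by positivity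
  rcases le_or_gt v (3 * θ) with h3 | h3
  · have hvu : v / u ≤ 3 := by
      rw [div_le_iff₀ hu0]; nlinarith
    have hm : 1 ≤ θ / u * upN (v / u) := by
      have e : θ / u * upN (v / u) = θ / v * (v / u * upN (v / u)) := by field_simp
      rw [e, mul_upN_of_le (div_pos hv hu0) hvu, ← mul_upN_of_le three_pos le_rfl]
      have h1 := one_le_upN (three_pos (α := ℝ))
      have h2 : 1 ≤ θ / v * 3 := by rw [div_mul_eq_mul_div, one_le_div hv]; linarith
      calc (1:ℝ) = 1 * 1 := (one_mul 1).symm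
        _ ≤ θ / v * 3 * upN 3 := mul_le_mul h2 h1 zero_le_one (by linarith)
        _ = _ := by ring
    have hc : (cnt N a (S₀ ∪ logPrimes (θ * L) (u * L)) : ℝ) ≤ cnt N a S₀ := by
      exact_mod_cast cnt_anti N a subset_union_left
    have := mul_le_mul_of_nonneg_left (show (1:ℝ) + e ≤ θ / u * upN (v / u) + ε + e * amp θ u by
      linarith [le_mul_of_one_le_right he0 (one_le_amp hθ hu)]) hNV
    linarith
  set u' := min u (v / 3) with hu'
  have hu'θ : θ ≤ u' := le_min hu (by linarith)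
  have hu'1 : u' ≤ 1 := (min_le_left _ _).trans hu1
  have hu'0 : 0 < u' := hθ.trans_le hu'θ
  have hu'v : 3 * u' ≤ v := by linarith [min_le_right u (v / 3)]
  set P := logPrimes (θ * L) (u' * L) with hP
  have hsub : P ⊆ logPrimes (θ * L) (u * L) := by
    intro p hp
    rw [hP, mem_logPrimes] at hp
    rw [mem_logPrimes]
    exact ⟨hp.1, hp.2.1, hp.2.2.trans (mul_le_mul_of_nonneg_right (min_le_left _ _) hL0.le)⟩
  have hmain : θ / u' * upN (v / u') = θ / u * upN (v / u) := by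
    rcases le_or_gt u (v / 3) with h | h
    · rw [hu', min_eq_left h]
    · rw [hu', min_eq_right h.le, show v / (v / 3) = 3 by field_simp]
      have e1 : θ / (v / 3) * upN 3 = θ / v * (3 * upN 3) := by field_simp
      have e2 : θ / u * upN (v / u) = θ / v * (v / u * upN (v / u)) := by field_simp
      rw [e1, e2, mul_upN_of_le three_pos le_rfl,
        mul_upN_of_le (div_pos hv hu0) (by rw [div_le_iff₀ hu0]; linarith)]
  set φ : ℝ → ℝ := fun w => θ / w * lowN (v / w - 1) with hφdef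
  have harg : ∀ w, θ ≤ w → w ≤ u' → 2 ≤ v / w - 1 := by
    intro w h1 h2
    rw [le_sub_iff_add_le, le_div_iff₀ (by linarith)]
    linarith
  have hgr : 1 - θ / u * upN (v / u) - ε / 2 ≤
      ∑ p ∈ P, 1 / (p:ℝ) * φ (Real.log p / L) := by
    refine le_trans ?_ ((hgrid L u' hL2' hu'θ hu'1).2 φ (fun w => -(θ / w * upN (v / w)))
      (fun w => θ * lowN (v / w - 1)) ?_ ?_ ?_)
    · rw [← hmain, div_self hθ.ne', one_mul]
      linarith [one_le_upN (div_pos hv hθ)]
    · intro x y hx hxy hy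
      refine ⟨?_, mul_nonneg hθ.le (lowN_nonneg (harg y (hx.trans hxy) hy)),
        mul_le_mul_of_nonneg_left (lowN_mono (harg y (hx.trans hxy) hy) (sub_le_sub_right
          (div_le_div_of_nonneg_left hv.le (by linarith) hxy) 1)) hθ.le⟩
      calc θ * lowN (v / x - 1) ≤ 1 * 1 := mul_le_mul hθ1 (lowN_le_one (harg x hx (hxy.trans hy)))
            (lowN_nonneg (harg x hx (hxy.trans hy))) zero_le_one
        _ = 1 := one_mul 1
    · intro x y hx hxy hy
      have hx0 : 0 < x := hθ.trans_le hx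
      have hy0 : 0 < y := by linarith
      have h := up_step (a := v / y) (b := v / x)
        (by linarith [harg y (hx.trans hxy) hy]) (div_le_div_of_nonneg_left hv.le hx0 hxy)
      have := mul_le_mul_of_nonneg_left h (show 0 ≤ θ / v by positivity)
      calc -(θ / y * upN (v / y)) - -(θ / x * upN (v / x))
          = θ / v * (v / x * upN (v / x) - v / y * upN (v / y)) := by field_simp; ring
        _ ≤ θ / v * (lowN (v / x - 1) * (v / x - v / y)) := this
        _ = _ := by field_simp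
    · intro x y w hx hxw hwy hy
      have hw0 : 0 < w := by linarith
      have h1 : lowN (v / y - 1) ≤ lowN (v / w - 1) :=
        lowN_mono (harg y (by linarith) hy) (sub_le_sub_right
          (div_le_div_of_nonneg_left hv.le hw0 hwy) 1)
      calc θ * lowN (v / y - 1) / y ≤ θ * lowN (v / w - 1) / w :=
            div_le_div₀ (mul_nonneg hθ.le ((lowN_nonneg (harg y (by linarith) hy)).trans h1))
              (mul_le_mul_of_nonneg_left h1 hθ.le) hw0 hwy
        _ = φ w := by simp only [hφdef]; ring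
  have each : ∀ p ∈ P, N * V * (1 / (p:ℝ) * φ (Real.log p / L)) -
      (N * V * ε₁ * (1 / (p:ℝ)) + N * V * e * (1 / (p:ℝ) * amp θ (Real.log p / L)) +
        (1 + 1 / θ ^ 2 + ε₁) * X + K * Real.exp ((v + η) * L) * (1 / (p:ℝ))) ≤
        (hits N a (S₀ ∪ P.filter (· < p)) p : ℝ) := by
    intro p hp
    obtain ⟨hpp, hw1, hw2, hexp⟩ := mem_props hL0 hp
    set w := Real.log p / L with hwdef
    have hw0 : 0 < w := hθ.trans hw1
    obtain ⟨M, b, hM, he⟩ := hits_progression N a (S₀ ∪ P.filter (· < p)) hpp (fun q hq => by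
      rcases mem_union.1 hq with hq | hq
      · refine ⟨hSp q hq, fun h => ?_⟩
        have := (hgood.2.1 q hq).2
        rw [h] at this
        linarith [(mem_logPrimes.1 hp).2.1]
      · rw [mem_filter, mem_logPrimes] at hq
        exact ⟨hq.1.1, hq.2.ne⟩)
    have hins := cnt_insert M b (S₀ ∪ P.filter (· < p)) p
    rw [← union_insert, below_eq hL0 hp] at hins
    have h1 := hlo L w (v - w) η e S₀ hL3' hw1.le (hw2.trans hu'1) (by linarith)
      (by push_cast at hvn; linarith) he0 he1 hgood M b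
    rw [hexp, sub_div, div_self hw0.ne'] at h1
    have hφ0 : 0 ≤ θ / w * lowN (v / w - 1) :=
      mul_nonneg (by positivity) (lowN_nonneg (harg w hw1.le hw2))
    have hφ1 : θ / w * lowN (v / w - 1) ≤ 1 := by
      calc _ ≤ (1:ℝ) * 1 := mul_le_mul ((div_le_one hw0).2 hw1.le)
            (lowN_le_one (harg w hw1.le hw2)) (lowN_nonneg (harg w hw1.le hw2)) zero_le_one
        _ = 1 := one_mul 1
    set A := e * amp θ w with hA
    have hA0 : 0 ≤ A := mul_nonneg he0 (sq_nonneg _)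
    have hA1 : A ≤ 1 / θ ^ 2 := by
      calc _ ≤ 1 * amp θ 1 := mul_le_mul he1 (amp_mono hθ hw1.le (hw2.trans hu'1)) (sq_nonneg _)
            zero_le_one
        _ = _ := by rw [one_mul, amp, div_pow, one_pow]
    have hMc : (N:ℝ) / p * (θ / w * lowN (v / w - 1) - ε₁ - A) - (1 + 1 / θ ^ 2 + ε₁) ≤
        (M:ℝ) * (θ / w * lowN (v / w - 1) - ε₁ - A) := by
      have hd : |((M:ℝ) - N / p) * (θ / w * lowN (v / w - 1) - ε₁ - A)| ≤ 1 * (1 + 1 / θ ^ 2 + ε₁) := by
        rw [abs_mul]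
        exact mul_le_mul hM (abs_le.2 ⟨by linarith, by linarith⟩) (abs_nonneg _) zero_le_one
      linarith [(abs_le.1 hd).1]
    have he' : (cnt M b (S₀ ∪ logPrimes (θ * L) (w * L)) : ℝ) ≤
        hits N a (S₀ ∪ P.filter (· < p)) p := by
      rw [he]; exact_mod_cast (Nat.le.intro hins)
    have e3 : K * (Real.exp ((v + η) * L) / p) = K * Real.exp ((v + η) * L) * (1 / (p:ℝ)) := by ring
    have e4 : V * ((N:ℝ) / p * (θ / w * lowN (v / w - 1) - ε₁ - A)) =
        N * V * (1 / (p:ℝ) * φ w) - N * V * ε₁ * (1 / (p:ℝ)) -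
          N * V * e * (1 / (p:ℝ) * amp θ w) := by simp only [hφdef, hA]; ring
    have m1 := mul_le_mul_of_nonneg_left hMc hd0.le
    have m3 : V * (1 + 1 / θ ^ 2 + ε₁) ≤ (1 + 1 / θ ^ 2 + ε₁) * X := by
      rw [mul_comm]; exact mul_le_mul_of_nonneg_left (hd1.trans hX1) (by positivity)
    linarith
  have hb : (cnt N a (S₀ ∪ P) : ℝ) + ∑ p ∈ P, (hits N a (S₀ ∪ P.filter (· < p)) p : ℝ) =
      cnt N a S₀ := by
    exact_mod_cast buchstab_base N a S₀ P
  have hs := Finset.sum_le_sum each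
  simp only [sum_sub_distrib, sum_add_distrib, ← mul_sum, sum_const, nsmul_eq_mul] at hs
  have hsumP : ∑ p ∈ P, 1 / (p:ℝ) ≤ S := hsum L u' hL1' hu'θ hu'1
  have k0 := mul_le_mul_of_nonneg_left hgr hNV
  have k6 : 1 + ∑ p ∈ P, 1 / (p:ℝ) * amp θ (Real.log p / L) ≤ amp θ u + ε / 4 :=
    (hamp L u' hL4' hu'θ hu'1).trans (add_le_add (amp_mono hθ hu'θ (min_le_left _ _)) le_rfl)
  have k7 := mul_le_mul_of_nonneg_left k6 (mul_nonneg hNV he0)
  have k8 := mul_le_mul_of_nonneg_left (mul_le_mul_of_nonneg_right he1 (show 0 ≤ ε / 4 by linarith)) hNV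
  have k1 : (P.card : ℝ) * ((1 + 1 / θ ^ 2 + ε₁) * X) ≤
      Real.exp ((v + η) * L) * (1 + 1 / θ ^ 2 + ε₁) := by
    rw [show (P.card : ℝ) * ((1 + 1 / θ ^ 2 + ε₁) * X) =
      (P.card : ℝ) * X * (1 + 1 / θ ^ 2 + ε₁) by ring]
    refine mul_le_mul_of_nonneg_right ?_ (by positivity)
    rw [add_mul, Real.exp_add]
    exact mul_le_mul_of_nonneg_right ((card_logPrimes_le _ _).trans
      (Real.exp_le_exp.2 (mul_le_mul_of_nonneg_right (by linarith) hL0.le))) (by positivity)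
  have k2 : (N:ℝ) * V * ε₁ * ∑ p ∈ P, 1 / (p:ℝ) ≤ N * V * (ε / 4) := by
    calc _ ≤ (N:ℝ) * V * ε₁ * S := mul_le_mul_of_nonneg_left hsumP (by positivity)
      _ ≤ (N:ℝ) * V * ε₁ * (S + 1) := mul_le_mul_of_nonneg_left (by linarith) (by positivity)
      _ = _ := by rw [hε₁]; field_simp
  have k3 : K * Real.exp ((v + η) * L) * ∑ p ∈ P, 1 / (p:ℝ) ≤ K * Real.exp ((v + η) * L) * S :=
    mul_le_mul_of_nonneg_left hsumP (by positivity)
  have hmono : (cnt N a (S₀ ∪ logPrimes (θ * L) (u * L)) : ℝ) ≤ cnt N a (S₀ ∪ P) := by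
    exact_mod_cast cnt_anti N a (union_subset_union_right hsub)
  linarith

theorem lower_step {θ : ℝ} (hθ : 0 < θ) (hθ1 : θ ≤ 1) {n : ℕ} (hU : Upper θ n) :
    Lower θ (n + 1) := by
  intro ε hε
  have hB : 0 ≤ upN 1 := upN_nonneg one_pos
  obtain ⟨L₂, hL₂, hgrid⟩ := grid_sum hθ hθ1 (half_pos hε) (upN 1) hB
  obtain ⟨K, L₁, hK, hL₁, hbuch⟩ := lower_from_upper hθ hθ1 hU (half_pos hε) hB
  refine ⟨K, max L₁ L₂, hK, lt_max_of_lt_left hL₁, ?_⟩
  intro L u v η e S₀ hL hu hu1 huv hvn he0 he1 hgood N a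
  push_cast at hvn
  have hu0 : 0 < u := hθ.trans_le hu
  have hv : 0 < v := by linarith
  have harg : ∀ w, θ ≤ w → w ≤ u → 1 ≤ v / w - 1 := by
    intro w h1 h2
    rw [le_sub_iff_add_le, le_div_iff₀ (by linarith)]
    linarith
  have h1 := hbuch L u v η e S₀ ((le_max_left _ _).trans hL) hu hu1 (by linarith) he0 he1 hgood
    (fun w hw1 hw2 => by
    have hw0 : 0 < w := hθ.trans hw1
    refine ⟨by linarith, by linarith, ?_⟩
    rw [sub_div, div_self hw0.ne']
    calc θ / w * upN (v / w - 1) ≤ 1 * upN 1 :=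
          mul_le_mul ((div_le_one hw0).2 hw1.le) (upN_antitone one_pos (harg w hw1.le hw2))
            (upN_nonneg (by linarith [harg w hw1.le hw2])) zero_le_one
      _ = upN 1 := one_mul _) N a
  have hL0 : 0 < L := (lt_max_of_lt_left hL₁).trans_le hL
  have hgr : ∑ p ∈ logPrimes (θ * L) (u * L), 1 / (p:ℝ) *
      (θ / (Real.log p / L) * upN ((v - Real.log p / L) / (Real.log p / L))) ≤
        1 - θ / u * lowN (v / u) + ε / 2 := by
    have e : ∀ p ∈ logPrimes (θ * L) (u * L), (1 / (p:ℝ) *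
        (θ / (Real.log p / L) * upN ((v - Real.log p / L) / (Real.log p / L)))) =
        1 / (p:ℝ) * (fun w => θ / w * upN (v / w - 1)) (Real.log p / L) := by
      intro p hp
      have hw0 : 0 < Real.log p / L := hθ.trans (mem_props hL0 hp).2.1
      simp only [sub_div v, div_self hw0.ne']
    rw [sum_congr rfl e]
    refine ((hgrid L u ((le_max_right _ _).trans hL) hu hu1).1 (fun w => θ / w * upN (v / w - 1))
      (fun w => -(θ / w * lowN (v / w)))
      (fun w => θ * upN (v / w - 1)) ?_ ?_ ?_).trans ?_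
    · intro x y hx hxy hy
      refine ⟨?_, mul_nonneg hθ.le (upN_nonneg (by linarith [harg x hx (hxy.trans hy)])),
        mul_le_mul_of_nonneg_left (upN_antitone (by linarith [harg y (hx.trans hxy) hy])
          (sub_le_sub_right (div_le_div_of_nonneg_left hv.le (by linarith) hxy) 1)) hθ.le⟩
      calc θ * upN (v / y - 1) ≤ 1 * upN 1 :=
            mul_le_mul hθ1 (upN_antitone one_pos (harg y (hx.trans hxy) hy))
              (upN_nonneg (by linarith [harg y (hx.trans hxy) hy])) zero_le_one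
        _ = upN 1 := one_mul _
    · intro x y hx hxy hy
      have hx0 : 0 < x := hθ.trans_le hx
      have hy0 : 0 < y := by linarith
      have h := low_step (a := v / y) (b := v / x)
        (by linarith [harg y (hx.trans hxy) hy]) (div_le_div_of_nonneg_left hv.le hx0 hxy)
      have := mul_le_mul_of_nonneg_left h (show 0 ≤ θ / v by positivity)
      calc θ * upN (v / x - 1) * ((y - x) / (x * y))
          = θ / v * (upN (v / x - 1) * (v / x - v / y)) := by field_simp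
        _ ≤ θ / v * (v / x * lowN (v / x) - v / y * lowN (v / y)) := this
        _ = _ := by field_simp; ring
    · intro x y w hx hxw hwy hy
      have hw0 : 0 < w := by linarith
      have h1 : upN (v / w - 1) ≤ upN (v / y - 1) :=
        upN_antitone (by linarith [harg y (by linarith) hy]) (sub_le_sub_right
          (div_le_div_of_nonneg_left hv.le hw0 hwy) 1)
      calc θ / w * upN (v / w - 1) = θ * upN (v / w - 1) / w := by ring
        _ ≤ θ * upN (v / y - 1) / x :=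
            div_le_div₀ (mul_nonneg hθ.le (upN_nonneg (by linarith [harg y (by linarith) hy])))
              (mul_le_mul_of_nonneg_left h1 hθ.le) (by linarith) hxw.le
    · rw [div_self hθ.ne', one_mul]
      have : lowN (v / θ) ≤ 1 := lowN_le_one (by rw [le_div_iff₀ hθ]; linarith)
      linarith
  have := mul_le_mul_of_nonneg_left hgr (mul_nonneg (Nat.cast_nonneg (α := ℝ) N)
    (dens_pos fun q hq => (hgood.2.1 q hq).1).1.le)
  linarith

theorem sieve_all {θ : ℝ} (hθ : 0 < θ) (hθ1 : θ ≤ 1) (n : ℕ) : Upper θ n ∧ Lower θ n := by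
  induction n with
  | zero =>
    refine ⟨fun ε _ => ⟨0, 1, le_rfl, one_pos, ?_⟩,
      fun ε _ => ⟨0, 1, le_rfl, one_pos, ?_⟩⟩
    · intro L u v η e S₀ _ _ _ hv hvn
      push_cast at hvn; linarith
    · intro L u v η e S₀ _ hu _ hv hvn
      push_cast at hvn; linarith
  | succ n ih => exact ⟨upper_step hθ hθ1 ih.2, lower_step hθ hθ1 ih.1⟩

end Vale.Agent.P013
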