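import Vale.Agent.P013.Deficit

/-!
Jacobsthal's function on integers that miss a positive proportion of the primes in some power
range below `k`.
-/

open Finset Real

namespace Vale.Agent.P013

/-- Legendre's crude bound: one residue class for each of finitely many primes. -/
lemma legendre (P : Finset ℕ) : ∀ (N : ℕ) (a : ℕ → ℤ), (∀ p ∈ P, p.Prime) →
    (N:ℝ) * ∏ p ∈ P, (1 - 1 / (p:ℝ)) - (2 ^ P.card - 1) ≤ cnt N a P ∧
      (cnt N a P : ℝ) ≤ N * ∏ p ∈ P, (1 - 1 / (p:ℝ)) + (2 ^ P.card - 1) := by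
  induction P using Finset.induction_on with
  | empty =>
    intro N a _
    simp [cnt, survivors]
  | insert p Q hp ih =>
    intro N a hP
    have hpp := hP p (mem_insert_self _ _)
    have hQ : ∀ q ∈ Q, q.Prime := fun q hq => hP q (mem_insert_of_mem hq)
    obtain ⟨M, b, hM, he⟩ := hits_progression N a Q hpp fun q hq =>
      ⟨hQ q hq, fun h => hp (h ▸ hq)⟩
    obtain ⟨l1, u1⟩ := ih N a hQ
    obtain ⟨l2, u2⟩ := ih M b hQ
    have hi : (cnt N a (insert p Q) : ℝ) + cnt M b Q = cnt N a Q := by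
      rw [← he]; exact_mod_cast cnt_insert N a Q p
    rw [prod_insert hp, card_insert_of_notMem hp, pow_succ]
    have hp1 : ∀ q ∈ Q, (0:ℝ) ≤ 1 - 1 / (q:ℝ) ∧ 1 - 1 / (q:ℝ) ≤ 1 := by
      intro q hq
      have : (1:ℝ) ≤ q := by exact_mod_cast (hQ q hq).one_le
      have : 1 / (q:ℝ) ≤ 1 := by rw [div_le_one (by linarith)]; linarith
      have : 0 ≤ 1 / (q:ℝ) := by positivity
      constructor <;> linarith
    set V := ∏ q ∈ Q, (1 - 1 / (q:ℝ))
    have hV0 : 0 ≤ V := prod_nonneg fun q hq => (hp1 q hq).1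
    have hV1 : V ≤ 1 := prod_le_one (fun q hq => (hp1 q hq).1) fun q hq => (hp1 q hq).2
    have hMV := abs_le.1 (show |((M:ℝ) - N / p) * V| ≤ 1 by
      rw [abs_mul, abs_of_nonneg hV0]; exact mul_le_one₀ hM hV0 hV1)
    have h2 : (1:ℝ) ≤ 2 ^ Q.card := one_le_pow₀ (by norm_num)
    have e : (N:ℝ) * ((1 - 1 / (p:ℝ)) * V) = N * V - N / p * V := by ring
    constructor
    · nlinarith
    · nlinarith

/-- A survivor gives an integer coprime to `n`. -/
lemma exists_coprime_of_pos {n : ℕ} (hn : 1 ≤ n) (x : ℤ) {N : ℕ}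
    (h : 0 < cnt N (fun _ => -x) n.primeFactors) :
    ∃ m : ℤ, x ≤ m ∧ m < x + N ∧ IsCoprime m (n:ℤ) := by
  obtain ⟨j, hj⟩ := card_pos.1 h
  simp only [survivors, mem_filter, mem_range] at hj
  refine ⟨x + j, by linarith [Int.natCast_nonneg j], by
    have : (j:ℤ) < N := by exact_mod_cast hj.1
    linarith, ?_⟩
  rw [Int.isCoprime_iff_gcd_eq_one]
  by_contra hg
  obtain ⟨q, hq, hqd⟩ := Nat.exists_prime_and_dvd hg
  have h1 : (q:ℤ) ∣ x + j := (Int.natCast_dvd_natCast.2 hqd).trans (Int.gcd_dvd_left _ _)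
  have h2 : (q:ℤ) ∣ (n:ℤ) := (Int.natCast_dvd_natCast.2 hqd).trans (Int.gcd_dvd_right _ _)
  refine hj.2 q (Nat.mem_primeFactors.2 ⟨hq, Int.natCast_dvd_natCast.1 h2, by omega⟩) ?_
  rwa [sub_neg_eq_add, add_comm]

lemma prod_Icc_two (m : ℕ) (hm : 1 ≤ m) : ∏ i ∈ Icc 2 m, (1 - 1 / (i:ℝ)) = 1 / (m:ℝ) := by
  induction m, hm using Nat.le_induction with
  | base => simp
  | succ n hn ih =>
    rw [prod_Icc_succ_top (by omega), ih]
    have : (n:ℝ) ≠ 0 := Nat.cast_ne_zero.2 (by omega)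
    push_cast
    field_simp
    ring

lemma exp_neg_le_dens {S : Finset ℕ} {Z : ℝ} (hS : ∀ p ∈ S, p.Prime ∧ Real.log p ≤ Z)
    (hZ : 0 ≤ Z) : Real.exp (-Z) ≤ dens S := by
  set m := ⌊Real.exp Z⌋₊ with hm
  have hm1 : 1 ≤ m := Nat.le_floor (by exact_mod_cast Real.one_le_exp hZ)
  have hsub : S ⊆ Icc 2 m := fun p hp => by
    refine mem_Icc.2 ⟨(hS p hp).1.two_le, Nat.le_floor ?_⟩
    rw [← Real.exp_log (show (0:ℝ) < p by exact_mod_cast (hS p hp).1.pos)]
    exact Real.exp_le_exp.2 (hS p hp).2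
  have h1 : ∏ i ∈ Icc 2 m \ S, (1 - 1 / (i:ℝ)) ≤ 1 := prod_le_one
    (fun i hi => by
      have : 2 ≤ i := (mem_Icc.1 (mem_sdiff.1 hi).1).1
      have : (1:ℝ) ≤ i := by exact_mod_cast (show 1 ≤ i by omega)
      rw [sub_nonneg, div_le_one (by linarith)]; exact this)
    fun i _ => sub_le_self _ (by positivity)
  calc Real.exp (-Z) ≤ 1 / (m:ℝ) := by
        rw [Real.exp_neg, ← one_div]
        exact one_div_le_one_div_of_le (by exact_mod_cast hm1) (Nat.floor_le (Real.exp_pos Z).le)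
    _ = (∏ i ∈ Icc 2 m \ S, (1 - 1 / (i:ℝ))) * dens S := by
        rw [dens, prod_sdiff hsub, prod_Icc_two m hm1]
    _ ≤ dens S := mul_le_of_le_one_left (dens_pos fun p hp => (hS p hp).1).1.le h1

/-- Boundedly many primes. -/
lemma small_case {P : Finset ℕ} (hP : ∀ p ∈ P, p.Prime) {N k₀ : ℕ} (hk : P.card ≤ k₀)
    (hN : (2:ℝ) ^ k₀ * 2 ^ k₀ + 2 ≤ N) {a : ℕ → ℤ} : (0:ℝ) < cnt N a P := by
  have h := (legendre P N a hP).1
  set k := P.card with hk'
  have hV : (1/2:ℝ) ^ k ≤ ∏ p ∈ P, (1 - 1 / (p:ℝ)) := by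
    rw [hk', ← prod_const]
    refine prod_le_prod (fun _ _ => by norm_num) fun p hp => ?_
    have : (2:ℝ) ≤ p := by exact_mod_cast (hP p hp).two_le
    have : 1 / (p:ℝ) ≤ 1/2 := by gcongr
    linarith
  have h2k : (2:ℝ) ^ k ≤ 2 ^ k₀ := pow_le_pow_right₀ (by norm_num) hk
  have h4 : (2:ℝ) ^ k * 2 ^ k ≤ 2 ^ k₀ * 2 ^ k₀ :=
    mul_le_mul h2k h2k (by positivity) (by positivity)
  have h6 := mul_le_mul_of_nonneg_left hV (Nat.cast_nonneg (α := ℝ) N)
  have h7 : ((2:ℝ) ^ k * 2 ^ k + 2) * (1/2) ^ k ≤ N * (1/2:ℝ) ^ k :=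
    mul_le_mul_of_nonneg_right (by linarith) (by positivity)
  have e : ((2:ℝ) ^ k * 2 ^ k + 2) * (1/2) ^ k = 2 ^ k + 2 * (1/2) ^ k := by
    rw [add_mul, mul_assoc, ← mul_pow 2 (1/2:ℝ), show (2:ℝ) * (1/2) = 1 by norm_num, one_pow,
      mul_one]
  have : (0:ℝ) < 2 * (1/2) ^ k := by positivity
  linarith

set_option maxHeartbeats 1000000 in
/-- Jacobsthal's function is at most `C k^(2-δ)` on integers with `k` prime factors that miss a
positive reciprocal sum of the primes between `k^θ` and `k`. -/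
theorem jacobsthal_deficit {θ ε : ℝ} (hθ : 0 < θ) (hε : 0 < ε) : ∃ δ C : ℝ, 0 < δ ∧
    ∀ n : ℕ, 2 ≤ n → ε ≤ ∑ p ∈ (Nat.primesLE n.primeFactors.card).filter (fun p : ℕ =>
      (n.primeFactors.card : ℝ) ^ θ ≤ p ∧ ¬ p ∣ n), 1 / (p:ℝ) →
    ∀ x : ℤ, ∃ m : ℤ, x ≤ m ∧ (m:ℝ) < x + C * (n.primeFactors.card : ℝ) ^ (2 - δ) ∧
      IsCoprime m (n:ℤ) := by
  set h := min θ 1 / 2 with hh
  have hh0 : 0 < h := by
    have : 0 < min θ 1 := lt_min hθ one_pos
    linarith
  have hh1 : h ≤ 1 := by linarith [min_le_right θ 1]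
  obtain ⟨t, τ, c, K, L₀, ht0, hth, hτ0, hτ1, htτ, hc, hK, hL₀, hsieve⟩ :=
    deficit_sieve hh0 hh1 hε
  set M := max 1 (16 / c) with hMdef
  have hM1 : 1 ≤ M := le_max_left _ _
  have hM0 : 0 < M := by linarith
  have hMc : 1 / M ≤ c / 16 := by
    rw [div_le_iff₀ hM0]
    have h4 : 16 / c ≤ M := le_max_right _ _
    rw [div_le_iff₀ hc] at h4
    linarith
  obtain ⟨k₀, hk₀⟩ := exists_nat_gt (max (max 1 M) (Real.exp L₀ / M))
  set C := (2:ℝ) ^ k₀ * 2 ^ k₀ + 2 * (K + 4) * M ^ (2 - τ / 2) / c + 2 with hC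
  refine ⟨τ / 2, C + 2, half_pos hτ0, fun n hn hdef x => ?_⟩
  set P := n.primeFactors
  set k := P.card with hk
  have hk1 : 1 ≤ k := card_pos.2 ((Nat.nonempty_primeFactors).2 hn)
  have hk1' : (1:ℝ) ≤ k := by exact_mod_cast hk1
  have hP : ∀ p ∈ P, p.Prime := fun p hp => Nat.prime_of_mem_primeFactors hp
  have hpow1 : (1:ℝ) ≤ (k:ℝ) ^ (2 - τ / 2) := Real.one_le_rpow hk1' (by linarith)
  set N := ⌈C * (k:ℝ) ^ (2 - τ / 2)⌉₊ with hN
  have hC0 : 0 ≤ C := by rw [hC]; positivity
  have hNlo : C * (k:ℝ) ^ (2 - τ / 2) ≤ N := Nat.le_ceil _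
  have hNhi : (N:ℝ) < (C + 2) * (k:ℝ) ^ (2 - τ / 2) := by
    have := Nat.ceil_lt_add_one (show 0 ≤ C * (k:ℝ) ^ (2 - τ / 2) by positivity)
    rw [← hN] at this
    linarith
  have hfin : ∀ h : 0 < cnt N (fun _ => -x) P, ∃ m : ℤ,
      x ≤ m ∧ (m:ℝ) < x + (C + 2) * (k:ℝ) ^ (2 - τ / 2) ∧ IsCoprime m (n:ℤ) := by
    intro h
    obtain ⟨m, h1, h2, h3⟩ := exists_coprime_of_pos (by omega) x h
    have : (m:ℝ) < x + N := by exact_mod_cast h2
    exact ⟨m, h1, by linarith, h3⟩
  refine hfin ?_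
  have goal' : (0:ℝ) < cnt N (fun _ => -x) P := by
    rcases le_or_gt k k₀ with hsmall | hlarge
    · refine small_case hP hsmall ?_
      have h5 : (2:ℝ) ^ k₀ * 2 ^ k₀ + 2 ≤ C := by
        rw [hC]
        have : (0:ℝ) ≤ 2 * (K + 4) * M ^ (2 - τ / 2) / c := by positivity
        linarith
      exact (h5.trans (le_mul_of_one_le_right hC0 hpow1)).trans hNlo
    · have hkk : (k₀:ℝ) < k := by exact_mod_cast hlarge
      have hkM : M < k := lt_of_le_of_lt ((le_max_right _ _).trans (le_max_left _ _))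
        (hk₀.trans hkk)
      have hk0 : (0:ℝ) < k := by linarith
      have hlk : 0 < Real.log k := Real.log_pos (by linarith)
      set L := Real.log (M * k) with hL
      have hexpL : Real.exp L = M * k := Real.exp_log (by positivity)
      have hL0 : L₀ ≤ L := by
        rw [hL, Real.le_log_iff_exp_le (by positivity)]
        have h := lt_of_le_of_lt (le_max_right _ _) (hk₀.trans hkk)
        rw [div_lt_iff₀ hM0] at h
        linarith
      have hLpos : 0 < L := hL₀.trans_le hL0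
      have hlkL : Real.log k ≤ L := by
        rw [hL]; exact Real.log_le_log hk0 (le_mul_of_one_le_left hk0.le hM1)
      set S₀ := P.filter (fun p : ℕ => Real.log (p:ℝ) ≤ t * L) with hS₀
      set Pb := (logPrimes (t * L) (1 * L)).filter (· ∈ P) with hPb
      set R := P.filter (fun p : ℕ => L < Real.log (p:ℝ)) with hR
      have hS₀p : ∀ p ∈ S₀, p.Prime ∧ Real.log p ≤ t * L := fun p hp =>
        ⟨hP p (mem_filter.1 hp).1, (mem_filter.1 hp).2⟩
      have hmiss : ε ≤ ∑ p ∈ (logPrimes (h * L) (1 * L)).filter (· ∉ Pb), 1 / (p:ℝ) := by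
        refine hdef.trans (sum_le_sum_of_subset_of_nonneg ?_ fun _ _ _ => by positivity)
        intro p hp
        simp only [mem_filter, Nat.mem_primesLE] at hp
        obtain ⟨⟨hpk, hpp⟩, hpθ, hpn⟩ := hp
        rw [mem_filter, mem_logPrimes]
        refine ⟨⟨hpp, ?_, ?_⟩, fun hmem => hpn (Nat.dvd_of_mem_primeFactors (mem_filter.1 hmem).2)⟩
        · have hlp : min θ 1 * Real.log k ≤ Real.log p := by
            refine le_trans (mul_le_mul_of_nonneg_right (min_le_left _ _) hlk.le) ?_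
            rw [← Real.log_rpow hk0]
            exact Real.log_le_log (by positivity) hpθ
          have hL2 : L < 2 * Real.log k := by
            rw [hL, Real.log_mul hM0.ne' hk0.ne']
            linarith [Real.log_lt_log hM0 hkM]
          have := mul_lt_mul_of_pos_left hL2 hh0
          have e : h * (2 * Real.log k) = min θ 1 * Real.log k := by rw [hh]; ring
          linarith
        · rw [one_mul]
          exact (Real.log_le_log (by exact_mod_cast hpp.pos) (by exact_mod_cast hpk)).trans hlkL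
      obtain ⟨hbase, hlow⟩ := hsieve L S₀ Pb hL0 hS₀p (filter_subset _ _) hmiss
      set V := dens S₀ with hVdef
      obtain ⟨hV0, hV1⟩ := dens_pos fun p hp => (hS₀p p hp).1
      have hVlo : Real.exp (-(t * L)) ≤ V := exp_neg_le_dens hS₀p (by positivity)
      have hsplit : P ⊆ (S₀ ∪ Pb) ∪ R := by
        intro p hp
        rw [mem_union, mem_union]
        rcases le_or_gt (Real.log p) (t * L) with h | h
        · exact Or.inl (Or.inl (mem_filter.2 ⟨hp, h⟩))
        rcases le_or_gt (Real.log p) L with h' | h'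
        · refine Or.inl (Or.inr (mem_filter.2 ⟨?_, hp⟩))
          rw [mem_logPrimes, one_mul]
          exact ⟨hP p hp, h, h'⟩
        · exact Or.inr (mem_filter.2 ⟨hp, h'⟩)
      set X := Real.exp ((τ / 4) * L) with hX
      have hX1 : 1 ≤ X := Real.one_le_exp (by positivity)
      have hhit : ∀ (Q : Finset ℕ), S₀ ⊆ Q → ∀ p ∈ R,
          (hits N (fun _ => -x) Q p : ℝ) ≤ 2 * V * ((N:ℝ) / p + 1) + X := by
        intro Q hQ p hp
        have hpne : ∀ q ∈ S₀, q.Prime ∧ q ≠ p := fun q hq => ⟨(hS₀p q hq).1, fun hqp => by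
          have h1 := (hS₀p q hq).2
          rw [hqp] at h1
          have h2 := (mem_filter.1 hp).2
          have : t * L ≤ 1 * L := mul_le_mul_of_nonneg_right (by linarith) hLpos.le
          linarith⟩
        obtain ⟨M', b', hM', he'⟩ := hits_progression N (fun _ => -x) S₀
          (hP p (mem_filter.1 hp).1) hpne
        have hle : hits N (fun _ => -x) Q p ≤ hits N (fun _ => -x) S₀ p := card_le_card fun j hj => by
          simp only [survivors, mem_filter] at hj ⊢
          exact ⟨⟨hj.1.1, fun q hq => hj.1.2 q (hQ hq)⟩, hj.2⟩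
        rw [he'] at hle
        refine (Nat.cast_le.2 hle).trans ?_
        have := hbase M' b'
        have := mul_le_mul_of_nonneg_left (abs_le.1 hM').2 hV0.le
        linarith
      have hcount : ∀ Q : Finset ℕ, Q ⊆ R → (cnt N (fun _ => -x) (S₀ ∪ Pb) : ℝ) -
          ∑ p ∈ Q, (2 * V * ((N:ℝ) / p + 1) + X) ≤ cnt N (fun _ => -x) (S₀ ∪ Pb ∪ Q) := by
        intro Q hQ
        induction Q using Finset.induction_on with
        | empty => simp
        | insert p Q hp ih =>
          have h1 := ih ((subset_insert p Q).trans hQ)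
          have h2 := hhit (S₀ ∪ Pb ∪ Q) (fun q hq => mem_union_left _ (mem_union_left _ hq)) p
            (hQ (mem_insert_self p Q))
          have h3 : (cnt N (fun _ => -x) (insert p (S₀ ∪ Pb ∪ Q)) : ℝ) +
              hits N (fun _ => -x) (S₀ ∪ Pb ∪ Q) p = cnt N (fun _ => -x) (S₀ ∪ Pb ∪ Q) := by
            exact_mod_cast cnt_insert N _ (S₀ ∪ Pb ∪ Q) p
          rw [sum_insert hp, union_insert]
          linarith
      have h1 : (cnt N (fun _ => -x) (S₀ ∪ Pb ∪ R) : ℝ) ≤ cnt N (fun _ => -x) P := by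
        exact_mod_cast cnt_anti N _ hsplit
      have h2 := hcount R subset_rfl
      have hrec : ∑ p ∈ R, 1 / (p:ℝ) ≤ 1 / M := by
        calc ∑ p ∈ R, 1 / (p:ℝ) ≤ ∑ _p ∈ R, 1 / (M * k) := by
              refine sum_le_sum fun p hp => one_div_le_one_div_of_le (by positivity) ?_
              rw [← hexpL, ← Real.exp_log (show (0:ℝ) < p by
                exact_mod_cast (hP p (mem_filter.1 hp).1).pos)]
              exact Real.exp_le_exp.2 (mem_filter.1 hp).2.le
          _ = (R.card : ℝ) * (1 / (M * k)) := by rw [sum_const, nsmul_eq_mul]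
          _ ≤ k * (1 / (M * k)) :=
              mul_le_mul_of_nonneg_right (by exact_mod_cast card_filter_le _ _) (by positivity)
          _ = 1 / M := by field_simp
      have h3 : ∑ p ∈ R, (2 * V * ((N:ℝ) / p + 1) + X) =
          2 * V * N * ∑ p ∈ R, 1 / (p:ℝ) + (R.card : ℝ) * (2 * V + X) := by
        rw [mul_sum, ← nsmul_eq_mul, ← sum_const, ← sum_add_distrib]
        exact sum_congr rfl fun p _ => by ring
      set E := Real.exp ((2 - 3 * τ / 4) * L) with hE
      have h4 : (R.card : ℝ) * (2 * V + X) ≤ 3 * E := by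
        have hR' : (R.card : ℝ) ≤ Real.exp L := by
          rw [hexpL]
          exact le_trans (by exact_mod_cast card_filter_le _ _) (le_mul_of_one_le_left hk0.le hM1)
        have hE' : Real.exp L * X ≤ E := by
          rw [hE, hX, ← Real.exp_add]
          refine Real.exp_le_exp.2 ?_
          have := mul_le_mul_of_nonneg_right hτ1 hLpos.le
          linarith
        calc (R.card : ℝ) * (2 * V + X) ≤ Real.exp L * (3 * X) :=
              mul_le_mul hR' (by linarith) (by positivity) (Real.exp_pos _).le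
          _ ≤ 3 * E := by linarith
      have h5 := mul_le_mul_of_nonneg_left (hrec.trans hMc)
        (show (0:ℝ) ≤ 2 * V * N by positivity)
      have h6 := hlow N (fun _ => -x)
      have h7 : Real.exp ((2 - τ / 2) * L) = M ^ (2 - τ / 2) * (k:ℝ) ^ (2 - τ / 2) := by
        rw [mul_comm (2 - τ / 2) L, Real.exp_mul, hexpL, Real.mul_rpow hM0.le hk0.le]
      have h8 : 2 * (K + 4) * E ≤ c * (N * V) := by
        have h9 : Real.exp (t * L) * E ≤ Real.exp ((2 - τ / 2) * L) := by
          rw [hE, ← Real.exp_add, ← add_mul]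
          exact Real.exp_le_exp.2 (mul_le_mul_of_nonneg_right (by linarith) hLpos.le)
        have h10 : 2 * (K + 4) * M ^ (2 - τ / 2) ≤ C * c := by
          rw [← div_le_iff₀ hc, hC]
          have : (0:ℝ) ≤ (2:ℝ) ^ k₀ * 2 ^ k₀ := by positivity
          linarith
        have h11 : 2 * (K + 4) * (Real.exp (t * L) * E) ≤ c * N := by
          calc _ ≤ 2 * (K + 4) * Real.exp ((2 - τ / 2) * L) :=
                mul_le_mul_of_nonneg_left h9 (by positivity)
            _ = 2 * (K + 4) * M ^ (2 - τ / 2) * (k:ℝ) ^ (2 - τ / 2) := by rw [h7]; ring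
            _ ≤ C * c * (k:ℝ) ^ (2 - τ / 2) := mul_le_mul_of_nonneg_right h10 (by positivity)
            _ = c * (C * (k:ℝ) ^ (2 - τ / 2)) := by ring
            _ ≤ _ := mul_le_mul_of_nonneg_left hNlo hc.le
        have h12 := mul_le_mul_of_nonneg_left hVlo (show (0:ℝ) ≤ c * N by positivity)
        have h13 := mul_le_mul_of_nonneg_right h11 (Real.exp_pos (-(t * L))).le
        have e1 : Real.exp (t * L) * Real.exp (-(t * L)) = 1 := by
          rw [← Real.exp_add, add_neg_cancel, Real.exp_zero]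
        calc 2 * (K + 4) * E = 2 * (K + 4) * (Real.exp (t * L) * E) * Real.exp (-(t * L)) := by
              rw [show 2 * (K + 4) * (Real.exp (t * L) * E) * Real.exp (-(t * L)) =
                2 * (K + 4) * E * (Real.exp (t * L) * Real.exp (-(t * L))) by ring, e1, mul_one]
          _ ≤ c * N * Real.exp (-(t * L)) := h13
          _ ≤ c * N * V := h12
          _ = _ := by ring
      have hE0 : 0 < E := Real.exp_pos _
      have hKE : 0 ≤ K * E := by positivity
      linarith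
  exact_mod_cast goal'

end Vale.Agent.P013
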