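import Vale.Agent.P003.Mertens

/-!
Mertens' second theorem with vanishing error on logarithmic intervals, and sums over geometric
blocks of prime exponents.
-/

open Finset Real

namespace Vale.Agent.P013

open Vale.Agent.P003 in
lemma recipSum_sharp : ∃ K : ℝ, 0 ≤ K ∧ ∀ n m : ℕ, 2 ≤ n → n ≤ m →
    |recipSum m - recipSum n - (Real.log (Real.log m) - Real.log (Real.log n))| ≤
      K / Real.log n := by
  obtain ⟨K, hK, hb⟩ := exists_logSum_bound
  set E : ℕ → ℝ := fun k => logSum k - Real.log k with hE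
  set G : ℕ → ℝ := fun k => recipSum k - Real.log (Real.log k) - E k / Real.log k with hG
  have hlpos : ∀ k : ℕ, 2 ≤ k → 0 < Real.log k := fun k hk =>
    Real.log_pos (by exact_mod_cast hk)
  have step : ∀ k : ℕ, 2 ≤ k → |G (k+1) - G k| ≤ (1 + K) * (1 / Real.log k - 1 / Real.log (k+1:ℕ)) := by
    intro k hk
    have ha : 0 < Real.log k := hlpos k hk
    set a := Real.log (k:ℝ) with ha'
    set b := Real.log ((k+1:ℕ):ℝ) with hb'
    have hab : a ≤ b := Real.log_le_log (by positivity) (by simp)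
    have hb0 : 0 < b := lt_of_lt_of_le ha hab
    have hd1 : b - a ≤ 1 := by
      have h1 : b ≤ Real.log (2 * (k:ℝ)) := by
        apply Real.log_le_log (by positivity)
        have : (1:ℝ) ≤ k := by exact_mod_cast (show 1 ≤ k by omega)
        push_cast; linarith
      rw [Real.log_mul (by norm_num) (by positivity)] at h1
      have := Real.log_two_lt_d9
      linarith
    have e1 : recipSum (k+1) - recipSum k = (logSum (k+1) - logSum k) / b := by
      simp only [recipSum, logSum]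
      rw [primesLE_succ_sum, primesLE_succ_sum]
      split_ifs with h
      · rw [← hb']
        field_simp
        ring
      · simp
    have e2 : G (k+1) - G k = ((b - a) / b - (Real.log b - Real.log a)) + E k * (1 / a - 1 / b) := by
      have : E (k+1) = logSum (k+1) - b := rfl
      have : E k = logSum k - a := rfl
      have : G (k+1) = recipSum (k+1) - Real.log b - E (k+1) / b := rfl
      have : G k = recipSum k - Real.log a - E k / a := rfl
      have e3 : recipSum (k+1) = recipSum k + (logSum (k+1) - logSum k) / b := by linarith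
      simp only [*]
      field_simp
      ring
    have h1 : (b - a) / b ≤ Real.log b - Real.log a := by
      rw [← Real.log_div hb0.ne' ha.ne']
      have := Real.one_sub_inv_le_log_of_pos (div_pos hb0 ha)
      rw [inv_div] at this
      have e : (b - a) / b = 1 - a / b := by field_simp
      linarith
    have h2 : Real.log b - Real.log a ≤ (b - a) / a := by
      rw [← Real.log_div hb0.ne' ha.ne']
      have := Real.log_le_sub_one_of_pos (div_pos hb0 ha)
      have e : (b - a) / a = b / a - 1 := by field_simp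
      linarith
    have hdd : 0 ≤ 1 / a - 1 / b := by
      rw [sub_nonneg]; exact one_div_le_one_div_of_le ha hab
    have h3 : |(b - a) / b - (Real.log b - Real.log a)| ≤ 1 / a - 1 / b := by
      rw [abs_le]
      have e : (b - a) / a - (b - a) / b = (b - a) * (1 / a - 1 / b) := by ring
      have : (b - a) * (1 / a - 1 / b) ≤ 1 / a - 1 / b := by nlinarith
      constructor <;> linarith
    have h4 : |E k * (1 / a - 1 / b)| ≤ K * (1 / a - 1 / b) := by
      rw [abs_mul, abs_of_nonneg hdd]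
      exact mul_le_mul_of_nonneg_right (hb k (by omega)) hdd
    rw [e2]
    refine (abs_add_le _ _).trans ?_
    linarith
  refine ⟨1 + 3 * K, by linarith, ?_⟩
  intro n m hn hnm
  have key : |G m - G n| ≤ (1 + K) * (1 / Real.log n - 1 / Real.log m) := by
    induction m, hnm using Nat.le_induction with
    | base => simp
    | succ k hk ih =>
      have := step k (by omega)
      refine (abs_sub_le _ (G k) _).trans ?_
      linarith
  have hln := hlpos n hn
  have hlm := hlpos m (by omega)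
  have hlmn : Real.log n ≤ Real.log m := Real.log_le_log (by positivity) (by exact_mod_cast hnm)
  have e : recipSum m - recipSum n - (Real.log (Real.log m) - Real.log (Real.log n))
      = (G m - G n) + E m / Real.log m - E n / Real.log n := by simp only [hG]; ring
  rw [e]
  have a1 : |E m / Real.log m| ≤ K / Real.log n := by
    rw [abs_div, abs_of_pos hlm]
    exact div_le_div₀ (by linarith) (hb m (by omega)) hln hlmn
  have a2 : |E n / Real.log n| ≤ K / Real.log n := by
    rw [abs_div, abs_of_pos hln]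
    exact div_le_div_of_nonneg_right (hb n (by omega)) hln.le
  have a3 : |G m - G n| ≤ (1 + K) / Real.log n := by
    refine key.trans ?_
    rw [mul_sub, mul_one_div]
    have : 0 ≤ (1 + K) * (1 / Real.log m) := mul_nonneg (by linarith) (by positivity)
    linarith
  have e4 : (1 + 3 * K) / Real.log n = (1 + K) / Real.log n + K / Real.log n + K / Real.log n := by
    ring
  rw [e4]
  refine (abs_sub _ _).trans ?_
  have := abs_add_le (G m - G n) (E m / Real.log m)
  linarith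

/-- Primes `p` with `a < log p ≤ b`. -/
noncomputable def logPrimes (a b : ℝ) : Finset ℕ :=
  (Nat.primesLE ⌊Real.exp b⌋₊).filter fun p => a < Real.log p

lemma mem_logPrimes {a b : ℝ} {p : ℕ} :
    p ∈ logPrimes a b ↔ p.Prime ∧ a < Real.log p ∧ Real.log p ≤ b := by
  simp only [logPrimes, Finset.mem_filter, Nat.mem_primesLE]
  constructor
  · rintro ⟨⟨h1, h2⟩, h3⟩
    refine ⟨h2, h3, ?_⟩
    rw [Real.log_le_iff_le_exp (by exact_mod_cast h2.pos)]
    exact (Nat.cast_le.2 h1).trans (Nat.floor_le (Real.exp_pos b).le)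
  · rintro ⟨h1, h2, h3⟩
    exact ⟨⟨Nat.le_floor ((Real.log_le_iff_le_exp (by exact_mod_cast h1.pos)).1 h3), h1⟩, h2⟩

lemma log_floor_exp {a : ℝ} (ha : 1 ≤ a) :
    2 ≤ ⌊Real.exp a⌋₊ ∧ a - 1 ≤ Real.log (⌊Real.exp a⌋₊ : ℕ) ∧
      Real.log (⌊Real.exp a⌋₊ : ℕ) ≤ a := by
  have h2 : (2:ℝ) ≤ Real.exp a := by linarith [Real.add_one_le_exp a]
  have hn : 2 ≤ ⌊Real.exp a⌋₊ := Nat.le_floor (by exact_mod_cast h2)
  have hn' : (2:ℝ) ≤ (⌊Real.exp a⌋₊ : ℕ) := by exact_mod_cast hn
  refine ⟨hn, ?_, ?_⟩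
  · have h3 := Nat.lt_floor_add_one (Real.exp a)
    have h4 : Real.exp a ≤ (⌊Real.exp a⌋₊ : ℕ) * Real.exp 1 := by
      have := Real.add_one_le_exp (1:ℝ)
      nlinarith
    have h5 := Real.log_le_log (Real.exp_pos a) h4
    rw [Real.log_exp, Real.log_mul (by linarith) (Real.exp_ne_zero 1), Real.log_exp] at h5
    linarith
  · calc Real.log (⌊Real.exp a⌋₊ : ℕ) ≤ Real.log (Real.exp a) :=
          Real.log_le_log (by linarith) (Nat.floor_le (Real.exp_pos a).le)
      _ = a := Real.log_exp a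

open Vale.Agent.P003 in
/-- Mertens on logarithmic intervals. -/
theorem mertens_sharp {η : ℝ} (hη : 0 < η) : ∃ A : ℝ, 0 < A ∧ ∀ a b : ℝ, A ≤ a → a ≤ b →
    |∑ p ∈ logPrimes a b, 1 / (p:ℝ) - Real.log (b / a)| ≤ η := by
  obtain ⟨K, hK, hb⟩ := recipSum_sharp
  refine ⟨2 + 2 * (K + 2) / η, by positivity, fun a b ha hab => ?_⟩
  have hq : 0 ≤ 2 * (K + 2) / η := by positivity
  have ha2 : 2 ≤ a := by linarith
  have hKa : 2 * (K + 2) / a ≤ η := by
    rw [div_le_iff₀ (by linarith)]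
    have : 2 * (K + 2) / η ≤ a := by linarith
    rw [div_le_iff₀ hη] at this
    linarith
  obtain ⟨na2, na_lo, na_hi⟩ := log_floor_exp (show 1 ≤ a by linarith)
  obtain ⟨nb2, nb_lo, nb_hi⟩ := log_floor_exp (show 1 ≤ b by linarith)
  set n := ⌊Real.exp a⌋₊ with hn
  set m := ⌊Real.exp b⌋₊ with hm
  have hnm : n ≤ m := Nat.floor_mono (Real.exp_le_exp.2 hab)
  have hsub : Nat.primesLE n ⊆ Nat.primesLE m := fun p hp =>
    Nat.mem_primesLE.2 ⟨(Nat.mem_primesLE.1 hp).1.trans hnm, (Nat.mem_primesLE.1 hp).2⟩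
  have hset : logPrimes a b = Nat.primesLE m \ Nat.primesLE n := by
    ext p
    simp only [logPrimes, Finset.mem_filter, Finset.mem_sdiff, Nat.mem_primesLE]
    refine and_congr_right fun h => ?_
    have hp0 : (0:ℝ) < p := by exact_mod_cast h.2.pos
    rw [Real.lt_log_iff_exp_lt hp0, ← Nat.floor_lt (Real.exp_pos a).le]
    simp [h.2, not_le, hn]
  have hsd : ∑ p ∈ logPrimes a b, 1 / (p:ℝ) = recipSum m - recipSum n := by
    rw [hset]
    simp only [recipSum]
    rw [Finset.sum_sdiff_eq_sub hsub]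
  have main := abs_le.1 (hb n m na2 hnm)
  have hlg : ∀ x y : ℝ, 2 ≤ x → x - 1 ≤ y → y ≤ x →
      Real.log x - 2 / x ≤ Real.log y ∧ Real.log y ≤ Real.log x := by
    intro x y hx h1 h2
    refine ⟨?_, Real.log_le_log (by linarith) h2⟩
    have h3 := Real.one_sub_inv_le_log_of_pos (div_pos (show 0 < y by linarith) (show 0 < x by linarith))
    rw [Real.log_div (by linarith) (by linarith), inv_div] at h3
    have : x / y - 1 ≤ 2 / x := by
      rw [div_sub_one (by linarith), div_le_div_iff₀ (by linarith) (by linarith)]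
      nlinarith
    linarith
  obtain ⟨l1, l2⟩ := hlg a _ ha2 na_lo na_hi
  obtain ⟨l3, l4⟩ := hlg b _ (by linarith) nb_lo nb_hi
  have hb2 : 2 / b ≤ 2 / a := div_le_div_of_nonneg_left (by norm_num) (by linarith) hab
  have hKn : K / Real.log (n:ℕ) ≤ 2 * K / a := by
    rw [div_le_div_iff₀ (by linarith) (by linarith)]
    nlinarith
  have e2 : 2 * (K + 2) / a = 2 * K / a + 2 / a + 2 / a := by ring
  rw [hsd, Real.log_div (by linarith) (by linarith), abs_le]
  constructor <;> linarith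

/-- The exponents `θ r^i` of a geometric grid. -/
noncomputable def grid (θ x : ℝ) (i : ℕ) : ℝ := θ * Real.exp (x * i)

/-- Upper telescoping comparison on a geometric grid. -/
lemma grid_upper
    {θ u L x δ B : ℝ} (J : ℕ) (hθ : 0 < θ) (hL0 : 0 < L) (hx0 : 0 ≤ x) (hx1 : x ≤ 1)
    (hδ0 : 0 ≤ δ) (hu : θ ≤ u) (hJu : grid θ x J = u)
    (blockM : ∀ i : ℕ,
      |∑ p ∈ logPrimes (grid θ x i * L) (grid θ x (i + 1) * L), 1 / (p:ℝ) - x| ≤ δ)
    (φ Ψ H : ℝ → ℝ)
    (hH : ∀ a b, θ ≤ a → a ≤ b → b ≤ u → H b ≤ B ∧ 0 ≤ H a ∧ H a ≤ H b)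
    (hΨ : ∀ a b, θ ≤ a → a ≤ b → b ≤ u → H a * ((b - a) / (a * b)) ≤ Ψ b - Ψ a)
    (hφ : ∀ a b w, θ ≤ a → a < w → w ≤ b → b ≤ u → φ w ≤ H b / a) :
    ∑ p ∈ logPrimes (θ * L) (u * L), 1 / (p:ℝ) * φ (Real.log p / L) ≤
      Ψ u - Ψ θ + (J * (B / θ) * (x ^ 2 + δ) + x * B / θ) := by
  have gmono : ∀ {i j : ℕ}, i ≤ j → grid θ x i ≤ grid θ x j := fun h =>
    mul_le_mul_of_nonneg_left (Real.exp_le_exp.2
      (mul_le_mul_of_nonneg_left (Nat.cast_le.2 h) hx0)) hθ.le
  have g0 : grid θ x 0 = θ := by simp [grid]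
  have gge : ∀ i, θ ≤ grid θ x i := fun i => g0.symm.le.trans (gmono (Nat.zero_le i))
  have gsucc : ∀ i : ℕ, grid θ x (i + 1) = grid θ x i * Real.exp x := by
    intro i; simp only [grid]; push_cast; rw [mul_add, Real.exp_add, mul_one]; ring
  have split : ∀ (φ : ℝ → ℝ) (i : ℕ),
      ∑ p ∈ logPrimes (θ * L) (grid θ x (i + 1) * L), 1 / (p:ℝ) * φ (Real.log p / L) =
      ∑ p ∈ logPrimes (θ * L) (grid θ x i * L), 1 / (p:ℝ) * φ (Real.log p / L) +
      ∑ p ∈ logPrimes (grid θ x i * L) (grid θ x (i + 1) * L), 1 / (p:ℝ) * φ (Real.log p / L) := by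
    intro φ i
    rw [← Finset.sum_union]
    · refine Finset.sum_congr ?_ fun _ _ => rfl
      ext p
      simp only [Finset.mem_union, mem_logPrimes]
      have h1 := mul_le_mul_of_nonneg_right (gge i) hL0.le
      have h2 := mul_le_mul_of_nonneg_right (gmono (Nat.le_succ i)) hL0.le
      constructor
      · rintro ⟨hp, a, b⟩
        rcases le_or_gt (Real.log p) (grid θ x i * L) with h | h
        · exact Or.inl ⟨hp, a, h⟩
        · exact Or.inr ⟨hp, h, b⟩
      · rintro (⟨hp, a, b⟩ | ⟨hp, a, b⟩)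
        · exact ⟨hp, a, b.trans h2⟩
        · exact ⟨hp, h1.trans_lt a, b⟩
    · rw [Finset.disjoint_left]
      intro p hp hq
      rw [mem_logPrimes] at hp hq
      linarith [hp.2.2, hq.2.1]
  have blockw : ∀ (i : ℕ), ∀ p ∈ logPrimes (grid θ x i * L) (grid θ x (i + 1) * L),
      grid θ x i < Real.log p / L ∧ Real.log p / L ≤ grid θ x (i + 1) := by
    intro i p hp
    rw [mem_logPrimes] at hp
    exact ⟨(lt_div_iff₀ hL0).2 hp.2.1, (div_le_iff₀ hL0).2 hp.2.2⟩
  have hexp1 : x - x ^ 2 ≤ 1 - Real.exp (-x) := by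
    have h1 := Real.add_one_le_exp x
    have h2 : Real.exp (-x) ≤ 1 / (1 + x) := by
      rw [Real.exp_neg, one_div]; exact inv_anti₀ (by linarith) (by linarith)
    have h3 : 1 / (1 + x) ≤ 1 - x + x ^ 2 := by
      rw [div_le_iff₀ (by linarith)]; nlinarith [pow_nonneg hx0 3]
    linarith
  have ind : ∀ i ≤ J, ∑ p ∈ logPrimes (θ * L) (grid θ x i * L), 1 / (p:ℝ) * φ (Real.log p / L) ≤
      Ψ (grid θ x i) - Ψ θ + (i * (B / θ) * (x ^ 2 + δ) + x * (H (grid θ x i) - H θ) / θ) := by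
    intro i hi
    induction i with
    | zero =>
      have : logPrimes (θ * L) (θ * L) = ∅ := by
        ext p
        simp only [mem_logPrimes, Finset.notMem_empty, iff_false, not_and, not_le]
        exact fun _ h => h
      simp [g0, this]
    | succ i ih =>
      rw [split]
      set a := grid θ x i
      set b := grid θ x (i + 1) with hbdef
      have hab : a ≤ b := gmono (Nat.le_succ i)
      have hbu : b ≤ u := hJu ▸ gmono hi
      have ha : θ ≤ a := gge i
      have ha0 : 0 < a := by linarith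
      obtain ⟨hHB, hHa, hHm⟩ := hH a b ha hab hbu
      have hHb0 : 0 ≤ H b := hHa.trans hHm
      have hblock : ∑ p ∈ logPrimes (a * L) (b * L), 1 / (p:ℝ) * φ (Real.log p / L) ≤
          H b / a * (x + δ) := by
        calc _ ≤ ∑ p ∈ logPrimes (a * L) (b * L), 1 / (p:ℝ) * (H b / a) :=
              Finset.sum_le_sum fun p hp => mul_le_mul_of_nonneg_left
                (hφ a b _ ha (blockw i p hp).1 (blockw i p hp).2 hbu) (by positivity)
          _ = H b / a * ∑ p ∈ logPrimes (a * L) (b * L), 1 / (p:ℝ) := by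
              rw [← Finset.sum_mul]; ring
          _ ≤ _ := mul_le_mul_of_nonneg_left (by linarith [(abs_le.1 (blockM i)).2])
              (div_nonneg hHb0 ha0.le)
      have hd : (b - a) / (a * b) = (1 - Real.exp (-x)) / a := by
        rw [show b = a * Real.exp x from gsucc i, Real.exp_neg]
        field_simp
      have hs := hΨ a b ha hab hbu
      rw [hd] at hs
      have k1 : H a * ((x - x ^ 2) / a) ≤ Ψ b - Ψ a :=
        (mul_le_mul_of_nonneg_left (div_le_div_of_nonneg_right hexp1 ha0.le) hHa).trans hs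
      have k2 : H b / a * (x + δ) - H a * ((x - x ^ 2) / a) ≤
          B / θ * (x ^ 2 + δ) + x * (H b - H a) / θ := by
        have q1 : H b * δ + H a * x ^ 2 ≤ B * (x ^ 2 + δ) := by
          nlinarith [mul_le_mul_of_nonneg_right hHB hδ0,
            mul_le_mul_of_nonneg_right (hHm.trans hHB) (sq_nonneg x)]
        calc H b / a * (x + δ) - H a * ((x - x ^ 2) / a)
            = (H b * δ + H a * x ^ 2 + x * (H b - H a)) / a := by ring
          _ ≤ (B * (x ^ 2 + δ) + x * (H b - H a)) / θ :=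
              div_le_div₀ (add_nonneg (mul_nonneg (hHb0.trans hHB) (add_nonneg (sq_nonneg x) hδ0)) (mul_nonneg hx0 (sub_nonneg.2 hHm)))
                (by linarith) hθ ha
          _ = _ := by ring
      have e1 : ((i + 1 : ℕ) : ℝ) * (B / θ) * (x ^ 2 + δ) =
          i * (B / θ) * (x ^ 2 + δ) + B / θ * (x ^ 2 + δ) := by push_cast; ring
      have e2 : x * (H b - H θ) / θ = x * (H a - H θ) / θ + x * (H b - H a) / θ := by ring
      have := ih (by omega)
      linarith
  have h := ind J le_rfl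
  rw [hJu] at h
  obtain ⟨hHB, hHθ, -⟩ := hH θ u le_rfl hu le_rfl
  have : x * (H u - H θ) / θ ≤ x * B / θ :=
    div_le_div_of_nonneg_right (mul_le_mul_of_nonneg_left (by linarith) hx0) hθ.le
  linarith

/-- Lower telescoping comparison on a geometric grid. -/
lemma grid_lower
    {θ u L x δ B : ℝ} (J : ℕ) (hθ : 0 < θ) (hL0 : 0 < L) (hx0 : 0 ≤ x) (hx1 : x ≤ 1)
    (hδ0 : 0 ≤ δ) (hu : θ ≤ u) (hJu : grid θ x J = u)
    (blockM : ∀ i : ℕ,
      |∑ p ∈ logPrimes (grid θ x i * L) (grid θ x (i + 1) * L), 1 / (p:ℝ) - x| ≤ δ)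
    (φ Ψ H : ℝ → ℝ)
    (hH : ∀ a b, θ ≤ a → a ≤ b → b ≤ u → H a ≤ B ∧ 0 ≤ H b ∧ H b ≤ H a)
    (hΨ : ∀ a b, θ ≤ a → a ≤ b → b ≤ u → Ψ b - Ψ a ≤ H a * ((b - a) / (a * b)))
    (hφ : ∀ a b w, θ ≤ a → a < w → w ≤ b → b ≤ u → H b / b ≤ φ w) :
    Ψ u - Ψ θ - (J * (B / θ) * (x ^ 2 + δ) + x * B / θ) ≤
      ∑ p ∈ logPrimes (θ * L) (u * L), 1 / (p:ℝ) * φ (Real.log p / L) := by
  have gmono : ∀ {i j : ℕ}, i ≤ j → grid θ x i ≤ grid θ x j := fun h =>
    mul_le_mul_of_nonneg_left (Real.exp_le_exp.2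
      (mul_le_mul_of_nonneg_left (Nat.cast_le.2 h) hx0)) hθ.le
  have g0 : grid θ x 0 = θ := by simp [grid]
  have gge : ∀ i, θ ≤ grid θ x i := fun i => g0.symm.le.trans (gmono (Nat.zero_le i))
  have gsucc : ∀ i : ℕ, grid θ x (i + 1) = grid θ x i * Real.exp x := by
    intro i; simp only [grid]; push_cast; rw [mul_add, Real.exp_add, mul_one]; ring
  have split : ∀ (φ : ℝ → ℝ) (i : ℕ),
      ∑ p ∈ logPrimes (θ * L) (grid θ x (i + 1) * L), 1 / (p:ℝ) * φ (Real.log p / L) =
      ∑ p ∈ logPrimes (θ * L) (grid θ x i * L), 1 / (p:ℝ) * φ (Real.log p / L) +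
      ∑ p ∈ logPrimes (grid θ x i * L) (grid θ x (i + 1) * L), 1 / (p:ℝ) * φ (Real.log p / L) := by
    intro φ i
    rw [← Finset.sum_union]
    · refine Finset.sum_congr ?_ fun _ _ => rfl
      ext p
      simp only [Finset.mem_union, mem_logPrimes]
      have h1 := mul_le_mul_of_nonneg_right (gge i) hL0.le
      have h2 := mul_le_mul_of_nonneg_right (gmono (Nat.le_succ i)) hL0.le
      constructor
      · rintro ⟨hp, a, b⟩
        rcases le_or_gt (Real.log p) (grid θ x i * L) with h | h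
        · exact Or.inl ⟨hp, a, h⟩
        · exact Or.inr ⟨hp, h, b⟩
      · rintro (⟨hp, a, b⟩ | ⟨hp, a, b⟩)
        · exact ⟨hp, a, b.trans h2⟩
        · exact ⟨hp, h1.trans_lt a, b⟩
    · rw [Finset.disjoint_left]
      intro p hp hq
      rw [mem_logPrimes] at hp hq
      linarith [hp.2.2, hq.2.1]
  have blockw : ∀ (i : ℕ), ∀ p ∈ logPrimes (grid θ x i * L) (grid θ x (i + 1) * L),
      grid θ x i < Real.log p / L ∧ Real.log p / L ≤ grid θ x (i + 1) := by
    intro i p hp
    rw [mem_logPrimes] at hp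
    exact ⟨(lt_div_iff₀ hL0).2 hp.2.1, (div_le_iff₀ hL0).2 hp.2.2⟩
  have ind : ∀ i ≤ J, Ψ (grid θ x i) - Ψ θ -
      (i * (B / θ) * (x ^ 2 + δ) + x * (H θ - H (grid θ x i)) / θ) ≤
      ∑ p ∈ logPrimes (θ * L) (grid θ x i * L), 1 / (p:ℝ) * φ (Real.log p / L) := by
    intro i hi
    induction i with
    | zero =>
      have : logPrimes (θ * L) (θ * L) = ∅ := by
        ext p
        simp only [mem_logPrimes, Finset.notMem_empty, iff_false, not_and, not_le]
        exact fun _ h => h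
      simp [g0, this]
    | succ i ih =>
      rw [split]
      set a := grid θ x i
      set b := grid θ x (i + 1) with hbdef
      have hab : a ≤ b := gmono (Nat.le_succ i)
      have hbu : b ≤ u := hJu ▸ gmono hi
      have ha : θ ≤ a := gge i
      have ha0 : 0 < a := by linarith
      have hb0 : 0 < b := by linarith
      obtain ⟨hHB, hHb, hHm⟩ := hH a b ha hab hbu
      have hHa0 : 0 ≤ H a := hHb.trans hHm
      have hblock : H b / b * (x - δ) ≤
          ∑ p ∈ logPrimes (a * L) (b * L), 1 / (p:ℝ) * φ (Real.log p / L) := by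
        calc H b / b * (x - δ) ≤ H b / b * ∑ p ∈ logPrimes (a * L) (b * L), 1 / (p:ℝ) :=
              mul_le_mul_of_nonneg_left (by linarith [(abs_le.1 (blockM i)).1])
                (div_nonneg hHb hb0.le)
          _ = ∑ p ∈ logPrimes (a * L) (b * L), 1 / (p:ℝ) * (H b / b) := by
              rw [← Finset.sum_mul]; ring
          _ ≤ _ := Finset.sum_le_sum fun p hp => mul_le_mul_of_nonneg_left
                (hφ a b _ ha (blockw i p hp).1 (blockw i p hp).2 hbu) (by positivity)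
      have hd : (b - a) / (a * b) = (Real.exp x - 1) / b := by
        rw [show b = a * Real.exp x from gsucc i]
        field_simp
      have hs := hΨ a b ha hab hbu
      rw [hd] at hs
      have he : Real.exp x - 1 ≤ x + x ^ 2 := by
        have := Real.abs_exp_sub_one_sub_id_le (show |x| ≤ 1 by rwa [abs_of_nonneg hx0])
        linarith [(abs_le.1 this).2]
      have k1 : Ψ b - Ψ a ≤ H a * ((x + x ^ 2) / b) :=
        hs.trans (mul_le_mul_of_nonneg_left (div_le_div_of_nonneg_right he hb0.le) hHa0)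
      have k2 : H a * ((x + x ^ 2) / b) - H b / b * (x - δ) ≤
          B / θ * (x ^ 2 + δ) + x * (H a - H b) / θ := by
        have q1 : H b * δ + H a * x ^ 2 ≤ B * (x ^ 2 + δ) := by
          nlinarith [mul_le_mul_of_nonneg_right (hHm.trans hHB) hδ0,
            mul_le_mul_of_nonneg_right hHB (sq_nonneg x)]
        calc H a * ((x + x ^ 2) / b) - H b / b * (x - δ)
            = (H b * δ + H a * x ^ 2 + x * (H a - H b)) / b := by ring
          _ ≤ (B * (x ^ 2 + δ) + x * (H a - H b)) / θ :=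
              div_le_div₀ (add_nonneg (mul_nonneg (hHa0.trans hHB) (add_nonneg (sq_nonneg x) hδ0)) (mul_nonneg hx0 (sub_nonneg.2 hHm)))
                (by linarith) hθ (by linarith)
          _ = _ := by ring
      have e1 : ((i + 1 : ℕ) : ℝ) * (B / θ) * (x ^ 2 + δ) =
          i * (B / θ) * (x ^ 2 + δ) + B / θ * (x ^ 2 + δ) := by push_cast; ring
      have e2 : x * (H θ - H b) / θ = x * (H θ - H a) / θ + x * (H a - H b) / θ := by ring
      have := ih (by omega)
      linarith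
  have h := ind J le_rfl
  rw [hJu] at h
  obtain ⟨hHB, hHu, -⟩ := hH θ u le_rfl hu le_rfl
  have : x * (H θ - H u) / θ ≤ x * B / θ :=
    div_le_div_of_nonneg_right (mul_le_mul_of_nonneg_left (by linarith) hx0) hθ.le
  linarith

/-- Comparison of a sum over prime exponents in `(θ, u]` with a telescoping bound. -/
theorem grid_sum {θ η : ℝ} (hθ : 0 < θ) (hθ1 : θ ≤ 1) (hη : 0 < η) (B : ℝ) (hB : 0 ≤ B) :
    ∃ L₀ : ℝ, 0 < L₀ ∧ ∀ L u : ℝ, L₀ ≤ L → θ ≤ u → u ≤ 1 →
      (∀ φ Ψ : ℝ → ℝ, ∀ H : ℝ → ℝ,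
        (∀ a b, θ ≤ a → a ≤ b → b ≤ u → H b ≤ B ∧ 0 ≤ H a ∧ H a ≤ H b) →
        (∀ a b, θ ≤ a → a ≤ b → b ≤ u → H a * ((b - a) / (a * b)) ≤ Ψ b - Ψ a) →
        (∀ a b w, θ ≤ a → a < w → w ≤ b → b ≤ u → φ w ≤ H b / a) →
        ∑ p ∈ logPrimes (θ * L) (u * L), 1 / (p:ℝ) * φ (Real.log p / L) ≤ Ψ u - Ψ θ + η) ∧
      (∀ φ Ψ : ℝ → ℝ, ∀ H : ℝ → ℝ,
        (∀ a b, θ ≤ a → a ≤ b → b ≤ u → H a ≤ B ∧ 0 ≤ H b ∧ H b ≤ H a) →
        (∀ a b, θ ≤ a → a ≤ b → b ≤ u → Ψ b - Ψ a ≤ H a * ((b - a) / (a * b))) →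
        (∀ a b w, θ ≤ a → a < w → w ≤ b → b ≤ u → H b / b ≤ φ w) →
        Ψ u - Ψ θ - η ≤ ∑ p ∈ logPrimes (θ * L) (u * L), 1 / (p:ℝ) * φ (Real.log p / L)) := by
  set Λ := Real.log (1 / θ) with hΛ
  have hΛ0 : 0 ≤ Λ := Real.log_nonneg ((le_div_iff₀ hθ).2 (by linarith))
  obtain ⟨J, hJ⟩ := exists_nat_gt (max (max Λ 1) (4 * (Λ + 1) ^ 2 * (B + 1) / (η * θ)))
  have hJΛ : Λ ≤ J := le_trans (le_trans (le_max_left _ _) (le_max_left _ _)) hJ.le
  have hJ1 : (1:ℝ) ≤ J := le_trans (le_trans (le_max_right _ _) (le_max_left _ _)) hJ.le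
  have hJb : 4 * (Λ + 1) ^ 2 * (B + 1) / (η * θ) ≤ J := le_trans (le_max_right _ _) hJ.le
  have hJ0 : (0:ℝ) < J := by linarith
  set δ : ℝ := 1 / (J:ℝ) ^ 2 with hδ
  have hδ0 : 0 < δ := by positivity
  obtain ⟨A, hA, hM⟩ := mertens_sharp hδ0
  refine ⟨A / θ, by positivity, fun L u hL hu hu1 => ?_⟩
  have hL0 : 0 < L := lt_of_lt_of_le (by positivity) hL
  set x := Real.log (u / θ) / J with hx
  have hx0 : 0 ≤ x := div_nonneg (Real.log_nonneg ((le_div_iff₀ hθ).2 (by linarith))) hJ0.le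
  have hxΛ : x * J ≤ Λ := by
    rw [hx, div_mul_cancel₀ _ hJ0.ne']
    exact Real.log_le_log (div_pos (by linarith) hθ) (div_le_div_of_nonneg_right hu1 hθ.le)
  have hx1 : x ≤ 1 := by nlinarith
  have hJu : grid θ x J = u := by
    rw [grid, hx, div_mul_cancel₀ _ hJ0.ne', Real.exp_log (div_pos (by linarith) hθ)]
    field_simp
  have gge : ∀ i, θ ≤ grid θ x i := fun i =>
    le_mul_of_one_le_right hθ.le (Real.one_le_exp (mul_nonneg hx0 (Nat.cast_nonneg i)))
  have gmono : ∀ i : ℕ, grid θ x i ≤ grid θ x (i + 1) := fun i =>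
    mul_le_mul_of_nonneg_left (Real.exp_le_exp.2
      (mul_le_mul_of_nonneg_left (by simp) hx0)) hθ.le
  have gsucc : ∀ i : ℕ, grid θ x (i + 1) = grid θ x i * Real.exp x := by
    intro i; simp only [grid]; push_cast; rw [mul_add, Real.exp_add, mul_one]; ring
  have blockM : ∀ i : ℕ,
      |∑ p ∈ logPrimes (grid θ x i * L) (grid θ x (i + 1) * L), 1 / (p:ℝ) - x| ≤ δ := by
    intro i
    have hg : 0 < grid θ x i * L := mul_pos (lt_of_lt_of_le hθ (gge i)) hL0
    have h1 : A ≤ grid θ x i * L := by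
      have := (div_le_iff₀ hθ).1 hL
      nlinarith [mul_le_mul_of_nonneg_right (gge i) hL0.le]
    have := hM _ _ h1 (mul_le_mul_of_nonneg_right (gmono i) hL0.le)
    have e : Real.log (grid θ x (i + 1) * L / (grid θ x i * L)) = x := by
      rw [gsucc, show grid θ x i * Real.exp x * L = grid θ x i * L * Real.exp x by ring,
        mul_div_cancel_left₀ _ hg.ne', Real.log_exp]
    rwa [e] at this
  have final : ∀ S : ℝ, S ≤ (2 * B / θ) * ((J:ℝ) * (x ^ 2 + δ) + x) → S ≤ η := by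
    intro S hS
    refine hS.trans ?_
    have h1 : (J:ℝ) * (x ^ 2 + δ) + x ≤ 2 * (Λ + 1) ^ 2 / J := by
      rw [hδ, le_div_iff₀ hJ0]
      have e : ((J:ℝ) * (x ^ 2 + 1 / (J:ℝ) ^ 2) + x) * J = (x * J) ^ 2 + 1 + x * J := by
        field_simp
      rw [e]
      nlinarith [mul_nonneg hx0 hJ0.le]
    have h2 : 2 * B / θ * (2 * (Λ + 1) ^ 2 / J) ≤ η := by
      rw [div_mul_div_comm, div_le_iff₀ (by positivity)]
      rw [div_le_iff₀ (by positivity)] at hJb
      nlinarith
    exact (mul_le_mul_of_nonneg_left h1 (by positivity)).trans h2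
  have hS : (J:ℝ) * (B / θ) * (x ^ 2 + δ) + x * B / θ ≤ η := by
    refine final _ ?_
    have p1 : 0 ≤ (J:ℝ) * (B / θ) * (x ^ 2 + δ) := by positivity
    have p2 : 0 ≤ x * B / θ := by positivity
    have e : 2 * B / θ * ((J:ℝ) * (x ^ 2 + δ) + x) =
        2 * ((J:ℝ) * (B / θ) * (x ^ 2 + δ)) + 2 * (x * B / θ) := by ring
    linarith
  exact ⟨fun φ Ψ H a b c =>
      (grid_upper J hθ hL0 hx0 hx1 hδ0.le hu hJu blockM φ Ψ H a b c).trans (by linarith),
    fun φ Ψ H a b c =>
      le_trans (by linarith) (grid_lower J hθ hL0 hx0 hx1 hδ0.le hu hJu blockM φ Ψ H a b c)⟩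

end Vale.Agent.P013
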