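import Vale.Agent.P013.Primes

/-!
The linear sieve for an interval and one arbitrary residue class per prime, by induction on the
number of steps.
-/

open Finset Real

namespace Vale.Agent.P013

/-- Integers `j < N` avoiding the residue `a q` modulo each `q ∈ P`. -/
def survivors (N : ℕ) (a : ℕ → ℤ) (P : Finset ℕ) : Finset ℕ :=
  (range N).filter fun j : ℕ => ∀ q ∈ P, ¬ (q:ℤ) ∣ (j:ℤ) - a q

/-- The number of survivors. -/
def cnt (N : ℕ) (a : ℕ → ℤ) (P : Finset ℕ) : ℕ := (survivors N a P).card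

/-- Integers `j < N` hit by `p` and avoiding the residues of `Q`. -/
def hits (N : ℕ) (a : ℕ → ℤ) (Q : Finset ℕ) (p : ℕ) : ℕ :=
  ((survivors N a Q).filter fun j : ℕ => (p:ℤ) ∣ (j:ℤ) - a p).card

lemma cnt_le (N : ℕ) (a : ℕ → ℤ) (P : Finset ℕ) : cnt N a P ≤ N :=
  (card_filter_le _ _).trans (card_range N).le

lemma cnt_anti (N : ℕ) (a : ℕ → ℤ) {P Q : Finset ℕ} (h : P ⊆ Q) : cnt N a Q ≤ cnt N a P :=
  card_le_card fun j hj => by
    simp only [survivors, mem_filter] at hj ⊢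
    exact ⟨hj.1, fun q hq => hj.2 q (h hq)⟩

lemma cnt_insert (N : ℕ) (a : ℕ → ℤ) (Q : Finset ℕ) (p : ℕ) :
    cnt N a (insert p Q) + hits N a Q p = cnt N a Q := by
  have e : survivors N a (insert p Q) =
      (survivors N a Q).filter fun j : ℕ => ¬ (p:ℤ) ∣ (j:ℤ) - a p := by
    ext j
    simp only [survivors, mem_filter, forall_mem_insert]
    tauto
  rw [cnt, cnt, hits, e, add_comm, card_filter_add_card_filter_not]

lemma buchstab (N : ℕ) (a : ℕ → ℤ) (P : Finset ℕ) :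
    cnt N a P + ∑ p ∈ P, hits N a (P.filter (· < p)) p = N := by
  induction P using Finset.induction_on_max with
  | empty => simp [cnt, survivors]
  | insert p Q hQ ih =>
    have hp : p ∉ Q := fun h => lt_irrefl p (hQ p h)
    have e1 : (insert p Q).filter (· < p) = Q := by
      ext q
      simp only [mem_filter, mem_insert]
      constructor
      · rintro ⟨rfl | h, h'⟩
        · omega
        · exact h
      · exact fun h => ⟨Or.inr h, hQ q h⟩
    have e2 : ∀ q ∈ Q, (insert p Q).filter (· < q) = Q.filter (· < q) := by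
      intro q hq
      rw [filter_insert, if_neg (Nat.lt_asymm (hQ q hq))]
    rw [sum_insert hp, e1, sum_congr rfl fun q hq => by rw [e2 q hq]]
    have := cnt_insert N a Q p
    omega

lemma hits_progression (N : ℕ) (a : ℕ → ℤ) (Q : Finset ℕ) {p : ℕ} (hp : p.Prime)
    (hQ : ∀ q ∈ Q, q.Prime ∧ q ≠ p) :
    ∃ (M : ℕ) (b : ℕ → ℤ), |(M:ℝ) - N / p| ≤ 1 ∧ hits N a Q p = cnt M b Q := by
  have hpz : (p:ℤ) ≠ 0 := by exact_mod_cast hp.ne_zero
  set r : ℕ := (a p % (p:ℤ)).toNat with hr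
  have hrp : r < p := by
    have := Int.emod_lt_of_pos (a p) (show (0:ℤ) < p by exact_mod_cast hp.pos)
    have := Int.emod_nonneg (a p) hpz
    omega
  have hrz : (r:ℤ) = a p % (p:ℤ) := Int.toNat_of_nonneg (Int.emod_nonneg _ hpz)
  set M := (N + (p - 1 - r)) / p with hM
  have hiff : ∀ i, i < M ↔ r + p * i < N := by
    intro i
    rw [hM, Nat.lt_iff_add_one_le, Nat.le_div_iff_mul_le hp.pos, add_mul, one_mul, mul_comm i p]
    omega
  have hinv : ∀ q ∈ Q, ∃ s : ℤ, (q:ℤ) ∣ s * p - 1 := by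
    intro q hq
    have hc : Nat.Coprime p q := (Nat.coprime_primes hp (hQ q hq).1).2 fun h => (hQ q hq).2 h.symm
    obtain ⟨s, t, hst⟩ := Int.isCoprime_iff_gcd_eq_one.2 (show Int.gcd p q = 1 by simpa using! hc)
    exact ⟨s, ⟨-t, by linear_combination hst⟩⟩
  choose! s hs using hinv
  refine ⟨M, fun q => (a q - r) * s q, ?_, ?_⟩
  · have h1 : M * p ≤ N + (p - 1 - r) := Nat.div_mul_le_self _ _
    have h2 : N + (p - 1 - r) < (M + 1) * p := by
      rw [hM]; exact Nat.lt_mul_of_div_lt (Nat.lt_succ_self _) hp.pos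
    have h3 : ((p - 1 - r : ℕ) : ℝ) ≤ p := by
      exact_mod_cast (show p - 1 - r ≤ p by omega)
    have hp0 : (0:ℝ) < p := by exact_mod_cast hp.pos
    have h4 : (M:ℝ) * p ≤ N + ((p - 1 - r : ℕ) : ℝ) := by exact_mod_cast h1
    have h5 : (N:ℝ) + ((p - 1 - r : ℕ) : ℝ) < (M + 1) * p := by exact_mod_cast h2
    have h6 : (0:ℝ) ≤ ((p - 1 - r : ℕ) : ℝ) := Nat.cast_nonneg _
    rw [abs_le]
    have e : (N:ℝ) / p * p = N := div_mul_cancel₀ _ hp0.ne'
    constructor <;> nlinarith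
  · symm
    have key : ∀ i : ℕ, ∀ q ∈ Q,
        ((q:ℤ) ∣ (i:ℤ) - (a q - r) * s q ↔ (q:ℤ) ∣ ((r + p * i : ℕ) : ℤ) - a q) := by
      intro i q hq
      push_cast
      have h := hs q hq
      constructor
      · intro h'
        have := dvd_sub (dvd_mul_of_dvd_right h' (p:ℤ)) (dvd_mul_of_dvd_right h ((r:ℤ) - a q))
        refine (dvd_neg.2 (dvd_neg.2 this)).trans (dvd_of_eq ?_)
        ring
      · intro h'
        have := dvd_sub (dvd_mul_of_dvd_right h' (s q)) (dvd_mul_of_dvd_right h (i:ℤ))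
        refine this.trans (dvd_of_eq ?_)
        ring
    refine Finset.card_bij (fun i _ => r + p * i) ?_ ?_ ?_
    · intro i hi
      simp only [survivors, mem_filter, mem_range] at hi ⊢
      refine ⟨⟨(hiff i).1 hi.1, fun q hq h => hi.2 q hq ((key i q hq).2 h)⟩, ?_⟩
      refine ⟨(i:ℤ) - a p / p, ?_⟩
      push_cast
      rw [hrz, Int.emod_def]
      ring
    · intro i _ j _ h
      exact Nat.eq_of_mul_eq_mul_left hp.pos (by omega)
    · intro j hj
      simp only [survivors, mem_filter, mem_range] at hj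
      obtain ⟨⟨hjN, hjQ⟩, c, hc⟩ := hj
      have hmod : (j:ℤ) % p = r := by
        rw [hrz, show (j:ℤ) = a p + p * c by linarith, Int.add_mul_emod_self_left]
      have hmod' : j % p = r := by exact_mod_cast hmod
      have hj' : r + p * (j / p) = j := by rw [← hmod']; exact Nat.mod_add_div j p
      refine ⟨j / p, ?_, hj'⟩
      simp only [survivors, mem_filter, mem_range]
      refine ⟨(hiff _).2 (by omega), fun q hq h => hjQ q hq ?_⟩
      have := (key (j / p) q hq).1 h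
      rwa [hj'] at this

lemma single_hit_le (N : ℕ) (a : ℕ → ℤ) (Q : Finset ℕ) {p : ℕ} (hp : p.Prime) :
    (hits N a Q p : ℝ) ≤ N / p + 1 := by
  obtain ⟨M, b, hM, he⟩ := hits_progression N a ∅ hp (by simp)
  have h1 : hits N a Q p ≤ hits N a ∅ p := card_le_card fun j hj => by
    simp only [survivors, mem_filter] at hj ⊢
    exact ⟨⟨hj.1.1, by simp⟩, hj.2⟩
  have h2 : cnt M b ∅ ≤ M := cnt_le _ _ _
  have h3 : (hits N a Q p : ℝ) ≤ M := by exact_mod_cast h1.trans (he ▸ h2)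
  linarith [(abs_le.1 hM).2]

lemma card_logPrimes_le (a b : ℝ) : ((logPrimes a b).card : ℝ) ≤ Real.exp b := by
  have : logPrimes a b ⊆ Finset.Icc 1 ⌊Real.exp b⌋₊ := fun p hp => by
    rw [logPrimes, mem_filter, Nat.mem_primesLE] at hp
    exact mem_Icc.2 ⟨hp.1.2.one_le, hp.1.1⟩
  have h := card_le_card this
  rw [Nat.card_Icc, add_tsub_cancel_right] at h
  exact (Nat.cast_le.2 h).trans (Nat.floor_le (Real.exp_pos b).le)

lemma recip_sum_bound {θ : ℝ} (hθ : 0 < θ) : ∃ L₀ S : ℝ, 0 < L₀ ∧ 0 ≤ S ∧ ∀ L u : ℝ, L₀ ≤ L →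
    θ ≤ u → u ≤ 1 → ∑ p ∈ logPrimes (θ * L) (u * L), 1 / (p:ℝ) ≤ S := by
  obtain ⟨A, hA, h⟩ := mertens_sharp one_pos
  refine ⟨A / θ, |Real.log (1 / θ)| + 1, by positivity, by positivity, fun L u hL hu hu1 => ?_⟩
  have hL0 : 0 < L := lt_of_lt_of_le (by positivity) hL
  have hA' : A ≤ θ * L := by rw [mul_comm]; exact (div_le_iff₀ hθ).1 hL
  have := (abs_le.1 (h (θ * L) (u * L) hA' (mul_le_mul_of_nonneg_right hu hL0.le))).2
  rw [mul_div_mul_right _ _ hL0.ne'] at this
  have h2 : Real.log (u / θ) ≤ Real.log (1 / θ) :=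
    Real.log_le_log (div_pos (by linarith) hθ) (div_le_div_of_nonneg_right hu1 hθ.le)
  linarith [le_abs_self (Real.log (1 / θ))]

end Vale.Agent.P013
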