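import Vale.Agent.P013.Fund

/-!
Passing from a full set of primes to a subset: some residue classes for the missing primes lose
at most the expected proportion.
-/

open Finset Real

namespace Vale.Agent.P013

lemma dens_union {S T : Finset ℕ} (h : Disjoint S T) : dens (S ∪ T) = dens S * dens T :=
  prod_union h

lemma dens_insert {S : Finset ℕ} {p : ℕ} (h : p ∉ S) :
    dens (insert p S) = (1 - 1 / (p:ℝ)) * dens S :=
  prod_insert h

lemma exists_residue (N : ℕ) (a : ℕ → ℤ) (T : Finset ℕ) {q : ℕ} (hq : 0 < q) (hqT : q ∉ T) :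
    ∃ r : ℤ, (1 - 1 / (q:ℝ)) * cnt N a T ≤ cnt N (Function.update a q r) (insert q T) ∧
      cnt N (Function.update a q r) T = cnt N a T := by
  have hsurv : ∀ r : ℤ, survivors N (Function.update a q r) T = survivors N a T := by
    intro r
    refine Finset.filter_congr fun j _ => ?_
    refine forall₂_congr fun p hp => ?_
    rw [Function.update_of_ne (fun h : p = q => hqT (h ▸ hp))]
  have hhit : ∀ r : ℕ, r < q → hits N (Function.update a q (r:ℤ)) T q =
      ((survivors N a T).filter fun j => j % q = r).card := by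
    intro r hr
    rw [hits, hsurv, Function.update_self]
    refine congrArg Finset.card (Finset.filter_congr fun j _ => ?_)
    rw [← Nat.modEq_iff_dvd, Nat.ModEq, Nat.mod_eq_of_lt hr, eq_comm]
  have hsum : ∑ r ∈ range q, (((survivors N a T).filter fun j => j % q = r).card : ℝ) ≤
      ∑ _r ∈ range q, (cnt N a T : ℝ) / q := by
    rw [← Nat.cast_sum, ← card_eq_sum_card_fiberwise (fun j _ => mem_range.2 (Nat.mod_lt j hq)),
      sum_const, card_range, nsmul_eq_mul, mul_div_cancel₀ _ (by exact_mod_cast hq.ne')]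
    rfl
  obtain ⟨r, hr, hle⟩ := exists_le_of_sum_le (nonempty_range_iff.2 hq.ne') hsum
  refine ⟨(r:ℤ), ?_, by rw [cnt, hsurv]; rfl⟩
  have h := cnt_insert N (Function.update a q (r:ℤ)) T q
  rw [hhit r (mem_range.1 hr), show cnt N (Function.update a q (r:ℤ)) T = cnt N a T by
    rw [cnt, hsurv]; rfl] at h
  have h' : (cnt N (Function.update a q (r:ℤ)) (insert q T) : ℝ) +
      ((survivors N a T).filter fun j => j % q = r).card = cnt N a T := by exact_mod_cast h
  rw [sub_mul, one_mul, div_mul_eq_mul_div, one_mul]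
  linarith

/-- Extending the set of primes by well chosen classes. -/
lemma exists_extend (N : ℕ) (a : ℕ → ℤ) (Q M : Finset ℕ)
    (hM : ∀ q ∈ M, q.Prime ∧ q ∉ Q) :
    ∃ a' : ℕ → ℤ, dens M * cnt N a Q ≤ cnt N a' (Q ∪ M) := by
  induction M using Finset.induction_on with
  | empty => exact ⟨a, by simp [dens]⟩
  | insert q M hq ih =>
    obtain ⟨a₁, h1⟩ := ih fun p hp => hM p (mem_insert_of_mem hp)
    obtain ⟨hqp, hqQ⟩ := hM q (mem_insert_self q M)
    obtain ⟨r, h2, -⟩ := exists_residue N a₁ (Q ∪ M) hqp.pos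
      (fun h => (mem_union.1 h).elim hqQ hq)
    refine ⟨Function.update a₁ q r, ?_⟩
    have hx : 0 ≤ 1 - 1 / (q:ℝ) := by
      have : (1:ℝ) ≤ q := by exact_mod_cast hqp.one_le
      rw [sub_nonneg, div_le_one (by linarith)]; exact this
    rw [dens_insert hq, union_insert, mul_assoc]
    exact (mul_le_mul_of_nonneg_left h1 hx).trans h2

/-- Densities are bounded below by the reciprocal sum. -/
lemma exp_neg_sum_le_dens {S : Finset ℕ} (hS : ∀ p ∈ S, p.Prime) :
    Real.exp (-(2 * ∑ p ∈ S, 1 / (p:ℝ))) ≤ dens S := by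
  rw [← neg_mul, mul_sum, Real.exp_sum]
  refine prod_le_prod (fun p _ => (Real.exp_pos _).le) fun p hp => ?_
  have h2 : (2:ℝ) ≤ p := by exact_mod_cast (hS p hp).two_le
  have h3 : 1 / (p:ℝ) ≤ 1/2 := by gcongr
  have h4 : (0:ℝ) ≤ 1 / (p:ℝ) := by positivity
  have h5 := Real.add_one_le_exp (2 * (1 / (p:ℝ)))
  rw [neg_mul, Real.exp_neg, inv_le_iff_one_le_mul₀' (Real.exp_pos _)]
  have h6 := mul_le_mul_of_nonneg_right h5 (show (0:ℝ) ≤ 1 - 1 / (p:ℝ) by linarith)
  nlinarith

end Vale.Agent.P013
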