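import Vale.Agent.P013.Main

/-!
Vaughan's exponent for moduli whose prime factors are sparse between `k^a` and `k`.
-/

open Finset Real

namespace Vale.Agent.P013

set_option maxHeartbeats 1000000 in
/-- A positive proportion survives all primes up to `exp (a L)` at any level above `2a`. -/
theorem lower_above_two {a ε : ℝ} (ha : 0 < a) (ha1 : a ≤ 1) (hε : 0 < ε) (hε1 : ε ≤ 1) :
    ∃ t c K L₀ : ℝ, 0 < t ∧ t < a ∧ t ≤ ε ∧ 0 < c ∧ 0 ≤ K ∧ 0 < L₀ ∧
      ∀ (L v : ℝ) (S₀ : Finset ℕ), L₀ ≤ L → (2 + ε) * a ≤ v → v ≤ 4 →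
        (∀ p ∈ S₀, p.Prime ∧ Real.log p ≤ t * L) →
        (∀ (M : ℕ) (b : ℕ → ℤ), (cnt M b S₀ : ℝ) ≤
          2 * (M * dens S₀) + Real.exp (ε * L)) ∧
        ∀ (N : ℕ) (b : ℕ → ℤ), c * (N * dens S₀) - K * Real.exp ((v + ε) * L) ≤
          cnt N b (S₀ ∪ logPrimes (t * L) (a * L)) := by
  obtain ⟨G, hG, hfund⟩ := fundamental
  set f := lowN (2 + ε) with hf
  have hf0 : 0 < f := by
    have h := low_strictMonoOn (Set.self_mem_Ici (a := (2:ℝ)))
      (show (2:ℝ) ≤ 2 + ε by linarith) (show (2:ℝ) < 2 + ε by linarith)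
    rw [low, smallG_of_le le_rfl, zero_div] at h
    exact div_pos h limL_pos
  have hf1 : f ≤ 1 := lowN_le_one (by linarith)
  obtain ⟨r₀, hr₀⟩ := exists_pow_lt_of_lt_one
    (show 0 < f / (32 * G) by positivity) (show (1/4:ℝ) < 1 by norm_num)
  obtain ⟨j₀, hj⟩ := exists_pow_two_ge (max ((4 * (r₀:ℝ) + 20) / ε) (2 / a))
  set t : ℝ := (1/2) ^ j₀ with htdef
  have ht0 : 0 < t := by positivity
  have ht1 : t ≤ 1 := pow_le_one₀ (by norm_num) (by norm_num)
  have ht2 : t * 2 ^ j₀ = 1 := by rw [htdef, ← mul_pow]; norm_num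
  set S : ℝ := (j₀:ℝ) + 1 with hS
  have hS1 : 1 ≤ S := le_add_of_nonneg_left (Nat.cast_nonneg _)
  have hjt : max ((4 * (r₀:ℝ) + 20) / ε) (2 / a) * S * t ≤ 1 := by
    have hm : 0 ≤ max ((4 * (r₀:ℝ) + 20) / ε) (2 / a) := le_max_of_le_right (by positivity)
    calc _ ≤ max ((4 * (r₀:ℝ) + 20) / ε) (2 / a) * S ^ 2 * t :=
          mul_le_mul_of_nonneg_right (mul_le_mul_of_nonneg_left (le_self_pow₀ hS1 two_ne_zero) hm) ht0.le
      _ ≤ 2 ^ j₀ * t := mul_le_mul_of_nonneg_right hj ht0.le
      _ = 1 := by rw [mul_comm, ht2]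
  have hta : t < a := by
    have h1 : 2 / a * 1 * t ≤ max ((4 * (r₀:ℝ) + 20) / ε) (2 / a) * S * t :=
      mul_le_mul_of_nonneg_right (mul_le_mul (le_max_right _ _) hS1 zero_le_one
        (le_max_of_le_right (by positivity))) ht0.le
    have h2 := h1.trans hjt
    rw [mul_one, div_mul_eq_mul_div, div_le_one ha] at h2
    linarith
  set r := 2 * j₀ + r₀ with hr
  set η := (4 * (r:ℝ) + 11) * t with hη
  have hηε : η + t ≤ ε := by
    have h1 : (4 * (r₀:ℝ) + 20) / ε * S * t ≤ 1 :=
      le_trans (mul_le_mul_of_nonneg_right (mul_le_mul_of_nonneg_right (le_max_left _ _)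
        (by positivity)) ht0.le) hjt
    rw [div_mul_eq_mul_div, div_mul_eq_mul_div, div_le_one hε] at h1
    have h2 : 4 * (r:ℝ) + 12 ≤ (4 * (r₀:ℝ) + 20) * S := by
      rw [hr, hS]; push_cast
      nlinarith [Nat.cast_nonneg (α := ℝ) j₀, Nat.cast_nonneg (α := ℝ) r₀]
    have h3 := mul_le_mul_of_nonneg_right h2 ht0.le
    rw [hη]; linarith
  have hη0 : 0 ≤ η := by positivity
  set e := t ^ 3 * f / 4 with he
  have he0 : 0 < e := by positivity
  have he1 : e ≤ 1 := by
    have : t ^ 3 * f ≤ 1 := mul_le_one₀ (pow_le_one₀ ht0.le ht1) hf0.le hf1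
    rw [he]; linarith
  have hre : (1/4:ℝ) ^ r < min e 1 / (8 * G) := by
    rw [min_eq_left he1, hr, pow_add]
    have h1 : (1/4:ℝ) ^ (2 * j₀) = t ^ 4 := by
      rw [htdef, ← pow_mul, show (1/4:ℝ) = (1/2) ^ 2 by norm_num, ← pow_mul]
      congr 1; ring
    rw [h1, lt_div_iff₀ (by positivity)]
    rw [lt_div_iff₀ (by positivity)] at hr₀
    have h2 : t ^ 4 ≤ t ^ 3 := pow_le_pow_of_le_one ht0.le ht1 (by norm_num)
    have h3 := mul_lt_mul_of_pos_left hr₀ (show 0 < t ^ 3 by positivity)
    have h4 := mul_le_mul_of_nonneg_right h2 (show 0 ≤ (1/4:ℝ) ^ r₀ * (8 * G) by positivity)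
    rw [he]; linarith
  obtain ⟨n, hn⟩ := exists_nat_gt (4 / t)
  have hnt : 4 < n * t := (div_lt_iff₀ ht0).1 hn
  obtain ⟨K, L₁, hK, hL₁, hlow⟩ :=
    (sieve_all ht0 ht1 n).2 (t * f / 4) (by positivity)
  obtain ⟨L₃, hL₃, hgood⟩ := good_tiny ht0 ht1
  refine ⟨t, t * f / 4, K, max L₁ L₃, ht0, hta, by linarith, by positivity, hK,
    lt_max_of_lt_left hL₁, fun L v S₀ hL hv hv4 hS₀ => ?_⟩
  have hL0 : 0 < L := (lt_max_of_lt_left hL₁).trans_le hL
  have hg : Good t L η e S₀ := hgood e r (hfund e r he0 hre) L S₀ ((le_max_right _ _).trans hL) hS₀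
  obtain ⟨hV0, -⟩ := dens_pos fun q hq => (hS₀ q hq).1
  refine ⟨fun M b => ?_, fun N b => ?_⟩
  · have h1 := (abs_le.1 (hg.2.2 M b)).2
    have h2 := mul_le_mul_of_nonneg_right he1 (mul_nonneg (Nat.cast_nonneg (α := ℝ) M) hV0.le)
    have h3 : Real.exp (η * L) ≤ Real.exp (ε * L) :=
      Real.exp_le_exp.2 (mul_le_mul_of_nonneg_right (by linarith) hL0.le)
    linarith
  · have h := hlow L a v η e S₀ ((le_max_left _ _).trans hL) hta.le ha1 (by nlinarith)
      (by linarith) he0.le he1 hg N b
    have hfv : t * f ≤ t / a * lowN (v / a) :=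
      mul_le_mul (by rw [le_div_iff₀ ha]; exact mul_le_of_le_one_right ht0.le ha1)
        (lowN_mono (by linarith) (by rw [le_div_iff₀ ha]; exact hv)) hf0.le (by positivity)
    have hea : e * amp t a ≤ t * f / 4 := by
      calc e * amp t a ≤ e * amp t 1 := mul_le_mul_of_nonneg_left (amp_mono ht0 hta.le ha1) he0.le
        _ = t * f / 4 := by rw [he, amp]; field_simp
    have hNV : 0 ≤ (N:ℝ) * dens S₀ := mul_nonneg (Nat.cast_nonneg N) hV0.le
    have h1 := mul_le_mul_of_nonneg_left
      (show t * f / 2 ≤ t / a * lowN (v / a) - t * f / 4 - e * amp t a by linarith) hNV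
    have h2 : K * Real.exp ((v + η) * L) ≤ K * Real.exp ((v + ε) * L) :=
      mul_le_mul_of_nonneg_left
        (Real.exp_le_exp.2 (mul_le_mul_of_nonneg_right (by linarith) hL0.le)) hK
    have h3 : 0 ≤ (N:ℝ) * dens S₀ * (t * f) := by positivity
    linarith

set_option maxHeartbeats 1000000 in
/-- If the primes of `n` between `k^a` and `k` have small reciprocal sum, then Jacobsthal's
function is at most `C k^(max 1 (2a) + ε)`. -/
theorem jacobsthal_thin {a ε : ℝ} (ha : 0 < a) (ha1 : a ≤ 1) (hε : 0 < ε) :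
    ∃ c C : ℝ, 0 < c ∧ ∀ n : ℕ, 2 ≤ n → ∑ p ∈ n.primeFactors.filter (fun p : ℕ =>
      (n.primeFactors.card : ℝ) ^ a < p ∧ p ≤ n.primeFactors.card), 1 / (p:ℝ) ≤ c →
    ∀ x : ℤ, ∃ m : ℤ, x ≤ m ∧ (m:ℝ) < x + C * (n.primeFactors.card : ℝ) ^ (max 1 (2 * a) + ε) ∧
      IsCoprime m (n:ℤ) := by
  set w := max 1 (2 * a) with hw
  have hw1 : 1 ≤ w := le_max_left _ _
  have hw2 : 2 * a ≤ w := le_max_right _ _
  have hw3 : w ≤ 2 := max_le (by norm_num) (by linarith)
  set δ := min (ε / 4) (1 / 2) with hδ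
  have hδ0 : 0 < δ := lt_min (by positivity) (by norm_num)
  have hδε : δ ≤ ε / 4 := min_le_left _ _
  obtain ⟨t, c, K, L₁, ht0, hta, htδ, hc, hK, hL₁, hsieve⟩ :=
    lower_above_two ha ha1 hδ0 ((min_le_right _ _).trans (by norm_num))
  obtain ⟨A, hA, hmert⟩ := mertens_sharp (show 0 < c / 32 by positivity)
  set M := max 1 (32 / c) with hMdef
  have hM1 : 1 ≤ M := le_max_left _ _
  have hM0 : 0 < M := by linarith
  have hMc : 1 / M ≤ c / 32 := by
    rw [div_le_iff₀ hM0]
    have h4 : 32 / c ≤ M := le_max_right _ _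
    rw [div_le_iff₀ hc] at h4
    linarith
  obtain ⟨k₀, hk₀⟩ := exists_nat_gt
    (max (max 1 (Real.exp L₁)) (Real.exp (max A (32 * Real.log M / c))))
  set C := (2:ℝ) ^ k₀ * 2 ^ k₀ + 4 * (K + 3) / c + 2 with hC
  refine ⟨c / 32, C + 2, by positivity, fun n hn hthin x => ?_⟩
  set P := n.primeFactors
  set k := P.card with hk
  have hk1 : 1 ≤ k := card_pos.2 ((Nat.nonempty_primeFactors).2 hn)
  have hk1' : (1:ℝ) ≤ k := by exact_mod_cast hk1
  have hP : ∀ p ∈ P, p.Prime := fun p hp => Nat.prime_of_mem_primeFactors hp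
  have hpow1 : (1:ℝ) ≤ (k:ℝ) ^ (w + ε) := Real.one_le_rpow hk1' (by linarith)
  set N := ⌈C * (k:ℝ) ^ (w + ε)⌉₊ with hN
  have hC0 : 0 ≤ C := by rw [hC]; positivity
  have hNlo : C * (k:ℝ) ^ (w + ε) ≤ N := Nat.le_ceil _
  have hNhi : (N:ℝ) < (C + 2) * (k:ℝ) ^ (w + ε) := by
    have := Nat.ceil_lt_add_one (show 0 ≤ C * (k:ℝ) ^ (w + ε) by positivity)
    rw [← hN] at this
    linarith
  have hfin : ∀ h : 0 < cnt N (fun _ => -x) P, ∃ m : ℤ,
      x ≤ m ∧ (m:ℝ) < x + (C + 2) * (k:ℝ) ^ (w + ε) ∧ IsCoprime m (n:ℤ) := by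
    intro h
    obtain ⟨m, h1, h2, h3⟩ := exists_coprime_of_pos (by omega) x h
    have : (m:ℝ) < x + N := by exact_mod_cast h2
    exact ⟨m, h1, by linarith, h3⟩
  refine hfin ?_
  have goal' : (0:ℝ) < cnt N (fun _ => -x) P := by
    rcases le_or_gt k k₀ with hsmall | hlarge
    · refine small_case hP hsmall ?_
      have h5 : (2:ℝ) ^ k₀ * 2 ^ k₀ + 2 ≤ C := by
        rw [hC]
        have : (0:ℝ) ≤ 4 * (K + 3) / c := by positivity
        linarith
      exact (h5.trans (le_mul_of_one_le_right hC0 hpow1)).trans hNlo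
    · have hkk : (k₀:ℝ) < k := by exact_mod_cast hlarge
      have hk0 : (0:ℝ) < k := by linarith
      set L := Real.log k with hL
      have hexpL : Real.exp L = k := Real.exp_log hk0
      have hkbig := hk₀.trans hkk
      have hL1' : L₁ ≤ L := by
        rw [hL, Real.le_log_iff_exp_le hk0]
        exact (lt_of_le_of_lt ((le_max_right _ _).trans (le_max_left _ _)) hkbig).le
      have hL2' : max A (32 * Real.log M / c) ≤ L := by
        rw [hL, Real.le_log_iff_exp_le hk0]
        exact (lt_of_le_of_lt (le_max_right _ _) hkbig).le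
      have hLpos : 0 < L := hL₁.trans_le hL1'
      set S₀ := P.filter (fun p : ℕ => Real.log (p:ℝ) ≤ t * L) with hS₀
      set S := logPrimes (t * L) (a * L) with hS
      set R := P.filter (fun p : ℕ => a * L < Real.log (p:ℝ)) with hR
      have hS₀p : ∀ p ∈ S₀, p.Prime ∧ Real.log p ≤ t * L := fun p hp =>
        ⟨hP p (mem_filter.1 hp).1, (mem_filter.1 hp).2⟩
      obtain ⟨hbase, hlow⟩ := hsieve L (w + 2 * δ) S₀ hL1'
        (by
          have := mul_le_mul_of_nonneg_left ha1 hδ0.le
          linarith) (by linarith [min_le_right (ε / 4) (1/2:ℝ)]) hS₀p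
      set V := dens S₀ with hVdef
      obtain ⟨hV0, hV1⟩ := dens_pos fun p hp => (hS₀p p hp).1
      have hVlo : Real.exp (-(t * L)) ≤ V := exp_neg_le_dens hS₀p (by positivity)
      have hsplit : P ⊆ (S₀ ∪ S) ∪ R := by
        intro p hp
        rw [mem_union, mem_union]
        rcases le_or_gt (Real.log p) (t * L) with h | h
        · exact Or.inl (Or.inl (mem_filter.2 ⟨hp, h⟩))
        rcases le_or_gt (Real.log p) (a * L) with h' | h'
        · exact Or.inl (Or.inr (mem_logPrimes.2 ⟨hP p hp, h, h'⟩))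
        · exact Or.inr (mem_filter.2 ⟨hp, h'⟩)
      set X := Real.exp (δ * L) with hX
      have hX1 : 1 ≤ X := Real.one_le_exp (by positivity)
      have hhit : ∀ (Q : Finset ℕ), S₀ ⊆ Q → ∀ p ∈ R,
          (hits N (fun _ => -x) Q p : ℝ) ≤ 2 * V * ((N:ℝ) / p + 1) + X := by
        intro Q hQ p hp
        have hpne : ∀ q ∈ S₀, q.Prime ∧ q ≠ p := fun q hq => ⟨(hS₀p q hq).1, fun hqp => by
          have h1 := (hS₀p q hq).2
          rw [hqp] at h1
          have := mul_le_mul_of_nonneg_right hta.le hLpos.le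
          linarith [(mem_filter.1 hp).2]⟩
        obtain ⟨M', b', hM', he'⟩ := hits_progression N (fun _ => -x) S₀
          (hP p (mem_filter.1 hp).1) hpne
        have hle : hits N (fun _ => -x) Q p ≤ hits N (fun _ => -x) S₀ p := card_le_card fun j hj => by
          simp only [survivors, mem_filter] at hj ⊢
          exact ⟨⟨hj.1.1, fun q hq => hj.1.2 q (hQ hq)⟩, hj.2⟩
        rw [he'] at hle
        refine (Nat.cast_le.2 hle).trans ?_
        have := hbase M' b'
        have := mul_le_mul_of_nonneg_left (abs_le.1 hM').2 hV0.le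
        linarith
      have hcount : ∀ Q : Finset ℕ, Q ⊆ R → (cnt N (fun _ => -x) (S₀ ∪ S) : ℝ) -
          ∑ p ∈ Q, (2 * V * ((N:ℝ) / p + 1) + X) ≤ cnt N (fun _ => -x) (S₀ ∪ S ∪ Q) := by
        intro Q hQ
        induction Q using Finset.induction_on with
        | empty => simp
        | insert p Q hp ih =>
          have h1 := ih ((subset_insert p Q).trans hQ)
          have h2 := hhit (S₀ ∪ S ∪ Q) (fun q hq => mem_union_left _ (mem_union_left _ hq)) p
            (hQ (mem_insert_self p Q))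
          have h3 : (cnt N (fun _ => -x) (insert p (S₀ ∪ S ∪ Q)) : ℝ) +
              hits N (fun _ => -x) (S₀ ∪ S ∪ Q) p = cnt N (fun _ => -x) (S₀ ∪ S ∪ Q) := by
            exact_mod_cast cnt_insert N _ (S₀ ∪ S ∪ Q) p
          rw [sum_insert hp, union_insert]
          linarith
      have h1 : (cnt N (fun _ => -x) (S₀ ∪ S ∪ R) : ℝ) ≤ cnt N (fun _ => -x) P := by
        exact_mod_cast cnt_anti N _ hsplit
      have h2 := hcount R subset_rfl
      -- reciprocal sum over the remaining primes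
      set L' := Real.log (M * k) with hL'
      have hLL' : L' = Real.log M + L := Real.log_mul hM0.ne' hk0.ne'
      have hgap : ∑ p ∈ logPrimes L L', 1 / (p:ℝ) ≤ c / 16 := by
        have hlM : 0 ≤ Real.log M := Real.log_nonneg hM1
        have h := (abs_le.1 (hmert L L' ((le_max_left _ _).trans hL2') (by linarith))).2
        have h5 : Real.log (L' / L) ≤ c / 32 := by
          have h6 := Real.log_le_sub_one_of_pos (show 0 < L' / L by
            exact div_pos (by linarith) hLpos)
          have h7 : L' / L - 1 = Real.log M / L := by rw [hLL']; field_simp; ring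
          have h8 : Real.log M / L ≤ c / 32 := by
            have h9 := (le_max_right _ _).trans hL2'
            rw [div_le_iff₀ hc] at h9
            rw [div_le_iff₀ hLpos]
            linarith
          linarith
        linarith
      have hrec : ∑ p ∈ R, 1 / (p:ℝ) ≤ c / 8 := by
        classical
        set Qc : ℕ → Prop := fun p => (k:ℝ) ^ a < p ∧ p ≤ k with hQc
        have hpt : ∀ p ∈ R, 1 / (p:ℝ) ≤ (if Qc p then 1 / (p:ℝ) else 0) +
            (if p ∈ logPrimes L L' then 1 / (p:ℝ) else 0) + 1 / (M * k) := by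
          intro p hp
          obtain ⟨hp1, hp2⟩ := mem_filter.1 hp
          have hp0 : (0:ℝ) < p := by exact_mod_cast (hP p hp1).pos
          have z1 : 0 ≤ (if Qc p then 1 / (p:ℝ) else 0) := by split_ifs <;> positivity
          have z2 : 0 ≤ (if p ∈ logPrimes L L' then 1 / (p:ℝ) else 0) := by
            split_ifs <;> positivity
          have z3 : 0 ≤ 1 / (M * k) := by positivity
          by_cases hq : p ≤ k
          · have hq' : Qc p := ⟨by
              rw [← Real.exp_log hp0, Real.rpow_def_of_pos hk0]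
              refine Real.exp_lt_exp.2 ?_
              rw [mul_comm]; exact hp2, hq⟩
            rw [if_pos hq'] at z1 ⊢
            linarith
          · push Not at hq
            rcases le_or_gt (Real.log p) L' with h | h
            · have hmem : p ∈ logPrimes L L' := mem_logPrimes.2
                ⟨hP p hp1, Real.log_lt_log hk0 (by exact_mod_cast hq), h⟩
              rw [if_pos hmem] at z2 ⊢
              linarith
            · have : 1 / (p:ℝ) ≤ 1 / (M * k) := by
                refine one_div_le_one_div_of_le (by positivity) ?_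
                rw [← Real.exp_log hp0, ← Real.exp_log (show 0 < M * k by positivity)]
                exact Real.exp_le_exp.2 h.le
              linarith
        refine (sum_le_sum hpt).trans ?_
        rw [sum_add_distrib, sum_add_distrib, sum_const, nsmul_eq_mul]
        have i1 : ∑ p ∈ R, (if Qc p then 1 / (p:ℝ) else 0) ≤ c / 32 := by
          refine le_trans (sum_le_sum_of_subset_of_nonneg (filter_subset _ _) fun i _ _ => ?_) ?_
          · split_ifs <;> positivity
          · rw [← sum_filter]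
            convert hthin
        have i2 : ∑ p ∈ R, (if p ∈ logPrimes L L' then 1 / (p:ℝ) else 0) ≤ c / 16 := by
          rw [← sum_filter]
          exact (sum_le_sum_of_subset_of_nonneg (fun p hp => (mem_filter.1 hp).2)
            fun _ _ _ => by positivity).trans hgap
        have i3 : (R.card : ℝ) * (1 / (M * k)) ≤ 1 / M := by
          calc _ ≤ (k:ℝ) * (1 / (M * k)) :=
                mul_le_mul_of_nonneg_right (by exact_mod_cast card_filter_le _ _) (by positivity)
            _ = 1 / M := by field_simp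
        linarith
      have h3 : ∑ p ∈ R, (2 * V * ((N:ℝ) / p + 1) + X) =
          2 * V * N * ∑ p ∈ R, 1 / (p:ℝ) + (R.card : ℝ) * (2 * V + X) := by
        rw [mul_sum, ← nsmul_eq_mul, ← sum_const, ← sum_add_distrib]
        exact sum_congr rfl fun p _ => by ring
      set E := Real.exp ((w + 3 * δ) * L) with hE
      have h4 : (R.card : ℝ) * (2 * V + X) ≤ 3 * E := by
        have hR' : (R.card : ℝ) ≤ Real.exp L := by
          rw [hexpL]; exact_mod_cast card_filter_le _ _
        have hE' : Real.exp L * X ≤ E := by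
          rw [hE, hX, ← Real.exp_add]
          refine Real.exp_le_exp.2 ?_
          have := mul_le_mul_of_nonneg_right hw1 hLpos.le
          have : 0 ≤ δ * L := by positivity
          linarith
        calc (R.card : ℝ) * (2 * V + X) ≤ Real.exp L * (3 * X) :=
              mul_le_mul hR' (by linarith) (by positivity) (Real.exp_pos _).le
          _ ≤ 3 * E := by linarith
      have h5 := mul_le_mul_of_nonneg_left hrec (show (0:ℝ) ≤ 2 * V * N by positivity)
      have h6 := hlow N (fun _ => -x)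
      rw [show (w + 2 * δ + δ) * L = (w + 3 * δ) * L by ring] at h6
      rw [← hE] at h6
      have h8 : 2 * (K + 3) * E < c * (N * V) := by
        have h9 : Real.exp (t * L) * E ≤ (k:ℝ) ^ (w + ε) := by
          rw [hE, ← Real.exp_add, ← add_mul, Real.rpow_def_of_pos hk0, ← hL, mul_comm L]
          exact Real.exp_le_exp.2 (mul_le_mul_of_nonneg_right (by linarith) hLpos.le)
        have h10 : 4 * (K + 3) ≤ C * c := by
          rw [← div_le_iff₀ hc, hC]
          have : (0:ℝ) ≤ (2:ℝ) ^ k₀ * 2 ^ k₀ := by positivity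
          linarith
        have h11 : 4 * (K + 3) * (Real.exp (t * L) * E) ≤ c * N := by
          calc _ ≤ 4 * (K + 3) * (k:ℝ) ^ (w + ε) := mul_le_mul_of_nonneg_left h9 (by positivity)
            _ ≤ C * c * (k:ℝ) ^ (w + ε) := mul_le_mul_of_nonneg_right h10 (by positivity)
            _ = c * (C * (k:ℝ) ^ (w + ε)) := by ring
            _ ≤ _ := mul_le_mul_of_nonneg_left hNlo hc.le
        have h12 := mul_le_mul_of_nonneg_left hVlo (show (0:ℝ) ≤ c * N by positivity)
        have h13 := mul_le_mul_of_nonneg_right h11 (Real.exp_pos (-(t * L))).le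
        have e1 : Real.exp (t * L) * Real.exp (-(t * L)) = 1 := by
          rw [← Real.exp_add, add_neg_cancel, Real.exp_zero]
        rw [show 4 * (K + 3) * (Real.exp (t * L) * E) * Real.exp (-(t * L)) =
          4 * (K + 3) * E * (Real.exp (t * L) * Real.exp (-(t * L))) by ring, e1, mul_one] at h13
        have h14 : 0 < (K + 3) * E := mul_pos (by linarith) (Real.exp_pos _)
        linarith
      have hKE : 0 ≤ K * E := mul_nonneg hK (Real.exp_pos _).le
      linarith
  exact_mod_cast goal'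

end Vale.Agent.P013
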