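import Vale.Agent.P013.Induct
import Vale.Agent.P013.Subset
import Vale.Agent.P013.Gap

/-!
The effect of missing primes on the main term of the lower sieve.
-/

open Finset Real

namespace Vale.Agent.P013

lemma one_lt_upN {s : ℝ} (hs : 0 < s) : 1 < upN s := by
  have key : ∀ t : ℝ, 3 ≤ t → 1 < upN t := by
    intro t ht
    have h := up_step ht (show t ≤ t + 1 by linarith)
    rw [add_sub_cancel_right, add_sub_cancel_left, mul_one] at h
    have h1 := lowN_lt_one (show 2 ≤ t by linarith)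
    have h2 := one_le_upN (show 0 < t + 1 by linarith)
    nlinarith
  calc (1:ℝ) < upN (max s 3) := key _ (le_max_right _ _)
    _ ≤ upN s := upN_antitone hs (le_max_left _ _)

lemma recip_logPrimes_le {a : ℝ} (ha : 0 < a) : ∃ L₀ : ℝ, 0 < L₀ ∧ ∀ L u : ℝ, L₀ ≤ L →
    a ≤ u → u ≤ 1 → ∑ p ∈ logPrimes (a * L) (u * L), 1 / (p:ℝ) ≤ Real.log (1 / a) + 1 := by
  obtain ⟨A, hA, h⟩ := mertens_sharp one_pos
  refine ⟨A / a, by positivity, fun L u hL hu hu1 => ?_⟩
  have hL0 : 0 < L := lt_of_lt_of_le (by positivity) hL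
  have hA' : A ≤ a * L := by rw [mul_comm]; exact (div_le_iff₀ ha).1 hL
  have h1 := (abs_le.1 (h (a * L) (u * L) hA' (mul_le_mul_of_nonneg_right hu hL0.le))).2
  rw [mul_div_mul_right _ _ hL0.ne'] at h1
  have : Real.log (u / a) ≤ Real.log (1 / a) :=
    Real.log_le_log (div_pos (by linarith) ha) (div_le_div_of_nonneg_right hu1 ha.le)
  linarith

/-- Telescoping identity for a main term weighted by the missing primes `M`. -/
lemma weighted_identity (φ : ℕ → ℝ) (A M : Finset ℕ) (hA : ∀ p ∈ A, p.Prime) :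
    1 - ∑ p ∈ A.filter (· ∉ M), 1 / (p:ℝ) * φ p / dens ((A.filter (· < p)).filter (· ∈ M)) =
      (1 - ∑ p ∈ A, 1 / (p:ℝ) * φ p) / dens (A.filter (· ∈ M)) +
      ∑ q ∈ A.filter (· ∈ M), 1 / (q:ℝ) * (φ q - (1 - ∑ p ∈ A.filter (· < q), 1 / (p:ℝ) * φ p)) /
        dens (insert q ((A.filter (· < q)).filter (· ∈ M))) := by
  induction A using Finset.induction_on_max with
  | empty => simp [dens]
  | insert p A hlt ih =>
    have hpA : p ∉ A := fun h => lt_irrefl p (hlt p h)
    have ih' := ih fun q hq => hA q (mem_insert_of_mem hq)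
    have e1 : (insert p A).filter (· < p) = A := by
      rw [filter_insert, if_neg (lt_irrefl p), filter_true_of_mem hlt]
    have e2 : ∀ q ∈ A, (insert p A).filter (· < q) = A.filter (· < q) := fun q hq => by
      rw [filter_insert, if_neg (Nat.lt_asymm (hlt q hq))]
    have hne : dens (A.filter (· ∈ M)) ≠ 0 :=
      (dens_pos fun q hq => hA q (mem_insert_of_mem (mem_filter.1 hq).1)).1.ne'
    have hp2 : (2:ℝ) ≤ p := by exact_mod_cast (hA p (mem_insert_self _ _)).two_le
    set T₁ : Finset ℕ → ℕ → ℝ := fun B q =>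
      1 / (q:ℝ) * φ q / dens ((B.filter (· < q)).filter (· ∈ M)) with hT₁
    set T₂ : Finset ℕ → ℕ → ℝ := fun B q =>
      1 / (q:ℝ) * (φ q - (1 - ∑ r ∈ B.filter (· < q), 1 / (r:ℝ) * φ r)) /
        dens (insert q ((B.filter (· < q)).filter (· ∈ M))) with hT₂
    have s1 : ∑ q ∈ A.filter (· ∉ M), T₁ (insert p A) q = ∑ q ∈ A.filter (· ∉ M), T₁ A q :=
      sum_congr rfl fun q hq => by simp only [hT₁, e2 q (mem_filter.1 hq).1]
    have s2 : ∑ q ∈ A.filter (· ∈ M), T₂ (insert p A) q = ∑ q ∈ A.filter (· ∈ M), T₂ A q :=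
      sum_congr rfl fun q hq => by simp only [hT₂, e2 q (mem_filter.1 hq).1]
    simp only [hT₁, hT₂] at s1 s2
    by_cases hpM : p ∈ M
    · have n1 : p ∉ A.filter (· ∈ M) := fun h => hpA (mem_filter.1 h).1
      rw [filter_insert (p := (· ∉ M)), if_neg (not_not.2 hpM), filter_insert (p := (· ∈ M)),
        if_pos hpM, sum_insert n1, sum_insert hpA, e1, dens_insert n1, s1, s2, ih']
      have h1 : (p:ℝ) - 1 ≠ 0 := by linarith
      have h2 : (p:ℝ) ≠ 0 := by linarith
      field_simp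
      ring
    · have n1 : p ∉ A.filter (· ∉ M) := fun h => hpA (mem_filter.1 h).1
      rw [filter_insert (p := (· ∉ M)), if_pos hpM, sum_insert n1,
        filter_insert (p := (· ∈ M)), if_neg hpM, sum_insert hpA, e1, s1, s2]
      linear_combination ih'

/-- Lower bound for the weighted main term when primes of a set `H` are missing. -/
lemma main_gain {φ : ℕ → ℝ} {A M H : Finset ℕ} {G₁ a b ρ : ℝ} (hA : ∀ p ∈ A, p.Prime)
    (hH : H ⊆ A.filter (· ∈ M)) (ha : 0 ≤ a) (hb : 0 ≤ b)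
    (hG₁ : ∀ q ∈ H, dens ((A.filter (· < q)).filter (· ∈ M)) ≤ G₁ * dens (A.filter (· ∈ M)))
    (hlo : ∀ q ∈ A, -b ≤ φ q - (1 - ∑ p ∈ A.filter (· < q), 1 / (p:ℝ) * φ p))
    (hhi : ∀ q ∈ H, a * G₁ - b ≤ φ q - (1 - ∑ p ∈ A.filter (· < q), 1 / (p:ℝ) * φ p))
    (hR : -ρ ≤ 1 - ∑ p ∈ A, 1 / (p:ℝ) * φ p) :
    (a * (∑ q ∈ H, 1 / (q:ℝ)) - ρ) / dens (A.filter (· ∈ M)) -
        b * (∑ q ∈ A, 1 / (q:ℝ)) / dens A ≤
      1 - ∑ p ∈ A.filter (· ∉ M), 1 / (p:ℝ) * φ p / dens ((A.filter (· < p)).filter (· ∈ M)) := by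
  set W := dens (A.filter (· ∈ M)) with hW
  have hAM : ∀ q ∈ A.filter (· ∈ M), q.Prime := fun q hq => hA q (mem_filter.1 hq).1
  have hW0 : 0 < W := (dens_pos hAM).1
  have hDA : 0 < dens A := (dens_pos hA).1
  rw [weighted_identity φ A M hA, ← hW]
  have hins : ∀ q ∈ A, insert q ((A.filter (· < q)).filter (· ∈ M)) ⊆ A := fun q hq =>
    insert_subset hq ((filter_subset _ _).trans (filter_subset _ _))
  have hge : ∀ q ∈ A, dens A ≤ dens (insert q ((A.filter (· < q)).filter (· ∈ M))) := by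
    intro q hq
    set s := insert q ((A.filter (· < q)).filter (· ∈ M)) with hs
    calc dens A = dens (s ∪ A \ s) := by rw [union_sdiff_of_subset (hins q hq)]
      _ = dens s * dens (A \ s) := dens_union disjoint_sdiff
      _ ≤ dens s := mul_le_of_le_one_right (dens_pos fun p hp => hA p (hins q hq hp)).1.le
          (dens_pos fun p hp => hA p (mem_sdiff.1 hp).1).2
  have key : ∀ q ∈ A.filter (· ∈ M), (if q ∈ H then a / W * (1 / (q:ℝ)) else 0) -
      b / dens A * (1 / (q:ℝ)) ≤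
      1 / (q:ℝ) * (φ q - (1 - ∑ p ∈ A.filter (· < q), 1 / (p:ℝ) * φ p)) /
        dens (insert q ((A.filter (· < q)).filter (· ∈ M))) := by
    intro q hq
    have hqA := (mem_filter.1 hq).1
    have hq0 : (0:ℝ) ≤ 1 / (q:ℝ) := by positivity
    set D := dens (insert q ((A.filter (· < q)).filter (· ∈ M))) with hD
    have hD0 : 0 < D := hDA.trans_le (hge q hqA)
    have hbd : b / D ≤ b / dens A := div_le_div_of_nonneg_left hb hDA (hge q hqA)
    rw [mul_div_assoc]
    split_ifs with hqH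
    · have hDW : D ≤ G₁ * W := by
        refine le_trans ?_ (hG₁ q hqH)
        rw [hD, dens_insert (S := (A.filter (· < q)).filter (· ∈ M))
          (fun h => lt_irrefl q (mem_filter.1 (mem_filter.1 h).1).2)]
        exact mul_le_of_le_one_left
          (dens_pos fun p hp => hA p (mem_filter.1 (mem_filter.1 hp).1).1).1.le
          (sub_le_self _ (by positivity))
      have h1 : a / W ≤ a * G₁ / D := by
        rw [div_le_div_iff₀ hW0 hD0]
        calc a * D ≤ a * (G₁ * W) := mul_le_mul_of_nonneg_left hDW ha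
          _ = _ := by ring
      have h2 : a / W - b / dens A ≤
          (φ q - (1 - ∑ p ∈ A.filter (· < q), 1 / (p:ℝ) * φ p)) / D := by
        refine le_trans ?_ (div_le_div_of_nonneg_right (hhi q hqH) hD0.le)
        rw [sub_div (a * G₁)]; linarith
      calc _ = 1 / (q:ℝ) * (a / W - b / dens A) := by ring
        _ ≤ _ := mul_le_mul_of_nonneg_left h2 hq0
    · have h2 : -(b / dens A) ≤
          (φ q - (1 - ∑ p ∈ A.filter (· < q), 1 / (p:ℝ) * φ p)) / D := by
        refine le_trans ?_ (div_le_div_of_nonneg_right (hlo q hqA) hD0.le)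
        rw [neg_div]; linarith
      calc _ = 1 / (q:ℝ) * (-(b / dens A)) := by ring
        _ ≤ _ := mul_le_mul_of_nonneg_left h2 hq0
  have hs := sum_le_sum key
  rw [sum_sub_distrib, ← sum_filter, filter_mem_eq_inter, inter_eq_right.2 hH,
    ← mul_sum, ← mul_sum] at hs
  have h1 : b / dens A * ∑ q ∈ A.filter (· ∈ M), 1 / (q:ℝ) ≤ b / dens A * ∑ q ∈ A, 1 / (q:ℝ) :=
    mul_le_mul_of_nonneg_left
      (sum_le_sum_of_subset_of_nonneg (filter_subset _ _) fun _ _ _ => by positivity) (by positivity)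
  have h2 := div_le_div_of_nonneg_right hR hW0.le
  rw [sub_div (a * _), show a * (∑ q ∈ H, 1 / (q:ℝ)) / W = a / W * ∑ q ∈ H, 1 / (q:ℝ) by ring,
    show b * (∑ q ∈ A, 1 / (q:ℝ)) / dens A = b / dens A * ∑ q ∈ A, 1 / (q:ℝ) by ring]
  rw [neg_div] at h2
  linarith

end Vale.Agent.P013
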